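import Crest.Agent.N76.LG.Frame2
import Crest.Agent.N76.L.Geo

/-! # Row 76, Lemma G: reduction of `L.LemG` to the lattice form `LemGZ` (helper54) -/

set_option autoImplicit false

namespace Crest.Agent.N76.LG

open Finset Function
open Crest.Agent.N76.MK

section
variable {D : Type} [Fintype D] [DecidableEq D]

omit [Fintype D] [DecidableEq D] in
lemma Frm.mono {G : (D → ℝ) →ₗ[ℝ] (D → ℝ)} {K K' : ℝ} (hG : Frm G K) (h : K ≤ K') : Frm G K' :=
  ⟨fun y t hy i => (hG.fw y t hy i).trans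
      (mul_le_mul_of_nonneg_right h ((abs_nonneg _).trans (hy i))),
    fun y t hy i => (hG.bw y t hy i).trans
      (mul_le_mul_of_nonneg_right h ((abs_nonneg _).trans (hy i)))⟩

/-- steps 1–4 of the proof of Lemma G -/
theorem hypZ_of_HG {α ι : Type} {k : ℕ} (hk : Fintype.card D = k + 1) (hk1 : 1 ≤ k) {o : D}
    {N s c L κ : ℝ} {Y : Finset α} {X : α → D → ℝ} {Θ : D → Finset ι} {u : ι → D → ℝ}
    {I : α → Finset ι} (hL : HG k o N s c L Y X Θ u I) (hL10 : 10 ≤ L)
    (hLd : (Fintype.card D : ℝ) * (Fintype.card D).factorial ≤ L) (hN : 1 ≤ N) (hκ0 : 0 ≤ κ)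
    (hκ1 : κ ≤ 1) :
    ∃ (i1 : D) (j₀ : ℕ) (YZ : Finset (D → ℤ)) (P : Finset ι) (b : ι → D → ℝ)
      (W : ι → Finset (D → ℤ)) (τ : ι → (D → ℤ) → (D → ℝ)), o ≠ i1 ∧
      N ^ c ≤ L ^ ((k + 3) * (50 * (k + 1))) * ((N / 2 ^ j₀) ^ k * (N ^ κ) ^ k) ∧
      HypZ k o i1 N s κ (L ^ ((k + 3) * (50 * (k + 1)))) (2 ^ j₀) YZ P b W τ := by
  classical
  have hN0 : 0 < N := by linarith
  obtain ⟨t, ht, hY1⟩ := exists_tuple Y Θ I hL.ne (by convert hL.pop)
  obtain ⟨G, hG, hax, hg⟩ := exists_frame (Matrix.of fun i j => u (t j) i) o (by linarith) hLd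
    (fun i j => hL.ub j _ (ht j) i) (hL.det t ht)
  have hg' : ∀ θ ∈ Θ o, 1 ≤ L ^ (Fintype.card D + 2) * |G (u θ) o| := by
    intro θ hθ
    refine hg _ ?_
    have := hL.det (update t o θ) fun j => by
      by_cases hj : j = o
      · subst hj; simpa using hθ
      · rw [update_of_ne hj]; exact ht j
    convert this using 4
    ext i j
    by_cases hj : j = o
    · subst hj; simp
    · simp [Matrix.updateCol_ne hj, update_of_ne hj]
  rw [hk] at hG hg' hY1
  rw [pow_mul]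
  have hLK : L ≤ L ^ (k + 1 + 2) := le_self_pow₀ (by linarith) (by omega)
  replace hY1 := hY1.trans (mul_le_mul_of_nonneg_right
    (pow_le_pow_right₀ (by linarith : 1 ≤ L) (by omega : k + 1 ≤ k + 1 + 2)) (Nat.cast_nonneg _))
  have h := hL.mono hN0.le hLK
  have hK : 10 ≤ L ^ (k + 1 + 2) := hL10.trans hLK
  generalize L ^ (k + 1 + 2) = K at *
  clear hL hLK hg hLd hL10
  have hK0 : 0 < K := by linarith
  have hK1 : 1 ≤ K := by linarith
  have hKp : ∀ {a m : ℕ}, a ≤ m → K ^ a ≤ K ^ m := fun hm => pow_le_pow_right₀ hK1 hm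
  set Y1 := Y.filter fun y => ∀ j, t j ∈ I y with hY1d
  have hY0 : (0 : ℝ) < Y.card := by
    have h1 : 0 < (N ^ s) ^ (k + 1) := pow_pos (Real.rpow_pos_of_pos hN0 _) _
    exact (mul_pos_iff_of_pos_left hK0).1 (h1.trans_le h.big)
  have hY10 : (0 : ℝ) < Y1.card := (mul_pos_iff_of_pos_left hK0).1 (hY0.trans_le hY1)
  -- popular directions
  have hpop := popular (Θ o) (fun θ => ((Y1.filter fun y => θ ∈ I y).card : ℝ)) (η := 1 / K) hY10
    (by positivity) (fun θ _ => by exact_mod_cast card_le_card (filter_subset _ _)) (by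
      rw [double_count (Θ o) Y1 (fun θ y => θ ∈ I y), mul_comm (1 / K), mul_assoc, ← nsmul_eq_mul]
      refine card_nsmul_le_sum _ _ _ fun y hy => ?_
      have h1 := h.pop y (mem_filter.1 hy).1 o
      rw [filter_mem_eq_inter, inter_comm, one_div, ← div_eq_inv_mul, div_le_iff₀ hK0, mul_comm]
      convert h1)
  set T := (Θ o).filter fun θ => 1 / K * Y1.card / 2 ≤ ((Y1.filter fun y => θ ∈ I y).card : ℝ)
    with hT
  have hTΘ : T ⊆ Θ o := filter_subset _ _
  -- slopes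
  set al : ι → D → ℝ := fun θ i => G (u θ) i / G (u θ) o with hal
  have hg0 : ∀ θ ∈ Θ o, G (u θ) o ≠ 0 := fun θ hθ h0 => by
    have := hg' θ hθ
    rw [h0, abs_zero, mul_zero] at this
    linarith
  have hal0 : ∀ θ ∈ Θ o, al θ o = 1 := fun θ hθ => div_self (hg0 θ hθ)
  have halK : ∀ θ ∈ Θ o, ∀ i, |al θ i| ≤ K ^ 3 := by
    intro θ hθ i
    rw [hal, abs_div, div_le_iff₀ (abs_pos.2 (hg0 θ hθ))]
    calc _ ≤ K * K * 1 := by simpa using hG.fw _ K (h.ub o θ hθ) i
      _ ≤ K * K * (K * |G (u θ) o|) := mul_le_mul_of_nonneg_left (hg' θ hθ) (by positivity)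
      _ = _ := by ring
  have hmul : (T.card : ℝ) ≤ K ^ (6 * (k + 1) + 1) * (T.image fun θ i => ⌊N * al θ i⌋).card := by
    refine card_le_fibres T _ fun θ hθ => ?_
    have := h.multd.card_le (ρ := K ^ 5) (one_le_pow₀ hK1) (fun i => N * u θ i)
      (T.filter fun θ' => (fun i => ⌊N * al θ' i⌋) = fun i => ⌊N * al θ i⌋)
      ((filter_subset _ _).trans hTΘ) fun θ' hθ' i => by
        have h1 := hG.dir_close hK (δ := 1 / N) (h.ub o θ' (hTΘ (mem_filter.1 hθ').1))
          (h.ub o θ (hTΘ hθ)) (h.u0 θ') (h.u0 θ) (hg0 θ' (hTΘ (mem_filter.1 hθ').1)) (fun l => by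
            have h2 := close_of_floor (N * al θ' l) (N * al θ l)
            rw [congrFun (mem_filter.1 hθ').2 l, sub_self, abs_zero, zero_add, ← mul_sub, abs_mul,
              abs_of_pos hN0] at h2
            rw [le_div_iff₀ hN0, mul_comm]
            exact h2) i
        rw [← mul_sub, abs_mul, abs_of_pos hN0, mul_comm, ← le_div_iff₀ hN0, div_eq_mul_one_div]
        exact h1
    refine this.trans ?_
    rw [pow_succ' K (6 * (k + 1)), hk]
    exact mul_le_mul_of_nonneg_left (pow_le_big hK (a := 5) (d := k + 1) (m := 6 * (k + 1))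
      (by positivity) le_rfl (by omega)) hK0.le
  obtain ⟨i1, hi1, Q, hQT, hinj, hQc⟩ := exists_coord hk hk1 o T (fun θ i => ⌊N * al θ i⌋) ⌊N⌋
    (fun θ hθ => by rw [hal0 θ (hTΘ hθ), mul_one])
  have hΘQ : ((Θ o).card : ℝ) ≤ K ^ (6 * (k + 1) + 3) * (Q.card : ℝ) ^ k := by
    rw [one_div, ← div_eq_inv_mul, div_le_iff₀ hK0] at hpop
    have h1 : ((T.image fun θ i => ⌊N * al θ i⌋).card : ℝ) ≤ (Q.card : ℝ) ^ k := by
      exact_mod_cast hQc
    calc ((Θ o).card : ℝ) ≤ (2 * K) * T.card := by linarith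
      _ ≤ K ^ 2 * (K ^ (6 * (k + 1) + 1) * (Q.card : ℝ) ^ k) :=
          mul_le_mul (by nlinarith) (hmul.trans (mul_le_mul_of_nonneg_left h1 (by positivity)))
            (Nat.cast_nonneg _) (by positivity)
      _ = _ := by ring
  have hQ : Q.Nonempty := by
    rw [nonempty_iff_ne_empty]
    rintro rfl
    have h1 : (0 : ℝ) < (Θ o).card := by exact_mod_cast (h.ne o).card_pos
    rw [card_empty, Nat.cast_zero, zero_pow (by omega), mul_zero] at hΘQ
    linarith
  obtain ⟨P, hPQ, j₀, hP, hj₀, hsl, hQP, hfr⟩ := window Q hQ (fun θ => al θ i1) hN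
    (A := K ^ 3) (by positivity) hκ0 hκ1 (fun θ hθ => halK θ (hTΘ (hQT hθ)) i1) hinj
  obtain ⟨θ₀, hθ₀, P₁, hP₁, hP₁c, hS⟩ := cs_select P hP Y1 (card_pos.1 (by exact_mod_cast hY10))
    (fun θ y => θ ∈ I y) (η := 1 / (2 * K)) (by positivity) fun θ hθ => by
      have := (mem_filter.1 (hQT (hPQ hθ))).2
      refine le_trans (le_of_eq ?_) this
      field_simp
  have hPΘ : P ⊆ Θ o := hPQ.trans (hQT.trans hTΘ)
  have hPP₁ : (P.card : ℝ) ≤ 8 * K ^ 2 * P₁.card := by
    rw [div_pow, one_pow, one_div, ← div_eq_inv_mul, div_le_iff₀ (by positivity)] at hP₁c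
    linarith
  set β : D → ℝ := fun l => if l = o then 0 else al θ₀ l with hβ
  have hβK : ∀ l, |β l| ≤ K ^ 3 := fun l => by
    simp only [hβ]
    split_ifs
    · simp only [abs_zero]; positivity
    · exact halK θ₀ (hPΘ hθ₀) l
  obtain ⟨G', hG', hG'e⟩ := hG.shear o β hβK (by simp [hβ])
  have hK5 : K ≤ K ^ 5 := le_self_pow₀ hK1 (by omega)
  have hK3 : 0 < K ^ 3 := by positivity
  have hK31 : 1 ≤ K ^ 3 := one_le_pow₀ hK1
  obtain ⟨YZ, W, τ, hZ⟩ := hypZ_of hk (i1 := i1) (κ := κ) (ρ₀ := 2 ^ j₀) (h.mono hN0.le hK5)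
    (hK.trans hK5) hN (hG'.mono (K' := K ^ 5) (by
      calc K * (1 + K ^ 3) ≤ K * (K * K ^ 3) := by gcongr; nlinarith
        _ = _ := by ring))
    (update t o θ₀) (fun j => by
      by_cases hj : j = o
      · subst hj; simpa using hPΘ hθ₀
      · rw [update_of_ne hj]; exact ht j)
    (fun j i hij => by
      rw [hG'e]
      by_cases hj : j = o
      · subst hj
        simp only [update_self, hβ, if_neg hij, hal]
        rw [div_mul_cancel₀ _ (hg0 θ₀ (hPΘ hθ₀)), sub_self]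
      · rw [update_of_ne hj]
        have a1 : G (u (t j)) i = 0 := hax j i hij
        have a2 : G (u (t j)) o = 0 := hax j o (Ne.symm hj)
        rw [a1, a2, mul_zero, sub_zero])
    (Y1.filter fun y => θ₀ ∈ I y) ((filter_subset _ _).trans (filter_subset _ _))
    (fun y hy j => by
      by_cases hj : j = o
      · subst hj; simpa using (mem_filter.1 hy).2
      · rw [update_of_ne hj]; exact (mem_filter.1 (mem_filter.1 hy).1).2 j)
    P₁ (by
      rw [nonempty_iff_ne_empty]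
      rintro rfl
      have h1 : (0 : ℝ) < P.card := by exact_mod_cast hP.card_pos
      rw [card_empty, Nat.cast_zero, mul_zero] at hPP₁
      linarith)
    (hP₁.trans hPΘ) (fun θ => Y1.filter fun y => θ ∈ I y ∧ θ₀ ∈ I y)
    (fun θ _ y hy => mem_filter.2 ⟨(mem_filter.1 hy).1, (mem_filter.1 hy).2.2⟩)
    (fun θ _ y hy => (mem_filter.1 hy).2.1)
    (fun θ hθ => by
      have h1 := hS θ hθ
      rw [div_pow, one_pow, one_div, ← div_eq_inv_mul, div_div, div_le_iff₀ (by positivity)] at h1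
      calc (Y.card : ℝ) ≤ K * Y1.card := hY1
        _ ≤ K * (((Y1.filter fun y => θ ∈ I y ∧ θ₀ ∈ I y).card : ℝ) * ((2 * K) ^ 2 * 2)) :=
            mul_le_mul_of_nonneg_left h1 hK0.le
        _ = (8 * K ^ 3) * ((Y1.filter fun y => θ ∈ I y ∧ θ₀ ∈ I y).card : ℝ) := by ring
        _ ≤ _ := by
            refine mul_le_mul_of_nonneg_right ?_ (Nat.cast_nonneg _)
            calc 8 * K ^ 3 ≤ K ^ 2 * K ^ 3 := by gcongr; nlinarith
              _ = _ := by ring)
    (fun θ i => al θ i - β i) (fun θ => G (u θ) o)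
    (fun θ hθ i => by
      rw [hG'e, mul_sub, hal, mul_div_cancel₀ _ (hg0 θ (hPΘ (hP₁ hθ))), mul_comm])
    (fun θ hθ => by simp [hβ, hal0 θ (hPΘ (hP₁ hθ))])
    (fun θ hθ i => by
      refine (abs_sub _ _).trans ((add_le_add (halK θ (hPΘ (hP₁ hθ)) i) (hβK i)).trans ?_)
      calc K ^ 3 + K ^ 3 = 2 * K ^ 3 := by ring
        _ ≤ K ^ 2 * K ^ 3 := by gcongr; nlinarith
        _ = _ := by ring)
    (fun θ hθ => by
      simp only [hβ, if_neg (Ne.symm hi1)]
      exact hsl θ (hP₁ hθ) θ₀ hθ₀)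
    (by positivity)
    (fun v ρ h1 h2 => by
      have hρ : 0 < ρ := lt_of_lt_of_le (by positivity) h1
      have hρκ : 0 ≤ ρ ^ κ := Real.rpow_nonneg hρ.le _
      have h3 := hfr (v i1 + 2 ^ j₀ * β i1) ρ h1 h2
      refine le_trans ?_ (h3.trans ?_)
      · refine (Nat.cast_le (α := ℝ)).2 (card_le_card fun θ hθ => ?_)
        simp only [mem_filter, mem_singleton, forall_eq] at hθ ⊢
        refine ⟨hP₁ hθ.1, ?_⟩
        convert hθ.2 using 2
        ring
      · calc 4 * ρ ^ κ * P.card ≤ 4 * ρ ^ κ * (8 * K ^ 2 * P₁.card) := by gcongr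
          _ = (32 * K ^ 2) * ρ ^ κ * P₁.card := by ring
          _ ≤ (K ^ 3 * K ^ 2) * ρ ^ κ * P₁.card := by
              gcongr
              calc (32 : ℝ) ≤ 10 ^ 3 := by norm_num
                _ ≤ K ^ 3 := by gcongr
          _ = _ := by ring)
  refine ⟨i1, j₀, YZ, P₁, fun θ i => al θ i - β i, W, τ, hi1, ?_, ?_⟩
  · have hU : 0 < N / 2 ^ j₀ := by positivity
    have hNκ : 0 < N ^ κ := Real.rpow_pos_of_pos hN0 _
    have h1 : (Q.card : ℝ) ≤ K ^ 5 * (N / 2 ^ j₀ * N ^ κ) := by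
      calc (Q.card : ℝ) ≤ _ := hQP
        _ = (5 * (2 * K ^ 3 + 3)) * (N / 2 ^ j₀ * N ^ κ) := by ring
        _ ≤ (K ^ 2 * K ^ 3) * (N / 2 ^ j₀ * N ^ κ) := by
            refine mul_le_mul_of_nonneg_right ?_ (by positivity)
            have : 25 * K ^ 3 ≤ K ^ 2 * K ^ 3 := by gcongr; nlinarith
            linarith
        _ = _ := by ring
    calc N ^ c ≤ (Θ o).card := h.many
      _ ≤ K ^ (6 * (k + 1) + 3) * (K ^ 5 * (N / 2 ^ j₀ * N ^ κ)) ^ k :=
          hΘQ.trans (by gcongr)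
      _ = K ^ (6 * (k + 1) + 3 + 5 * k) * ((N / 2 ^ j₀) ^ k * (N ^ κ) ^ k) := by
          rw [mul_pow, mul_pow, ← pow_mul]; ring
      _ ≤ _ := mul_le_mul_of_nonneg_right (hKp (by omega)) (by positivity)
  · convert hZ using 1
    rw [← pow_mul]; congr 1; ring

end

/-- **Lemma G from its lattice form** -/
theorem lemG_of (k : ℕ) (hk : 1 ≤ k) (h : LemGZ (Fin (k + 1)) k) : L.LemG k := by
  classical
  intro c hc
  by_cases hc1 : 1 < c
  · exact ⟨1, 0, one_pos, fun N σ Λ _ h1 h2 => by linarith⟩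
  have hkR : (1 : ℝ) ≤ k := by exact_mod_cast hk
  obtain ⟨ε, N₀, hε, H⟩ := h c (c / (2 * k)) (c / (4 * k)) hc (by positivity)
    (by rw [div_lt_one (by positivity)]; linarith) (by positivity)
  set M : ℕ := (k + 3) * (50 * (k + 1)) with hM
  have hM0 : (0 : ℝ) < M := by rw [hM]; positivity
  set ε' := min ε (c / 4) / M with hε'
  have hε'0 : 0 < ε' := div_pos (lt_min hε (by positivity)) hM0
  set C : ℝ := 10 + ((k + 1 : ℕ) : ℝ) * (k + 1).factorial with hC
  have hC10 : 10 ≤ C := by rw [hC]; exact le_add_of_nonneg_right (by positivity)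
  refine ⟨ε', max N₀ (C ^ (1 / ε')), hε'0, ?_⟩
  intro N σ Λ hN hσ1 hσ2 hΛ1 hΛ α ι Y x τ Θ v I a1 a2 a3 a4 a5 a6 a7 a8 a9 a10 a11
  have hN1 : 1 ≤ N := (Real.one_le_rpow (by linarith) (by positivity)).trans
    ((le_max_right _ _).trans hN)
  have hN0 : 0 < N := by linarith
  have hCL : C ≤ N ^ ε' := by
    have := Real.rpow_le_rpow (by positivity) ((le_max_right _ _).trans hN) hε'0.le
    rwa [← Real.rpow_mul (by linarith), one_div_mul_cancel hε'0.ne', Real.rpow_one] at this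
  have hpow : ∀ (ρ : ℝ) (m : ℕ), 0 ≤ ρ → (ρ ^ σ) ^ m = ρ ^ ((m : ℝ) * σ) := fun ρ m hρ => by
    rw [← Real.rpow_natCast, ← Real.rpow_mul hρ, mul_comm]
  have hG : HG k (0 : Fin (k + 1)) N σ c Λ Y (fun y => Fin.cons (τ y) (x y)) Θ
      (fun θ => Fin.cons 1 (v θ)) I := by
    refine ⟨fun y hy i => ?_, ?_, fun z => ?_, fun ρ h1 h2 => ?_, a5, by convert a6, a7,
      fun z => ?_, fun θ => rfl, fun j θ hθ i => ?_, a10, fun j θ hθ ρ h1 h2 z => ?_⟩
    · refine Fin.cases ?_ (fun l => ?_) i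
      · exact (a1 y hy).1
      · exact (a1 y hy).2 l
    · rw [hpow _ _ hN0.le]; push_cast; exact a2
    · refine le_trans ?_ (a3 (fun l => z l.succ) (z 0))
      refine (Nat.cast_le (α := ℝ)).2 (card_le_card fun y hy => ?_)
      simp only [mem_filter] at hy ⊢
      exact ⟨hy.1, hy.2 0, fun l => hy.2 l.succ⟩
    · obtain ⟨F, hF, hF'⟩ := a4 ρ h1 h2
      refine ⟨F.image fun f => Fin.cons f.2 f.1, le_trans ?_ hF, fun y hy => ?_⟩
      · rw [hpow _ _ (by linarith)]
        push_cast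
        exact mul_le_mul_of_nonneg_right (by exact_mod_cast card_image_le)
          (Real.rpow_nonneg (by linarith) _)
      · obtain ⟨f, hf, b1, b2⟩ := hF' y hy
        refine ⟨_, mem_image_of_mem _ hf, fun i => ?_⟩
        refine Fin.cases ?_ (fun l => ?_) i
        · exact b1
        · exact b2 l
    · refine le_trans ?_ (a8 fun l => z l.succ / N)
      refine (Nat.cast_le (α := ℝ)).2 (card_le_card fun θ hθ => ?_)
      simp only [mem_filter] at hθ ⊢
      refine ⟨hθ.1, fun l => ?_⟩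
      have b1 : |N * v θ l - z l.succ| ≤ 1 := hθ.2 l.succ
      have e : v θ l - z l.succ / N = (N * v θ l - z l.succ) / N := by field_simp
      rw [e, abs_div, abs_of_pos hN0]
      exact div_le_div_of_nonneg_right b1 hN0.le
    · refine Fin.cases ?_ (fun l => ?_) i
      · simpa using hΛ1
      · exact a9 j θ hθ l
    · obtain ⟨F, hF, hF'⟩ := a11 j θ hθ ρ h1 h2 (fun l => z l.succ) (z 0)
      refine ⟨F.image fun g => Fin.cons 0 g, le_trans ?_ (hF.trans (le_of_eq ?_)),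
        fun y hy hI hz => ?_⟩
      · exact_mod_cast card_image_le
      · rw [hpow _ _ (by linarith)]
      · obtain ⟨g, hg, b1⟩ := hF' y hy hI (hz 0) fun l => hz l.succ
        refine ⟨_, mem_image_of_mem _ hg, fun i => ?_⟩
        refine Fin.cases ?_ (fun l => ?_) i
        · simp only [Fin.cons_zero, mul_one, sub_self, abs_zero]; linarith
        · exact b1 l
  obtain ⟨i1, j₀, YZ, P, b, W, τ', hi, hU, hZ⟩ := hypZ_of_HG (Fintype.card_fin _) hk
    (hG.mono hN0.le hΛ) (hC10.trans hCL) (κ := c / (2 * k))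
    (by rw [Fintype.card_fin]; refine le_trans ?_ hCL; rw [hC]; linarith) hN1 (by positivity)
    (by rw [div_le_one (by positivity)]; linarith)
  rw [← hM] at hU hZ
  have hLM : (N ^ ε') ^ M = N ^ min ε (c / 4) := by
    rw [← Real.rpow_natCast, ← Real.rpow_mul hN0.le, hε', div_mul_cancel₀ _ hM0.ne']
  rw [hLM] at hU hZ
  refine H _ _ 0 i1 N σ _ j₀ YZ P b W τ' hi ((le_max_left _ _).trans hN) hσ1 hσ2
    (Real.one_le_rpow hN1 (lt_min hε (by positivity)).le)
    (Real.rpow_le_rpow_of_exponent_le hN1 (min_le_left _ _)) ?_ hZ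
  have e : ∀ a : ℝ, (N ^ (a / k)) ^ k = N ^ a := fun a => by
    rw [← Real.rpow_natCast, ← Real.rpow_mul hN0.le, div_mul_cancel₀ _ (by positivity)]
  refine le_of_pow_le_pow_left₀ (n := k) (by omega) (by positivity) ?_
  rw [← div_div, e] at hU ⊢
  have h1 : N ^ min ε (c / 4) ≤ N ^ (c / 4) :=
    Real.rpow_le_rpow_of_exponent_le hN1 (min_le_right _ _)
  have h2 : N ^ c = N ^ (c / 4) * (N ^ (c / 4) * N ^ (c / 2)) := by
    rw [← Real.rpow_add hN0, ← Real.rpow_add hN0]; congr 1; ring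
  have h3 : 0 < N ^ (c / 4) := Real.rpow_pos_of_pos hN0 _
  have h4 : 0 < N ^ (c / 2) := Real.rpow_pos_of_pos hN0 _
  have h5 := hU.trans (mul_le_mul_of_nonneg_right h1 (by positivity))
  rw [h2] at h5
  exact le_of_mul_le_mul_right (le_of_mul_le_mul_left h5 h3) h4

end Crest.Agent.N76.LG
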