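import Crest.Agent.N76.LG.Z4

/-! # Row 76, Lemma G (lattice form): `lemGZ` (helper96) -/

set_option autoImplicit false

namespace Crest.Agent.N76.LG

open Finset Function Filter
open Crest.Agent.N76.MK

/-- polynomially bounded nonnegative functions of the loss -/
def Pb (f : ℝ → ℝ) : Prop := ∃ E : ℕ, ∀ Λ : ℝ, 2 ≤ Λ → 0 ≤ f Λ ∧ f Λ ≤ Λ ^ E

lemma Pb.id : Pb fun Λ => Λ := ⟨1, fun Λ h => ⟨by linarith, by simp⟩⟩

lemma Pb.const {c : ℝ} (hc : 0 ≤ c) : Pb fun _ => c := by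
  obtain ⟨E, hE⟩ := pow_unbounded_of_one_lt c (show (1 : ℝ) < 2 by norm_num)
  exact ⟨E, fun Λ h => ⟨hc, hE.le.trans (pow_le_pow_left₀ (by norm_num) h E)⟩⟩

lemma Pb.mul {f g : ℝ → ℝ} (hf : Pb f) (hg : Pb g) : Pb fun Λ => f Λ * g Λ := by
  obtain ⟨E, h1⟩ := hf
  obtain ⟨F, h2⟩ := hg
  refine ⟨E + F, fun Λ h => ⟨mul_nonneg (h1 Λ h).1 (h2 Λ h).1, ?_⟩⟩
  rw [pow_add]
  exact mul_le_mul (h1 Λ h).2 (h2 Λ h).2 (h2 Λ h).1 (by positivity)

lemma Pb.pow {f : ℝ → ℝ} (hf : Pb f) (n : ℕ) : Pb fun Λ => f Λ ^ n := by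
  obtain ⟨E, h1⟩ := hf
  refine ⟨E * n, fun Λ h => ⟨pow_nonneg (h1 Λ h).1 n, ?_⟩⟩
  rw [pow_mul]
  exact pow_le_pow_left₀ (h1 Λ h).1 (h1 Λ h).2 n

lemma pb_k7 (k : ℕ) : Pb fun Λ => 120 * k7 k Λ := by
  have c : ∀ c : ℝ, 0 ≤ c → Pb fun _ => c := fun _ => Pb.const
  have i := Pb.id
  have h1 : Pb (k1 k) := i.mul (((c 10 (by norm_num)).mul (i.pow 6)).pow k)
  have h2 : Pb (k2 k) := h1.mul (i.pow 2)
  have h3 : Pb (k3 k) := (i.pow 3).mul ((((c (30 * (k + 1)) (by positivity)).mul h2).mul i).pow k)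
  have h4 : Pb (k4 k) := (((c 30 (by norm_num)).mul (i.pow 2)).mul h3).mul h2
  have h5 : Pb (k5 k) := ((c 130 (by norm_num)).mul (i.pow 3)).mul h2
  have h6 : Pb (k6 k) := (((((c 8 (by norm_num)).mul i).mul (h3.pow (k + 1))).mul
    ((((c 8 (by norm_num)).mul i).mul h3).mul h5)).mul
    (h4.mul (((c 5 (by norm_num)).mul i).pow (k + 1)))).mul ((c 7 (by norm_num)).mul i)
  exact (c 120 (by norm_num)).mul (((((c 1000 (by norm_num)).mul (i.pow 3)).mul h2).mul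
    ((h3.mul h4).pow 2)).mul h6)

/-- the number of dyadic scales is a small power -/
lemma exists_T {ε : ℝ} (hε : 0 < ε) : ∀ᶠ N : ℝ in atTop, ∃ T : ℕ, (T : ℝ) ≤ N ^ ε ∧
    ∀ i, i < T ↔ (2 : ℝ) ^ i ≤ N := by
  filter_upwards [(tendsto_rpow_atTop (half_pos hε)).eventually_ge_atTop (4 / ε + 1),
    eventually_ge_atTop (1 : ℝ)] with N h1 h2
  obtain ⟨t, t1, t2⟩ := exists_nat_pow_near h2 (show (1 : ℝ) < 2 by norm_num)
  refine ⟨t + 1, ?_, fun i => ⟨fun hi => le_trans (pow_le_pow_right₀ (by norm_num) (by omega)) t1,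
    fun hi => (pow_lt_pow_iff_right₀ (show (1 : ℝ) < 2 by norm_num)).1 (hi.trans_lt t2)⟩⟩
  have h3 : (t : ℝ) * Real.log 2 ≤ Real.log N := by
    rw [← Real.log_pow]; exact Real.log_le_log (by positivity) t1
  have h4 := Real.log_le_rpow_div (show 0 ≤ N by linarith) (half_pos hε)
  have h5 := Real.log_two_gt_d9
  have h6 : 1 ≤ N ^ (ε / 2) := Real.one_le_rpow h2 (by linarith)
  have h7 : N ^ ε = N ^ (ε / 2) * N ^ (ε / 2) := by rw [← Real.rpow_add (by linarith)]; ring_nf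
  have h8 : (t : ℝ) ≤ 4 / ε * N ^ (ε / 2) := by
    have : 4 / ε * N ^ (ε / 2) = 2 * (N ^ (ε / 2) / (ε / 2)) := by field_simp; norm_num
    nlinarith [Nat.cast_nonneg (α := ℝ) t]
  push_cast
  rw [h7]
  nlinarith

variable {D : Type} [Fintype D] [DecidableEq D]

lemma HypZ.mono {β ι : Type*} {k : ℕ} {i0 i1 : D} {N s κ Λ Λ' ρ₀ : ℝ} {Y : Finset (D → ℤ)}
    {P : Finset β} {b : β → D → ℝ} {W : β → Finset (D → ℤ)} {τ : β → (D → ℤ) → ι}
    (h : HypZ k i0 i1 N s κ Λ ρ₀ Y P b W τ) (hΛ : Λ ≤ Λ') (hN : 0 < N) (hρ : 0 < ρ₀) :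
    HypZ k i0 i1 N s κ Λ' ρ₀ Y P b W τ where
  ne := h.ne
  bd y hy i := (h.bd y hy i).trans (by gcongr)
  sub := h.sub
  big θ hθ := (h.big θ hθ).trans (by gcongr)
  cells ρ h1 h2 := (h.cells ρ h1 h2).trans (by gcongr)
  proj ρ h1 h2 c j := (h.proj ρ h1 h2 c j).trans (by gcongr)
  projN j := (h.projN j).trans (by gcongr)
  labc θ hθ := (h.labc θ hθ).trans (by gcongr)
  tube θ hθ y hy y' hy' e i := (h.tube θ hθ y hy y' hy' e i).trans hΛ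
  slope := h.slope
  fro v ρ h1 h2 := (h.fro v ρ h1 h2).trans (by
    have : 0 < ρ := lt_of_lt_of_le (by positivity) h1
    gcongr)

/-- **Lemma G, lattice form.** -/
theorem lemGZ (hBR : R070.CoreSpec93.BR) {k : ℕ} (hk : Fintype.card D = k + 1) (hk1 : 1 ≤ k) :
    LemGZ D k := by
  intro c κ lam hc hκ hκ1 hlam
  obtain ⟨εB, D₀, h1, h2, _, hB⟩ := BR.br_unif hBR hc hκ hκ1
  obtain ⟨E, hE⟩ := pb_k7 k
  set ε := lam * εB / (16 * (E + 1)) with hε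
  have hε0 : 0 < ε := by positivity
  obtain ⟨N₀, hN₀⟩ := eventually_atTop.1 ((exists_T hε0).and
    (((tendsto_rpow_atTop hε0).eventually_ge_atTop 2).and
    (((tendsto_rpow_atTop hlam).eventually_ge_atTop (1 / D₀)).and (eventually_ge_atTop (1 : ℝ)))))
  refine ⟨ε, N₀, hε0, ?_⟩
  intro β ι i0 i1 N s Λ j₀ Y P b W τ hi hN hs hs' _ hΛ hU h
  obtain ⟨⟨T, hT, hTN⟩, g2, g3, g4⟩ := hN₀ N hN
  have hU1 : 1 ≤ N / 2 ^ j₀ := (Real.one_le_rpow g4 hlam.le).trans hU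
  obtain ⟨j1, t1, t2⟩ := exists_nat_pow_near hU1 (show (1 : ℝ) < 2 by norm_num)
  rw [pow_succ'] at t2
  have hM : N ^ lam ≤ 7 * N ^ ε * 2 ^ j1 := by nlinarith [one_le_two_pow j1]
  refine (h.mono hΛ (by linarith) (by positivity)).false (T := T)
    ⟨hk, hk1, by linarith, g4, by linarith, by linarith, hT, hTN⟩ hi t1 t2.le hκ.le hκ1.le
    (hB s hs hs') ?_ ?_
  · rw [div_le_iff₀ (by positivity)]
    rw [div_le_iff₀ h2] at g3
    nlinarith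
  · calc _ ≤ ((N ^ ε) ^ E) ^ 16 := pow_le_pow_left₀ (hE _ g2).1 (hE _ g2).2 _
      _ = N ^ (ε * (E * 16)) := by
          rw [← pow_mul, ← Real.rpow_natCast, ← Real.rpow_mul (by linarith)]; push_cast; rfl
      _ ≤ N ^ (lam * εB) := by
          refine Real.rpow_le_rpow_of_exponent_le g4 ?_
          rw [hε, div_mul_eq_mul_div, div_le_iff₀ (by positivity)]
          nlinarith [mul_pos hlam h1]
      _ ≤ _ := by
          rw [Real.rpow_mul (by linarith)]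
          exact Real.rpow_le_rpow (by positivity) hM h1.le

end Crest.Agent.N76.LG
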