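import Crest.Agent.N76.MK.Main

/-! # Row 76, Lemma G, part 1: Loomis–Whitney for sets, light slices (helper96) -/

set_option autoImplicit false

namespace Crest.Agent.N76.LG

open Finset Function
open Crest.Agent.N76.MK

variable {D : Type*} [Fintype D] [DecidableEq D]

/-- projection forgetting the coordinate `j` -/
def prj (j : D) (Y : Finset (D → ℤ)) : Finset (D → ℤ) := Y.image fun y => update y j 0

/-- **Loomis–Whitney for finite sets** -/
theorem lw_set {k : ℕ} (hk : Fintype.card D = k + 1) (hk1 : 1 ≤ k) (Y : Finset (D → ℤ)) :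
    (Y.card : ℝ) ≤ ∏ j, ((prj j Y).card : ℝ) ^ ((1 : ℝ) / k) := by
  classical
  set S : Finset ℤ := insert 0 (Y.biUnion fun y => univ.image y) with hS
  have : Nonempty S := ⟨⟨0, mem_insert_self _ _⟩⟩
  have hA : (0 : ℝ) < Fintype.card S := by exact_mod_cast Fintype.card_pos
  set c : (D → S) → D → ℤ := fun x i => (x i : ℤ) with hc
  have hcinj : Injective c := fun x y h => funext fun i => Subtype.ext (congrFun h i)
  set g : D → (D → S) → ℝ := fun j x => if update (c x) j 0 ∈ prj j Y then 1 else 0 with hg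
  have g0 : ∀ j x, 0 ≤ g j x := fun j x => by simp only [hg]; split_ifs <;> norm_num
  have hcu : ∀ (x : D → S) j (a : S), c (update x j a) = update (c x) j (a : ℤ) := by
    intro x j a
    funext i
    by_cases h : i = j
    · subst h; simp [hc]
    · simp [hc, update_of_ne h]
  have key := lw hk hk1 g g0 (fun j x a => by simp only [hg, hcu, update_idem])
  refine le_trans ?_ (key.trans ?_)
  · have hsub : Y ⊆ (univ.filter fun x : D → S => c x ∈ Y).image c := by
      intro y hy
      rw [mem_image]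
      refine ⟨fun i => ⟨y i, mem_insert_of_mem (mem_biUnion.2 ⟨y, hy, mem_image_of_mem _
        (mem_univ i)⟩)⟩, ?_, rfl⟩
      simpa [hc] using hy
    calc (Y.card : ℝ) ≤ ((univ.filter fun x : D → S => c x ∈ Y).card : ℝ) := by
          exact_mod_cast (card_le_card hsub).trans card_image_le
      _ = ∑ x ∈ univ.filter fun x : D → S => c x ∈ Y, ∏ j, g j x ^ ((1 : ℝ) / k) := by
          rw [card_eq_sum_ones]
          push_cast
          refine sum_congr rfl fun x hx => ?_
          refine (prod_eq_one fun j _ => ?_).symm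
          simp only [hg]
          have : update (c x) j 0 ∈ prj j Y := mem_image_of_mem _ (mem_filter.1 hx).2
          rw [if_pos this, Real.one_rpow]
      _ ≤ _ := sum_le_sum_of_subset_of_nonneg (filter_subset _ _) fun x _ _ =>
          prod_nonneg fun j _ => Real.rpow_nonneg (g0 j x) _
  · refine prod_le_prod (fun j _ => Real.rpow_nonneg (div_nonneg (sum_nonneg fun x _ => g0 j x)
      hA.le) _) fun j _ => ?_
    refine Real.rpow_le_rpow (div_nonneg (sum_nonneg fun x _ => g0 j x) hA.le) ?_ (by positivity)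
    rw [div_le_iff₀ hA]
    simp only [hg]
    rw [sum_boole]
    have h1 : (univ.filter fun x : D → S => update (c x) j 0 ∈ prj j Y).card ≤
        ((prj j Y) ×ˢ (univ : Finset S)).card := by
      refine card_le_card_of_injOn (fun x => (update (c x) j 0, x j)) ?_ ?_
      · intro x hx
        simp only [coe_filter, mem_univ, true_and, Set.mem_ofPred_eq] at hx
        simp [hx]
      · intro x _ y _ h
        simp only [Prod.mk.injEq] at h
        funext i
        by_cases e : i = j
        · subst e; exact h.2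
        · have := congrFun h.1 i
          simp only [update_of_ne e] at this
          exact Subtype.ext this
    rw [card_product, card_univ] at h1
    exact_mod_cast h1

/-- the slice `y i = s` -/
def slc (i : D) (s : ℤ) (Y : Finset (D → ℤ)) : Finset (D → ℤ) := Y.filter fun y => y i = s

/-- Loomis–Whitney in a slice -/
lemma slice_lw {d : ℕ} (hd : Fintype.card D = d + 1) (hd1 : 1 ≤ d) (i : D) (s : ℤ)
    (Y : Finset (D → ℤ)) (hne : (slc i s Y).Nonempty) :
    ((slc i s Y).card : ℝ) ^ (((d : ℝ) - 1) / d) ≤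
      ∏ j ∈ univ.erase i, ((slc i s (prj j Y)).card : ℝ) ^ ((1 : ℝ) / d) := by
  classical
  have hdR : (1 : ℝ) ≤ d := by exact_mod_cast hd1
  have hone : ∀ j ∈ univ.erase i, (1 : ℝ) ≤ (slc i s (prj j Y)).card := by
    intro j hj
    obtain ⟨y, hy⟩ := hne
    have : (slc i s (prj j Y)).Nonempty := ⟨update y j 0, mem_filter.2 ⟨mem_image_of_mem _
      (mem_filter.1 hy).1, by rw [update_of_ne (ne_of_mem_erase hj).symm]; exact (mem_filter.1 hy).2⟩⟩
    exact_mod_cast this.card_pos
  rcases eq_or_lt_of_le hd1 with h1 | h1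
  · subst h1
    simp only [Nat.cast_one, sub_self, zero_div, Real.rpow_zero]
    exact Finset.one_le_prod (fun j hj => Real.one_le_rpow (hone j hj) (by norm_num))
  · obtain ⟨k, rfl⟩ : ∃ k, d = k + 1 := ⟨d - 1, by omega⟩
    have hk1 : 1 ≤ k := by omega
    have hkR : (0 : ℝ) < k := by exact_mod_cast hk1
    have hcard : Fintype.card {j : D // j ≠ i} = k + 1 := by
      rw [Fintype.card_subtype_compl, hd]; simp
    set r : (D → ℤ) → {j : D // j ≠ i} → ℤ := fun y j => y j with hr
    have h2 := lw_set hcard hk1 ((slc i s Y).image r)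
    rw [card_image_of_injOn (by
      intro y hy y' hy' h
      funext j
      by_cases e : j = i
      · rw [e, (mem_filter.1 hy).2, (mem_filter.1 hy').2]
      · exact congrFun h ⟨j, e⟩)] at h2
    have h3 : ∀ j : {j : D // j ≠ i}, ((prj j ((slc i s Y).image r)).card : ℝ) ≤
        (slc i s (prj j.1 Y)).card := by
      intro j
      have : prj j ((slc i s Y).image r) ⊆ (slc i s (prj j.1 Y)).image r := by
        intro x hx
        simp only [prj, mem_image] at hx
        obtain ⟨_, ⟨y, hy, rfl⟩, rfl⟩ := hx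
        refine mem_image.2 ⟨update y j.1 0, mem_filter.2 ⟨mem_image_of_mem _ (mem_filter.1 hy).1,
          by rw [update_of_ne j.2.symm]; exact (mem_filter.1 hy).2⟩, ?_⟩
        funext l
        by_cases e : l = j
        · subst e; simp [hr]
        · have e' : l.1 ≠ j.1 := fun h => e (Subtype.ext h)
          simp [hr, update_of_ne e, update_of_ne e']
      exact_mod_cast (card_le_card this).trans card_image_le
    have h4 : ((slc i s Y).card : ℝ) ≤
        ∏ j : {j : D // j ≠ i}, ((slc i s (prj j.1 Y)).card : ℝ) ^ ((1 : ℝ) / k) :=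
      h2.trans (prod_le_prod (fun j _ => by positivity) fun j _ =>
        Real.rpow_le_rpow (by positivity) (h3 j) (by positivity))
    have h5 := Real.rpow_le_rpow (by positivity) h4
      (show (0 : ℝ) ≤ (k : ℝ) / (k + 1) by positivity)
    rw [← Real.finsetProd_rpow _ _ (fun j _ => by positivity)] at h5
    have e1 : (((k + 1 : ℕ) : ℝ) - 1) / ((k + 1 : ℕ) : ℝ) = (k : ℝ) / (k + 1) := by
      push_cast; ring
    rw [e1]
    refine h5.trans (le_of_eq ?_)
    rw [prod_subtype (p := fun j => j ≠ i) (univ.erase i) (by simp)]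
    refine prod_congr rfl fun j _ => ?_
    rw [← Real.rpow_mul (by positivity)]
    congr 1
    push_cast
    field_simp

/-- light slices carry little mass -/
lemma light_slices {d : ℕ} (hd : Fintype.card D = d + 1) (hd1 : 1 ≤ d) (i : D)
    (Y : Finset (D → ℤ)) {P lam : ℝ} (hlam : 0 ≤ lam) (hP : ∀ j, ((prj j Y).card : ℝ) ≤ P) :
    ((Y.filter fun y => ((slc i (y i) Y).card : ℝ) < lam ^ d).card : ℝ) ≤ lam * P := by
  classical
  have hdR : (1 : ℝ) ≤ d := by exact_mod_cast hd1
  have hP0 : 0 ≤ P := le_trans (Nat.cast_nonneg _) (hP i)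
  set T : Finset ℤ := (Y.image fun y => y i).filter fun s => ((slc i s Y).card : ℝ) < lam ^ d
    with hT
  have h1 : ((Y.filter fun y => ((slc i (y i) Y).card : ℝ) < lam ^ d).card : ℝ) ≤
      ∑ s ∈ T, ((slc i s Y).card : ℝ) := by
    have : (Y.filter fun y => ((slc i (y i) Y).card : ℝ) < lam ^ d) ⊆ T.biUnion
        fun s => slc i s Y := by
      intro y hy
      rw [mem_filter] at hy
      exact mem_biUnion.2 ⟨y i, mem_filter.2 ⟨mem_image_of_mem _ hy.1, hy.2⟩,
        mem_filter.2 ⟨hy.1, rfl⟩⟩
    exact_mod_cast (card_le_card this).trans card_biUnion_le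
  have hcard : (univ.erase i).card = d := by
    rw [card_erase_of_mem (mem_univ i), card_univ, hd]; rfl
  have h2 : ∀ s ∈ T, ((slc i s Y).card : ℝ) ≤
      lam * ∏ j ∈ univ.erase i, ((slc i s (prj j Y)).card : ℝ) ^ ((1 : ℝ) / d) := by
    intro s hs
    rw [hT, mem_filter, mem_image] at hs
    obtain ⟨⟨y, hy, hys⟩, hs⟩ := hs
    have hne : (slc i s Y).Nonempty := ⟨y, mem_filter.2 ⟨hy, hys⟩⟩
    have hpos : (0 : ℝ) < (slc i s Y).card := by exact_mod_cast hne.card_pos
    have e : ((slc i s Y).card : ℝ) = ((slc i s Y).card : ℝ) ^ ((1 : ℝ) / d) *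
        ((slc i s Y).card : ℝ) ^ (((d : ℝ) - 1) / d) := by
      have hd0 : (d : ℝ) ≠ 0 := by linarith
      rw [← Real.rpow_add hpos, ← add_div, add_sub_cancel, div_self hd0, Real.rpow_one]
    rw [e]
    refine mul_le_mul ?_ (slice_lw hd hd1 i s Y hne) (Real.rpow_nonneg hpos.le _) hlam
    refine (Real.rpow_le_rpow hpos.le hs.le (div_nonneg zero_le_one (Nat.cast_nonneg _))).trans
      (le_of_eq ?_)
    rw [← Real.rpow_natCast, ← Real.rpow_mul hlam, mul_one_div_cancel (by linarith), Real.rpow_one]
  refine h1.trans ((sum_le_sum h2).trans ?_)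
  rw [← mul_sum]
  refine mul_le_mul_of_nonneg_left ?_ hlam
  refine (holder_many (univ.erase i) T hcard hd1 (fun j s => ((slc i s (prj j Y)).card : ℝ))
    (fun _ _ _ _ => Nat.cast_nonneg _)).trans ?_
  have h3 : ∀ j ∈ univ.erase i, (∑ s ∈ T, ((slc i s (prj j Y)).card : ℝ)) ^ ((1 : ℝ) / d) ≤
      P ^ ((1 : ℝ) / d) := by
    intro j _
    refine Real.rpow_le_rpow (sum_nonneg fun _ _ => Nat.cast_nonneg _) (le_trans ?_ (hP j))
      (by positivity)
    have : ∑ s ∈ T, (slc i s (prj j Y)).card ≤ (prj j Y).card := by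
      rw [← card_biUnion]
      · exact card_le_card (biUnion_subset.2 fun s _ => filter_subset _ _)
      · intro s _ t _ hst
        exact disjoint_filter.2 fun y _ h1 h2 => hst (h1.symm.trans h2)
    exact_mod_cast this
  refine (prod_le_prod (fun j _ => Real.rpow_nonneg (sum_nonneg fun _ _ => Nat.cast_nonneg _) _)
    h3).trans (le_of_eq ?_)
  rw [prod_const, hcard, ← Real.rpow_natCast, ← Real.rpow_mul hP0,
    one_div_mul_cancel (by linarith), Real.rpow_one]

/-- the values of the coordinate `i` with a heavy slice -/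
noncomputable def heavy (i : D) (Y : Finset (D → ℤ)) (t : ℝ) : Finset ℤ :=
  (Y.image fun y => y i).filter fun s => t ≤ ((slc i s Y).card : ℝ)

omit [Fintype D] [DecidableEq D] in
lemma card_heavy (i : D) (Y : Finset (D → ℤ)) (t : ℝ) :
    ((heavy i Y t).card : ℝ) * t ≤ Y.card := by
  classical
  have h1 : ∑ s ∈ heavy i Y t, (slc i s Y).card ≤ Y.card := by
    rw [← card_biUnion]
    · exact card_le_card (biUnion_subset.2 fun s _ => filter_subset _ _)
    · intro s _ t _ hst
      exact disjoint_filter.2 fun y _ h1 h2 => hst (h1.symm.trans h2)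
  have h2 : ((heavy i Y t).card : ℝ) * t ≤ ∑ s ∈ heavy i Y t, ((slc i s Y).card : ℝ) := by
    rw [← nsmul_eq_mul]
    exact card_nsmul_le_sum _ _ _ fun s hs => (mem_filter.1 hs).2
  exact h2.trans (by exact_mod_cast h1)

/-- **Product structure**: outside a set of at most `(d+1) lam P` points, every coordinate lies in
a set of at most `#Y / lam^d` values. -/
theorem product_structure {d : ℕ} (hd : Fintype.card D = d + 1) (hd1 : 1 ≤ d)
    (Y : Finset (D → ℤ)) {P lam : ℝ} (hlam : 0 < lam) (hP : ∀ j, ((prj j Y).card : ℝ) ≤ P) :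
    ∃ (A : D → Finset ℤ) (E : Finset (D → ℤ)), (∀ i, ((A i).card : ℝ) ≤ Y.card / lam ^ d) ∧
      (E.card : ℝ) ≤ (d + 1) * (lam * P) ∧ ∀ y ∈ Y, y ∉ E → ∀ i, y i ∈ A i := by
  classical
  refine ⟨fun i => heavy i Y (lam ^ d), univ.biUnion fun i =>
    Y.filter fun y => ((slc i (y i) Y).card : ℝ) < lam ^ d, fun i => ?_, ?_, ?_⟩
  · rw [le_div_iff₀ (by positivity)]
    exact card_heavy i Y _
  · calc _ ≤ ∑ i, ((Y.filter fun y => ((slc i (y i) Y).card : ℝ) < lam ^ d).card : ℝ) := by
          exact_mod_cast card_biUnion_le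
      _ ≤ ∑ _i : D, lam * P := sum_le_sum fun i _ => light_slices hd hd1 i Y hlam.le hP
      _ = _ := by rw [sum_const, card_univ, hd, nsmul_eq_mul]; push_cast; ring
  · intro y hy hE i
    refine mem_filter.2 ⟨mem_image_of_mem _ hy, ?_⟩
    by_contra h
    exact hE (mem_biUnion.2 ⟨i, mem_univ _, mem_filter.2 ⟨hy, not_le.1 h⟩⟩)

end Crest.Agent.N76.LG
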