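import Crest.Agent.N76.LG.ZDefs

/-! # Row 76, Lemma G, change of frame, part 1: passing to the lattice (helper54) -/

set_option autoImplicit false

namespace Crest.Agent.N76.LG

open Finset Function
open Crest.Agent.N76.MK

variable {D : Type} [Fintype D] [DecidableEq D]

open Classical in
/-- the hypotheses of `L.LemG` in uniform coordinates (`o` = time coordinate) -/
structure HG {α ι : Type} (k : ℕ) (o : D) (N s c L : ℝ) (Y : Finset α) (X : α → D → ℝ)
    (Θ : D → Finset ι) (u : ι → D → ℝ) (I : α → Finset ι) : Prop where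
  bd : ∀ y ∈ Y, ∀ i, |X y i| ≤ L * N
  big : (N ^ s) ^ (k + 1) ≤ L * Y.card
  mult : Mult Y X L
  cells : ∀ ρ : ℝ, 1 ≤ ρ → ρ ≤ N → ∃ F : Finset (D → ℝ),
    (F.card : ℝ) * (ρ ^ s) ^ (k + 1) ≤ L * Y.card ∧ ∀ y ∈ Y, ∃ f ∈ F, ∀ i, |X y i - f i| ≤ L * ρ
  ne : ∀ j, (Θ j).Nonempty
  pop : ∀ y ∈ Y, ∀ j, ((Θ j).card : ℝ) ≤ L * (I y ∩ Θ j).card
  many : N ^ c ≤ (Θ o).card
  multd : Mult (Θ o) (fun θ i => N * u θ i) L
  u0 : ∀ θ, u θ o = 1
  ub : ∀ j, ∀ θ ∈ Θ j, ∀ i, |u θ i| ≤ L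
  det : ∀ t : D → ι, (∀ j, t j ∈ Θ j) → 1 ≤ L * |(Matrix.of fun i j => u (t j) i).det|
  tubes : ∀ j, ∀ θ ∈ Θ j, ∀ ρ : ℝ, 1 ≤ ρ → ρ ≤ N → ∀ x₀ : D → ℝ, ∃ F : Finset (D → ℝ),
    (F.card : ℝ) ≤ L * (ρ ^ s) ^ k ∧ ∀ y ∈ Y, θ ∈ I y → (∀ i, |X y i - x₀ i| ≤ ρ) →
      ∃ g ∈ F, ∀ i, |X y i - X y o * u θ i - g i| ≤ L

omit [DecidableEq D] in
lemma Mult.mono' {α : Type} {Y : Finset α} {X : α → D → ℝ} {L K : ℝ} (h : Mult Y X L)
    (hK : L ≤ K) : Mult Y X K := fun y => (h y).trans hK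

lemma HG.mono {α ι : Type} {k : ℕ} {o : D} {N s c L K : ℝ} {Y : Finset α} {X : α → D → ℝ}
    {Θ : D → Finset ι} {u : ι → D → ℝ} {I : α → Finset ι} (h : HG k o N s c L Y X Θ u I)
    (hN : 0 ≤ N) (hK : L ≤ K) : HG k o N s c K Y X Θ u I where
  bd y hy i := (h.bd y hy i).trans (mul_le_mul_of_nonneg_right hK hN)
  big := h.big.trans (mul_le_mul_of_nonneg_right hK (Nat.cast_nonneg _))
  mult := Mult.mono' h.mult hK
  cells ρ h1 h2 := by
    obtain ⟨F, hF, hF'⟩ := h.cells ρ h1 h2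
    refine ⟨F, hF.trans (mul_le_mul_of_nonneg_right hK (Nat.cast_nonneg _)), fun y hy => ?_⟩
    obtain ⟨f, hf, hf'⟩ := hF' y hy
    exact ⟨f, hf, fun i => (hf' i).trans (mul_le_mul_of_nonneg_right hK (by linarith))⟩
  ne := h.ne
  pop y hy j := (h.pop y hy j).trans (mul_le_mul_of_nonneg_right hK (Nat.cast_nonneg _))
  many := h.many
  multd := Mult.mono' h.multd hK
  u0 := h.u0
  ub j θ hθ i := (h.ub j θ hθ i).trans hK
  det t ht := (h.det t ht).trans (mul_le_mul_of_nonneg_right hK (abs_nonneg _))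
  tubes j θ hθ ρ h1 h2 x₀ := by
    obtain ⟨F, hF, hF'⟩ := h.tubes j θ hθ ρ h1 h2 x₀
    refine ⟨F, hF.trans (mul_le_mul_of_nonneg_right hK
      (pow_nonneg (Real.rpow_nonneg (by linarith) _) _)), fun y hy h3 h4 => ?_⟩
    obtain ⟨g, hg, hg'⟩ := hF' y hy h3 h4
    exact ⟨g, hg, fun i => (hg' i).trans hK⟩

/-- counting lattice values through a cover -/
lemma card_image_cover {α β : Type} (S : Finset α) (F : Finset β) (r : α → β → Prop)
    (φ : α → D → ℤ) {R : ℝ} (hR : 1 ≤ R) (hc : ∀ y ∈ S, ∃ f ∈ F, r y f)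
    (hr : ∀ y ∈ S, ∀ y' ∈ S, ∀ f, r y f → r y' f → ∀ i, |(φ y i : ℝ) - φ y' i| ≤ R) :
    ((S.image φ).card : ℝ) ≤ F.card * (5 * R) ^ Fintype.card D := by
  classical
  have h1 : S.image φ ⊆ F.biUnion fun f => (S.filter fun y => r y f).image φ := by
    intro z hz
    obtain ⟨y, hy, rfl⟩ := mem_image.1 hz
    obtain ⟨f, hf, hyf⟩ := hc y hy
    exact mem_biUnion.2 ⟨f, hf, mem_image_of_mem _ (mem_filter.2 ⟨hy, hyf⟩)⟩
  have h2 : ∀ f ∈ F, (((S.filter fun y => r y f).image φ).card : ℝ) ≤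
      (5 * R) ^ Fintype.card D := by
    intro f _
    rcases (S.filter fun y => r y f).eq_empty_or_nonempty with h | ⟨y0, hy0⟩
    · rw [h]; simp only [image_empty, card_empty, Nat.cast_zero]; positivity
    · refine le_trans ?_ (card_box (D := D) hR)
      have : ((S.filter fun y => r y f).image φ).card ≤ (box D R).card := by
        refine card_le_card_of_injOn (fun z => z - φ y0) ?_ (fun a _ b _ h => sub_left_injective h)
        intro z hz
        obtain ⟨y, hy, rfl⟩ := mem_image.1 (mem_coe.1 hz)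
        refine mem_coe.2 (mem_box fun i => ?_)
        have := hr y (mem_filter.1 hy).1 y0 (mem_filter.1 hy0).1 f (mem_filter.1 hy).2
          (mem_filter.1 hy0).2 i
        simp only [Pi.sub_apply, Int.cast_sub]
        linarith
      exact_mod_cast this
  calc ((S.image φ).card : ℝ) ≤ ∑ f ∈ F, (((S.filter fun y => r y f).image φ).card : ℝ) := by
        exact_mod_cast (card_le_card h1).trans card_biUnion_le
    _ ≤ _ := by
        refine (sum_le_card_nsmul _ _ _ h2).trans (le_of_eq ?_)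
        rw [nsmul_eq_mul]

/-- fibres of bounded size -/
lemma card_le_fibres {α β : Type} [DecidableEq β] (S : Finset α) (φ : α → β) {M : ℝ}
    (h : ∀ y ∈ S, ((S.filter fun y' => φ y' = φ y).card : ℝ) ≤ M) :
    (S.card : ℝ) ≤ M * (S.image φ).card := by
  rw [card_eq_sum_card_image φ S]
  push_cast
  refine (sum_le_card_nsmul _ _ M fun b hb => ?_).trans (le_of_eq ?_)
  · obtain ⟨y, hy, rfl⟩ := mem_image.1 hb
    exact h y hy
  · rw [nsmul_eq_mul, mul_comm]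

/-- the tube hypothesis on a larger cube -/
lemma HG.tubes_ext {α ι : Type} {k : ℕ} {o : D} {N s c L : ℝ} {Y : Finset α} {X : α → D → ℝ}
    {Θ : D → Finset ι} {u : ι → D → ℝ} {I : α → Finset ι} (h : HG k o N s c L Y X Θ u I)
    {j : D} {θ : ι} (hθ : θ ∈ Θ j) {ρ R : ℝ} (h1 : 1 ≤ ρ) (h2 : ρ ≤ N) (hR : 1 ≤ R)
    (x₀ : D → ℝ) : ∃ F : Finset (D → ℝ),
    (F.card : ℝ) ≤ (5 * R) ^ Fintype.card D * (L * (ρ ^ s) ^ k) ∧
      ∀ y ∈ Y, θ ∈ I y → (∀ i, |X y i - x₀ i| ≤ R * ρ) →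
      ∃ g ∈ F, ∀ i, |X y i - X y o * u θ i - g i| ≤ L := by
  classical
  choose F hF hF' using fun z : D → ℤ => h.tubes j θ hθ ρ h1 h2 (fun i => x₀ i + ρ * z i)
  have hρ : 0 < ρ := by linarith
  refine ⟨(box D R).biUnion F, ?_, fun y hy hI hx => ?_⟩
  · calc (((box D R).biUnion F).card : ℝ) ≤ ∑ z ∈ box D R, ((F z).card : ℝ) := by
          exact_mod_cast card_biUnion_le
      _ ≤ (box D R).card • (L * (ρ ^ s) ^ k) := sum_le_card_nsmul _ _ _ fun z _ => hF z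
      _ ≤ _ := by
          rw [nsmul_eq_mul]
          exact mul_le_mul_of_nonneg_right (card_box hR) (le_trans (Nat.cast_nonneg _) (hF 0))
  · set z : D → ℤ := fun i => round ((X y i - x₀ i) / ρ) with hz
    have h3 : ∀ i, |(X y i - x₀ i) / ρ - z i| ≤ 1 / 2 := fun i => abs_sub_round _
    have h4 : ∀ i, |(X y i - x₀ i) / ρ| ≤ R := fun i => by
      rw [abs_div, abs_of_pos hρ, div_le_iff₀ hρ]; exact hx i
    obtain ⟨g, hg, hg'⟩ := hF' z y hy hI fun i => by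
      have e : X y i - (x₀ i + ρ * z i) = ρ * ((X y i - x₀ i) / ρ - z i) := by
        field_simp; ring
      rw [e, abs_mul, abs_of_pos hρ]
      nlinarith [h3 i]
    refine ⟨g, mem_biUnion.2 ⟨z, mem_box fun i => ?_, hg⟩, hg'⟩
    have a1 := abs_le.1 (h3 i)
    have a2 := abs_le.1 (h4 i)
    rw [abs_lt]; constructor <;> linarith [a1.1, a1.2, a2.1, a2.2]

lemma floor_close (a b : ℝ) : |(⌊a⌋ : ℝ) - ⌊b⌋| ≤ |a - b| + 1 := by
  have h1 := Int.floor_le a
  have h2 := Int.lt_floor_add_one a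
  have h3 := Int.floor_le b
  have h4 := Int.lt_floor_add_one b
  have h5 := le_abs_self (a - b)
  have h6 := neg_abs_le (a - b)
  rw [abs_le]; constructor <;> linarith

lemma floor_err (a b : ℝ) : |(⌊a⌋ : ℝ) - ⌊b⌋ - (a - b)| ≤ 1 := by
  have h1 := Int.floor_le a
  have h2 := Int.lt_floor_add_one a
  have h3 := Int.floor_le b
  have h4 := Int.lt_floor_add_one b
  rw [abs_le]; constructor <;> linarith

lemma close_of_floor (a b : ℝ) : |a - b| ≤ |(⌊a⌋ : ℝ) - ⌊b⌋| + 1 := by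
  have h := abs_le.1 (floor_err a b)
  have h5 := le_abs_self ((⌊a⌋ : ℝ) - ⌊b⌋)
  have h6 := neg_abs_le ((⌊a⌋ : ℝ) - ⌊b⌋)
  rw [abs_le]; constructor <;> linarith [h.1, h.2]

/-- a frame: a linear map with two-sided bounds -/
structure Frm (G : (D → ℝ) →ₗ[ℝ] (D → ℝ)) (K : ℝ) : Prop where
  fw : ∀ (y : D → ℝ) (t : ℝ), (∀ i, |y i| ≤ t) → ∀ i, |G y i| ≤ K * t
  bw : ∀ (y : D → ℝ) (t : ℝ), (∀ i, |G y i| ≤ t) → ∀ i, |y i| ≤ K * t

omit [Fintype D] [DecidableEq D] in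
/-- two points of one tube -/
lemma Frm.same_tube {G : (D → ℝ) →ₗ[ℝ] (D → ℝ)} {K : ℝ} (hG : Frm G K) {x x' w g : D → ℝ}
    {t t' : ℝ} (h : ∀ i, |x i - t * w i - g i| ≤ K) (h' : ∀ i, |x' i - t' * w i - g i| ≤ K)
    (i : D) : |G x i - G x' i - (t - t') * G w i| ≤ K * (2 * K) := by
  have := hG.fw (x - x' - (t - t') • w) (2 * K) (fun l => by
    have a := abs_le.1 (h l)
    have b := abs_le.1 (h' l)
    simp only [Pi.sub_apply, Pi.smul_apply, smul_eq_mul]
    rw [abs_le]; constructor <;> nlinarith [a.1, a.2, b.1, b.2]) i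
  simpa only [map_sub, map_smul, Pi.sub_apply, Pi.smul_apply, smul_eq_mul] using this

lemma pow_le_big {K : ℝ} (hK : 10 ≤ K) {d a m : ℕ} {R : ℝ} (hR0 : 0 ≤ R) (hR : R ≤ K ^ a)
    (hm : (a + 1) * d ≤ m) : (5 * R) ^ d ≤ K ^ m := by
  have h1 : 5 * R ≤ K ^ (a + 1) := by
    rw [pow_succ]; nlinarith [pow_pos (show 0 < K by linarith) a]
  calc (5 * R) ^ d ≤ (K ^ (a + 1)) ^ d := pow_le_pow_left₀ (by positivity) h1 d
    _ = K ^ ((a + 1) * d) := by rw [← pow_mul]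
    _ ≤ _ := pow_le_pow_right₀ (by linarith) hm

/-- **Passing to the lattice.** -/
theorem hypZ_of {α ι : Type} {k : ℕ} (hk : Fintype.card D = k + 1) {o i1 : D}
    {N s c K κ ρ₀ : ℝ} {Y : Finset α} {X : α → D → ℝ} {Θ : D → Finset ι} {u : ι → D → ℝ}
    {I : α → Finset ι} (h : HG k o N s c K Y X Θ u I) (hK : 10 ≤ K) (hN : 1 ≤ N)
    {G : (D → ℝ) →ₗ[ℝ] (D → ℝ)} (hG : Frm G K) (t : D → ι) (ht : ∀ j, t j ∈ Θ j)
    (hax : ∀ j i, i ≠ j → G (u (t j)) i = 0) (S₀ : Finset α) (hS₀ : S₀ ⊆ Y)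
    (hS₀I : ∀ y ∈ S₀, ∀ j, t j ∈ I y) (P : Finset ι) (hP : P.Nonempty) (hPΘ : P ⊆ Θ o)
    (S : ι → Finset α) (hS : ∀ θ ∈ P, S θ ⊆ S₀) (hSI : ∀ θ ∈ P, ∀ y ∈ S θ, θ ∈ I y)
    (hSc : ∀ θ ∈ P, (Y.card : ℝ) ≤ K * (S θ).card) (b : ι → D → ℝ) (g : ι → ℝ)
    (hb : ∀ θ ∈ P, ∀ i, G (u θ) i = g θ * b θ i) (hb0 : ∀ θ ∈ P, b θ o = 1)
    (hbK : ∀ θ ∈ P, ∀ i, |b θ i| ≤ K) (hsl : ∀ θ ∈ P, |ρ₀ * b θ i1| ≤ 1) (hρ₀ : 0 < ρ₀)
    (hfr : Fr P (fun θ i => ρ₀ * b θ i) {i1} (ρ₀ / N) κ K) :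
    ∃ (YZ : Finset (D → ℤ)) (W : ι → Finset (D → ℤ)) (τ : ι → (D → ℤ) → (D → ℝ)),
      HypZ k o i1 N s κ (K ^ (10 * (k + 1))) ρ₀ YZ P b W τ := by
  classical
  have hK0 : 0 < K := by linarith
  have hK1 : 1 ≤ K := by linarith
  have hKp : ∀ {a m : ℕ}, a ≤ m → K ^ a ≤ K ^ m := fun hm => pow_le_pow_right₀ hK1 hm
  set p : α → D → ℤ := fun y i => ⌊G (X y) i⌋ with hp
  have hsub : ∀ y y' i, G (X y) i - G (X y') i = G (X y - X y') i := fun y y' i => by
    rw [map_sub]; rfl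
  -- fibres of `p`
  have hfib : ∀ T : Finset α, T ⊆ Y → (T.card : ℝ) ≤ K ^ (2 * (k + 1) + 1) * (T.image p).card := by
    intro T hT
    refine card_le_fibres T p fun y _ => ?_
    have := h.mult.card_le hK1 (X y) (T.filter fun y' => p y' = p y)
      ((filter_subset _ _).trans hT) fun y' hy' i => by
        have h1 := hG.bw (X y' - X y) 1 (fun l => by
          rw [← hsub]
          have := close_of_floor (G (X y') l) (G (X y) l)
          have e : ⌊G (X y') l⌋ = ⌊G (X y) l⌋ := congrFun (mem_filter.1 hy').2 l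
          rw [e, sub_self, abs_zero, zero_add] at this
          exact this) i
        simpa using h1
    refine this.trans ?_
    rw [pow_succ', hk]
    exact mul_le_mul_of_nonneg_left (pow_le_big hK hK0.le (a := 1) (by simp) (by omega)) hK0.le
  have hYS : ∀ θ ∈ P, (Y.card : ℝ) ≤ K ^ (2 * (k + 1) + 2) * ((S θ).image p).card := by
    intro θ hθ
    refine (hSc θ hθ).trans ?_
    rw [pow_succ' K (2 * (k + 1) + 1), mul_assoc]
    exact mul_le_mul_of_nonneg_left (hfib _ ((hS θ hθ).trans hS₀)) hK0.le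
  -- projections
  have hproj : ∀ (j : D) (ρ : ℝ), 1 ≤ ρ → ρ ≤ N → ∀ (x₀ : D → ℝ) (T : Finset α), T ⊆ S₀ →
      (∀ y ∈ T, ∀ i, |X y i - x₀ i| ≤ K ^ 2 * ρ) →
      ((prj j (T.image p)).card : ℝ) ≤ K ^ (10 * (k + 1)) * (ρ ^ s) ^ k := by
    intro j ρ h1 h2 x₀ T hT hx
    obtain ⟨F, hF, hF'⟩ := h.tubes_ext (ht j) h1 h2 (R := K ^ 2) (one_le_pow₀ hK1) x₀
    have e : prj j (T.image p) = T.image fun y => update (p y) j 0 := by
      unfold prj; rw [image_image]; rfl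
    rw [e]
    have hρs : 0 ≤ (ρ ^ s) ^ k := pow_nonneg (Real.rpow_nonneg (by linarith) _) _
    refine (card_image_cover T F (fun y f => ∀ i, |X y i - X y o * u (t j) i - f i| ≤ K) _
      (R := K ^ 3) (one_le_pow₀ hK1)
      (fun y hy => hF' y (hS₀ (hT hy)) (hS₀I y (hT hy) j) (hx y hy)) ?_).trans ?_
    · intro y _ y' _ f a a' i
      by_cases hi : i = j
      · subst hi; simp only [update_self, sub_self, abs_zero]; positivity
      · simp only [update_of_ne hi]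
        have h3 := hG.same_tube a a' i
        rw [hax j i hi, mul_zero, sub_zero] at h3
        refine (floor_close _ _).trans ?_
        nlinarith
    · have a1 := pow_le_big hK (d := Fintype.card D) (a := 3) (m := 4 * (k + 1)) (R := K ^ 3)
        (by positivity) le_rfl (by omega)
      have a2 := pow_le_big hK (d := Fintype.card D) (a := 2) (m := 3 * (k + 1)) (R := K ^ 2)
        (by positivity) le_rfl (by omega)
      calc (F.card : ℝ) * (5 * K ^ 3) ^ Fintype.card D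
          ≤ (K ^ (3 * (k + 1)) * (K * (ρ ^ s) ^ k)) * K ^ (4 * (k + 1)) :=
            mul_le_mul (hF.trans (mul_le_mul_of_nonneg_right a2 (by positivity))) a1
              (by positivity) (by positivity)
        _ = K ^ (7 * (k + 1) + 1) * (ρ ^ s) ^ k := by ring
        _ ≤ _ := mul_le_mul_of_nonneg_right (hKp (by omega)) hρs
  -- labels
  have hlab : ∀ θ ∈ P, ∃ F : Finset (D → ℝ), (F.card : ℝ) ≤ K ^ (10 * (k + 1)) * (N ^ s) ^ k ∧
      ∀ z ∈ (S θ).image p, ∃ f ∈ F, ∃ y, p y = z ∧ ∀ i, |X y i - X y o * u θ i - f i| ≤ K := by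
    intro θ hθ
    obtain ⟨F, hF, hF'⟩ := h.tubes_ext (hPΘ hθ) hN le_rfl hK1 0
    refine ⟨F, hF.trans ?_, fun z hz => ?_⟩
    · have a2 := pow_le_big hK (d := Fintype.card D) (a := 1) (m := 2 * (k + 1)) (R := K)
        hK0.le (by simp) (by omega)
      have hρs : 0 ≤ (N ^ s) ^ k := pow_nonneg (Real.rpow_nonneg (by linarith) _) _
      calc _ ≤ K ^ (2 * (k + 1)) * (K * (N ^ s) ^ k) :=
            mul_le_mul_of_nonneg_right a2 (by positivity)
        _ = K ^ (2 * (k + 1) + 1) * (N ^ s) ^ k := by ring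
        _ ≤ _ := mul_le_mul_of_nonneg_right (hKp (by omega)) hρs
    · obtain ⟨y, hy, rfl⟩ := mem_image.1 hz
      have hyY := hS₀ (hS θ hθ hy)
      obtain ⟨f, hf, hf'⟩ := hF' y hyY (hSI θ hθ y hy) (fun i => by simpa using h.bd y hyY i)
      exact ⟨f, hf, y, rfl, hf'⟩
  choose! F hF hF' using hlab
  choose! τ hτ hτ' using hF'
  obtain ⟨θ₁, hθ₁⟩ := hP
  have hYZ : (Y.card : ℝ) ≤ K ^ (2 * (k + 1) + 2) * (S₀.image p).card :=
    (hYS θ₁ hθ₁).trans (mul_le_mul_of_nonneg_left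
      (by exact_mod_cast card_le_card (image_subset_image (hS θ₁ hθ₁))) (by positivity))
  refine ⟨S₀.image p, fun θ => (S θ).image p, τ, ⟨θ₁, hθ₁⟩, ?_, ?_, ?_, ?_, ?_, ?_, ?_, ?_, hsl, ?_⟩
  · intro z hz i
    obtain ⟨y, hy, rfl⟩ := mem_image.1 hz
    have h1 := hG.fw (X y) _ (h.bd y (hS₀ hy)) i
    have h2 := floor_close (G (X y) i) 0
    simp only [Int.floor_zero, Int.cast_zero, sub_zero] at h2
    have h3 : K ^ 3 ≤ K ^ (10 * (k + 1)) := hKp (by omega)
    have h5 : 1 ≤ K * (K * N) := one_le_mul_of_one_le_of_one_le hK1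
      (one_le_mul_of_one_le_of_one_le hK1 hN)
    have h4 : K * (K * N) + 1 ≤ K ^ 3 * N := by nlinarith
    have h6 : K ^ 3 * N ≤ K ^ (10 * (k + 1)) * N := mul_le_mul_of_nonneg_right h3 (by linarith)
    simp only [hp]
    linarith
  · exact fun θ hθ => image_subset_image (hS θ hθ)
  · intro θ hθ
    calc _ ≤ K * Y.card := h.big
      _ ≤ K * (K ^ (2 * (k + 1) + 2) * ((S θ).image p).card) :=
          mul_le_mul_of_nonneg_left (hYS θ hθ) hK0.le
      _ = K ^ (2 * (k + 1) + 3) * ((S θ).image p).card := by ring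
      _ ≤ _ := mul_le_mul_of_nonneg_right (hKp (by omega)) (Nat.cast_nonneg _)
  · intro ρ h1 h2
    have hρ : 0 < ρ := by linarith
    obtain ⟨F', hF1, hF2⟩ := h.cells ρ h1 h2
    rw [image_image]
    have h3 := card_image_cover S₀ F' (fun y f => ∀ i, |X y i - f i| ≤ K * ρ) (cel ρ ∘ p)
      (R := K ^ 3) (one_le_pow₀ hK1) (fun y hy => hF2 y (hS₀ hy)) (by
        intro y _ y' _ f a a' i
        have h4 := hG.fw (X y - X y') (2 * (K * ρ)) (fun l => by
          have b1 := abs_le.1 (a l)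
          have b2 := abs_le.1 (a' l)
          rw [Pi.sub_apply, abs_le]; constructor <;> linarith [b1.1, b1.2, b2.1, b2.2]) i
        rw [← hsub] at h4
        have h5 := floor_close (G (X y) i) (G (X y') i)
        refine (floor_close _ _).trans ?_
        have h6 : |(p y i : ℝ) / ρ - p y' i / ρ| ≤ 2 * K * K + 1 := by
          rw [← sub_div, abs_div, abs_of_pos hρ, div_le_iff₀ hρ]
          simp only [hp]
          nlinarith
        nlinarith [mul_pos hK0 hK0])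
    have a1 := pow_le_big hK (d := Fintype.card D) (a := 3) (m := 4 * (k + 1)) (R := K ^ 3)
        (by positivity) le_rfl (by omega)
    have hρs : 0 ≤ (ρ ^ s) ^ (k + 1) := pow_nonneg (Real.rpow_nonneg (by linarith) _) _
    calc _ ≤ (F'.card * K ^ (4 * (k + 1))) * (ρ ^ s) ^ (k + 1) :=
          mul_le_mul_of_nonneg_right (h3.trans (mul_le_mul_of_nonneg_left a1 (Nat.cast_nonneg _)))
            hρs
      _ = K ^ (4 * (k + 1)) * (F'.card * (ρ ^ s) ^ (k + 1)) := by ring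
      _ ≤ K ^ (4 * (k + 1)) * (K * (K ^ (2 * (k + 1) + 2) * (S₀.image p).card)) :=
          mul_le_mul_of_nonneg_left (hF1.trans (mul_le_mul_of_nonneg_left hYZ hK0.le))
            (by positivity)
      _ = K ^ (6 * (k + 1) + 3) * (S₀.image p).card := by ring
      _ ≤ _ := mul_le_mul_of_nonneg_right (hKp (by omega)) (Nat.cast_nonneg _)
  · intro ρ h1 h2 c' j
    have hρ : 0 < ρ := by linarith
    rw [filter_image]
    rcases (S₀.filter fun y => cel ρ (p y) = c').eq_empty_or_nonempty with he | ⟨y0, hy0⟩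
    · rw [he]
      simp only [prj, image_empty, card_empty, Nat.cast_zero]
      have : 0 ≤ (ρ ^ s) ^ k := pow_nonneg (Real.rpow_nonneg hρ.le _) _
      positivity
    · refine hproj j ρ h1 h2 (X y0) _ (filter_subset _ _) fun y hy i => ?_
      have h3 := hG.bw (X y - X y0) (2 * ρ) (fun l => by
        rw [← hsub]
        refine (close_of_floor _ _).trans ?_
        have e : cix ρ (fun l => (p y l : ℝ)) = cix ρ (fun l => (p y0 l : ℝ)) :=
          ((mem_filter.1 hy).2).trans (mem_filter.1 hy0).2.symm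
        have := cix_close hρ e l
        simp only [hp] at this
        linarith) i
      rw [Pi.sub_apply] at h3
      nlinarith [mul_pos hK0 hρ]
  · intro j
    refine hproj j N hN le_rfl 0 _ subset_rfl fun y hy i => ?_
    have := h.bd y (hS₀ hy) i
    simp only [Pi.zero_apply, sub_zero]
    nlinarith [mul_pos hK0 (show 0 < N by linarith)]
  · intro θ hθ
    refine le_trans ?_ (hF θ hθ)
    refine (Nat.cast_le (α := ℝ)).2 (card_le_card fun f hf => ?_)
    simp only [mem_image] at hf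
    obtain ⟨z, hz, rfl⟩ := hf
    exact hτ θ hθ z (mem_image.2 hz)
  · intro θ hθ z hz z' hz' e i
    obtain ⟨y, rfl, a⟩ := hτ' θ hθ z hz
    obtain ⟨y', rfl, a'⟩ := hτ' θ hθ z' hz'
    rw [← e] at a'
    have h1 := abs_le.1 (hG.same_tube a a' i)
    have h2 := hG.same_tube a a' o
    rw [hb θ hθ i] at h1
    rw [hb θ hθ o, hb0 θ hθ] at h2
    have h3 := abs_le.1 (floor_err (G (X y) i) (G (X y') i))
    have h4 := floor_err (G (X y) o) (G (X y') o)
    set T := (X y o - X y' o) * g θ with hT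
    have h5 : |((p y o : ℝ) - p y' o - T) * b θ i| ≤ (K * (2 * K) + 1) * K := by
      rw [abs_mul]
      refine mul_le_mul ?_ (hbK θ hθ i) (abs_nonneg _) (by positivity)
      have b1 := abs_le.1 h2
      have b2 := abs_le.1 h4
      simp only [hp]
      rw [abs_le]; constructor <;> nlinarith [b1.1, b1.2, b2.1, b2.2]
    have h6 := abs_le.1 h5
    have h7 : K ^ 4 ≤ K ^ (10 * (k + 1)) := hKp (by omega)
    have h8 : (K * (2 * K) + 1) * K + (K * (2 * K) + 1) ≤ K ^ 4 := by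
      nlinarith [mul_pos hK0 hK0, mul_pos hK0 (mul_pos hK0 hK0)]
    simp only [hp] at h6 ⊢
    rw [abs_le]; constructor <;> nlinarith [h1.1, h1.2, h3.1, h3.2, h6.1, h6.2]
  · intro v ρ h1 h2
    refine (hfr v ρ h1 h2).trans ?_
    have hρ : 0 < ρ := lt_of_lt_of_le (by positivity) h1
    have : K ≤ K ^ (10 * (k + 1)) := by simpa using hKp (a := 1) (m := 10 * (k + 1)) (by omega)
    have h3 : 0 ≤ ρ ^ κ := Real.rpow_nonneg hρ.le _
    gcongr

end Crest.Agent.N76.LG
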