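import Crest.Agent.N76.LG.Frame1

/-! # Row 76, Lemma G, change of frame, part 2: popularity, window, frame (helper54) -/

set_option autoImplicit false

namespace Crest.Agent.N76.LG

open Finset Function
open Crest.Agent.N76.MK

lemma popular {A : Type} (s : Finset A) (f : A → ℝ) {M η : ℝ} (hM : 0 < M) (hη : 0 ≤ η)
    (hf : ∀ a ∈ s, f a ≤ M) (hs : η * M * s.card ≤ ∑ a ∈ s, f a) :
    η * s.card ≤ 2 * (s.filter fun a => η * M / 2 ≤ f a).card := by
  classical
  rw [← sum_filter_add_sum_filter_not s (fun a => η * M / 2 ≤ f a)] at hs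
  have h1 : ∑ a ∈ s.filter fun a => η * M / 2 ≤ f a, f a ≤
      (s.filter fun a => η * M / 2 ≤ f a).card * M := by
    rw [← nsmul_eq_mul]
    exact sum_le_card_nsmul _ _ _ fun a ha => hf a (mem_filter.1 ha).1
  have h2 : ∑ a ∈ s.filter fun a => ¬ η * M / 2 ≤ f a, f a ≤ s.card * (η * M / 2) := by
    refine (sum_le_card_nsmul _ _ (η * M / 2) fun a ha => (not_le.1 (mem_filter.1 ha).2).le).trans ?_
    rw [nsmul_eq_mul]
    exact mul_le_mul_of_nonneg_right (by exact_mod_cast card_le_card (filter_subset _ _))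
      (by positivity)
  have h3 : M * (η * s.card) ≤ M * (2 * (s.filter fun a => η * M / 2 ≤ f a).card) := by nlinarith
  exact le_of_mul_le_mul_left h3 hM

lemma double_count {A B : Type} (s : Finset A) (t : Finset B) (r : A → B → Prop)
    [∀ a b, Decidable (r a b)] :
    ∑ a ∈ s, ((t.filter fun b => r a b).card : ℝ) = ∑ b ∈ t, ((s.filter fun a => r a b).card : ℝ) := by
  simp only [card_filter, Nat.cast_sum]
  exact sum_comm

/-- Cauchy–Schwarz selection of a base direction -/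
lemma cs_select {A B : Type} (P : Finset A) (hP : P.Nonempty) (Y : Finset B) (hY : Y.Nonempty)
    (r : A → B → Prop) [∀ a b, Decidable (r a b)] {η : ℝ} (hη : 0 ≤ η)
    (h : ∀ a ∈ P, η * Y.card ≤ (Y.filter fun b => r a b).card) :
    ∃ a₀ ∈ P, ∃ P₁ ⊆ P, η ^ 2 * P.card ≤ 2 * P₁.card ∧
      ∀ a ∈ P₁, η ^ 2 * Y.card / 2 ≤ (Y.filter fun b => r a b ∧ r a₀ b).card := by
  classical
  have hY0 : (0 : ℝ) < Y.card := by exact_mod_cast hY.card_pos
  set n : B → ℝ := fun b => ((P.filter fun a => r a b).card : ℝ) with hn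
  have h1 : η * Y.card * P.card ≤ ∑ b ∈ Y, n b := by
    rw [← double_count P Y r, mul_comm, ← nsmul_eq_mul]
    exact card_nsmul_le_sum _ _ _ h
  have h2 : (∑ b ∈ Y, n b) ^ 2 ≤ Y.card * ∑ b ∈ Y, n b ^ 2 := sq_sum_le_card_mul_sum_sq
  have h3 : ∑ a₀ ∈ P, ∑ a ∈ P, ((Y.filter fun b => r a b ∧ r a₀ b).card : ℝ) =
      ∑ b ∈ Y, n b ^ 2 := by
    simp only [hn, card_filter, Nat.cast_sum, sq, sum_mul_sum]
    rw [sum_comm (s := Y)]
    refine sum_congr rfl fun a₀ _ => ?_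
    rw [sum_comm (s := Y)]
    refine sum_congr rfl fun a _ => sum_congr rfl fun b _ => ?_
    by_cases h1 : r a b <;> by_cases h2 : r a₀ b <;> simp [h1, h2]
  have h4 : ∑ _a₀ ∈ P, η ^ 2 * Y.card * P.card ≤
      ∑ a₀ ∈ P, ∑ a ∈ P, ((Y.filter fun b => r a b ∧ r a₀ b).card : ℝ) := by
    rw [h3, sum_const, nsmul_eq_mul]
    have h5 : (η * Y.card * P.card) ^ 2 ≤ (∑ b ∈ Y, n b) ^ 2 :=
      pow_le_pow_left₀ (by positivity) h1 2
    refine le_of_mul_le_mul_left ?_ hY0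
    nlinarith
  obtain ⟨a₀, ha₀, h6⟩ := exists_le_of_sum_le hP h4
  refine ⟨a₀, ha₀, _, filter_subset _ _, popular P _ hY0 (by positivity) (fun a _ => ?_) h6,
    fun a ha => (mem_filter.1 ha).2⟩
  exact_mod_cast card_le_card (filter_subset _ _)

/-- **Frostman window** -/
lemma window {ι : Type} (Q : Finset ι) (hQ : Q.Nonempty) (a : ι → ℝ) {N A κ : ℝ} (hN : 1 ≤ N)
    (hA : 0 ≤ A) (hκ0 : 0 ≤ κ) (hκ1 : κ ≤ 1) (ha : ∀ θ ∈ Q, |a θ| ≤ A)
    (hinj : Set.InjOn (fun θ => ⌊N * a θ⌋) Q) :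
    ∃ P ⊆ Q, ∃ j : ℕ, P.Nonempty ∧ (2 : ℝ) ^ j ≤ N ∧
      (∀ θ ∈ P, ∀ θ' ∈ P, |2 ^ j * (a θ - a θ')| ≤ 1) ∧
      (Q.card : ℝ) ≤ (2 * A + 3) * (5 * (N / 2 ^ j)) * N ^ κ ∧
      ∀ w ρ : ℝ, 2 ^ j / N ≤ ρ → ρ ≤ 1 →
        ((P.filter fun θ => |2 ^ j * a θ - w| ≤ ρ).card : ℝ) ≤ 4 * ρ ^ κ * P.card := by
  classical
  have hN0 : 0 < N := by linarith
  set ok : Finset ι × ℕ → Prop := fun q => (2 : ℝ) ^ q.2 ≤ N ∧
    ∀ θ ∈ q.1, ∀ θ' ∈ q.1, |2 ^ q.2 * (a θ - a θ')| ≤ 1 with hok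
  set Ω := (Q.powerset ×ˢ range ⌈N⌉₊).filter ok with hΩ
  have hmem : ∀ (P : Finset ι) (j : ℕ), P ⊆ Q → ok (P, j) → (P, j) ∈ Ω := by
    intro P j h1 h2
    refine mem_filter.2 ⟨mem_product.2 ⟨mem_powerset.2 h1, mem_range.2 ?_⟩, h2⟩
    have h3 : ((j : ℕ) : ℝ) < 2 ^ j := by exact_mod_cast Nat.lt_two_pow_self
    have h4 : (j : ℝ) < ⌈N⌉₊ := lt_of_lt_of_le h3 (h2.1.trans (Nat.le_ceil N))
    exact_mod_cast h4
  obtain ⟨⟨P, j⟩, hPj, hmax⟩ := exists_max_image Ω
    (fun q => (q.1.card : ℝ) * ((2 : ℝ) ^ q.2) ^ κ) ⟨(∅, 0), hmem ∅ 0 (empty_subset _)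
      ⟨by simpa using hN, by simp⟩⟩
  obtain ⟨h1, h2, h3⟩ : P ⊆ Q ∧ (2 : ℝ) ^ j ≤ N ∧
      ∀ θ ∈ P, ∀ θ' ∈ P, |2 ^ j * (a θ - a θ')| ≤ 1 :=
    ⟨mem_powerset.1 (mem_product.1 (mem_filter.1 hPj).1).1, (mem_filter.1 hPj).2⟩
  have h2j : (0 : ℝ) < 2 ^ j := by positivity
  have h2κ : (0 : ℝ) < ((2 : ℝ) ^ j) ^ κ := Real.rpow_pos_of_pos h2j _
  -- lower bound for the maximum
  have h4 : (Q.card : ℝ) ≤ (P.card * ((2 : ℝ) ^ j) ^ κ) * (2 * A + 3) := by
    refine (card_le_fibres Q (fun θ => ⌊a θ⌋) (M := P.card * ((2 : ℝ) ^ j) ^ κ)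
      fun θ _ => ?_).trans (mul_le_mul_of_nonneg_left ?_ (by positivity))
    · have := hmax _ (hmem (Q.filter fun θ' => ⌊a θ'⌋ = ⌊a θ⌋) 0 (filter_subset _ _)
        ⟨by simpa using hN, fun x hx x' hx' => by
          have := close_of_floor (a x) (a x')
          rw [(mem_filter.1 hx).2, (mem_filter.1 hx').2, sub_self, abs_zero, zero_add] at this
          simpa using this⟩)
      simpa using this
    · refine (card_int_close _ 0 (A + 1) (by linarith) fun v hv => ?_).trans (by linarith)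
      obtain ⟨θ, hθ, rfl⟩ := mem_image.1 hv
      have := floor_close (a θ) 0
      simp only [Int.floor_zero, Int.cast_zero, sub_zero] at this ⊢
      linarith [ha θ hθ]
  have hQ0 : (0 : ℝ) < Q.card := by exact_mod_cast hQ.card_pos
  have hP : P.Nonempty := by
    rw [nonempty_iff_ne_empty]
    rintro rfl
    simp only [card_empty, Nat.cast_zero, zero_mul] at h4
    linarith
  have hU : 1 ≤ N / 2 ^ j := (one_le_div h2j).2 h2
  refine ⟨P, h1, j, hP, h2, h3, ?_, fun w ρ hρ hρ1 => ?_⟩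
  · obtain ⟨θ₀, hθ₀⟩ := hP
    have h5 : (P.card : ℝ) ≤ 5 * (N / 2 ^ j) := by
      rw [← card_image_of_injOn (hinj.mono (coe_subset.2 h1))]
      refine (card_int_close _ ⌊N * a θ₀⌋ (N / 2 ^ j + 1) (by linarith) fun v hv => ?_).trans
        (by linarith)
      obtain ⟨θ, hθ, rfl⟩ := mem_image.1 hv
      refine (floor_close _ _).trans ?_
      have e : N * a θ - N * a θ₀ = N / 2 ^ j * (2 ^ j * (a θ - a θ₀)) := by field_simp
      rw [e, abs_mul, abs_of_pos (by positivity : (0 : ℝ) < N / 2 ^ j)]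
      nlinarith [h3 θ hθ θ₀ hθ₀]
    have h6 : ((2 : ℝ) ^ j) ^ κ ≤ N ^ κ := Real.rpow_le_rpow h2j.le h2 hκ0
    calc (Q.card : ℝ) ≤ (P.card * ((2 : ℝ) ^ j) ^ κ) * (2 * A + 3) := h4
      _ ≤ ((5 * (N / 2 ^ j)) * N ^ κ) * (2 * A + 3) := by gcongr
      _ = _ := by ring
  · have hρ0 : 0 < ρ := lt_of_lt_of_le (by positivity) hρ
    have h4ρ : (4 * ρ) ^ κ ≤ 4 * ρ ^ κ := by
      rw [Real.mul_rpow (by norm_num) hρ0.le]
      refine mul_le_mul_of_nonneg_right ?_ (Real.rpow_nonneg hρ0.le _)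
      simpa using Real.rpow_le_rpow_of_exponent_le (x := 4) (by norm_num) hκ1
    have hP0 : (0 : ℝ) ≤ P.card := Nat.cast_nonneg _
    by_cases hb : 2 * ρ ≤ 1
    · obtain ⟨m, hm1, hm2⟩ := exists_nat_pow_near_of_lt_one (x := 2 * ρ) (y := 1 / 2)
        (by linarith) hb (by norm_num) (by norm_num)
      have h2m : (0 : ℝ) < 2 ^ m := by positivity
      have e1 : (2 : ℝ) ^ m * (2 * ρ) ≤ 1 := by
        rw [one_div, inv_pow, ← one_div, le_div_iff₀ h2m] at hm2; linarith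
      have e2 : 1 ≤ (2 : ℝ) ^ m * (4 * ρ) := by
        rw [one_div, inv_pow, ← one_div, div_lt_iff₀ (by positivity), pow_succ] at hm1; linarith
      have h5 := hmax _ (hmem (P.filter fun θ => |2 ^ j * a θ - w| ≤ ρ) (j + m)
        ((filter_subset _ _).trans h1) ⟨by
          rw [div_le_iff₀ hN0] at hρ
          show (2 : ℝ) ^ (j + m) ≤ N
          rw [pow_add]; nlinarith, fun x hx x' hx' => by
          have b1 := abs_le.1 (mem_filter.1 hx).2
          have b2 := abs_le.1 (mem_filter.1 hx').2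
          have b3 : |2 ^ j * (a x - a x')| ≤ 2 * ρ := by
            rw [abs_le]; constructor <;> linarith [b1.1, b1.2, b2.1, b2.2]
          show |(2 : ℝ) ^ (j + m) * (a x - a x')| ≤ 1
          rw [pow_add, mul_comm ((2 : ℝ) ^ j), mul_assoc, abs_mul, abs_of_pos h2m]
          nlinarith⟩)
      simp only [pow_add] at h5
      rw [Real.mul_rpow h2j.le h2m.le] at h5
      have h6 : ((P.filter fun θ => |2 ^ j * a θ - w| ≤ ρ).card : ℝ) * ((2 : ℝ) ^ m) ^ κ ≤
          P.card := by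
        refine le_of_mul_le_mul_right ?_ h2κ
        linarith
      have h7 : 1 ≤ ((2 : ℝ) ^ m) ^ κ * (4 * ρ) ^ κ := by
        rw [← Real.mul_rpow h2m.le (by positivity)]
        exact Real.one_le_rpow e2 hκ0
      have h8 : 0 ≤ (4 * ρ) ^ κ := Real.rpow_nonneg (by positivity) _
      calc ((P.filter fun θ => |2 ^ j * a θ - w| ≤ ρ).card : ℝ)
          ≤ (P.filter fun θ => |2 ^ j * a θ - w| ≤ ρ).card * (((2 : ℝ) ^ m) ^ κ * (4 * ρ) ^ κ) :=
            le_mul_of_one_le_right (Nat.cast_nonneg _) h7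
        _ ≤ P.card * (4 * ρ) ^ κ := by
            rw [← mul_assoc]; exact mul_le_mul_of_nonneg_right h6 h8
        _ ≤ P.card * (4 * ρ ^ κ) := mul_le_mul_of_nonneg_left h4ρ hP0
        _ = _ := by ring
    · have h5 : 1 ≤ (4 * ρ) ^ κ := Real.one_le_rpow (by linarith) hκ0
      calc ((P.filter fun θ => |2 ^ j * a θ - w| ≤ ρ).card : ℝ) ≤ P.card := by
            exact_mod_cast card_le_card (filter_subset _ _)
        _ ≤ _ := le_mul_of_one_le_left hP0 (h5.trans h4ρ)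

variable {D : Type} [Fintype D] [DecidableEq D]

/-- a popular tuple -/
lemma exists_tuple {α ι : Type} [DecidableEq ι] (Y : Finset α) (Θ : D → Finset ι)
    (I : α → Finset ι) {L : ℝ} (hne : ∀ j, (Θ j).Nonempty)
    (hpop : ∀ y ∈ Y, ∀ j, ((Θ j).card : ℝ) ≤ L * (I y ∩ Θ j).card) :
    ∃ t : D → ι, (∀ j, t j ∈ Θ j) ∧
      (Y.card : ℝ) ≤ L ^ Fintype.card D * (Y.filter fun y => ∀ j, t j ∈ I y).card := by
  classical
  have h1 : ∑ _t ∈ Fintype.piFinset Θ, (Y.card : ℝ) ≤ ∑ t ∈ Fintype.piFinset Θ,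
      L ^ Fintype.card D * (Y.filter fun y => ∀ j, t j ∈ I y).card := by
    rw [← mul_sum, double_count (Fintype.piFinset Θ) Y (fun t y => ∀ j, t j ∈ I y), mul_sum,
      sum_const, nsmul_eq_mul, mul_comm, ← nsmul_eq_mul]
    refine card_nsmul_le_sum _ _ _ fun y hy => ?_
    have e : ((Fintype.piFinset Θ).filter fun t => ∀ j, t j ∈ I y) =
        Fintype.piFinset fun j => I y ∩ Θ j := by
      ext t
      simp only [mem_filter, Fintype.mem_piFinset, mem_inter]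
      exact ⟨fun h j => ⟨h.2 j, h.1 j⟩, fun h => ⟨fun j => (h j).2, fun j => (h j).1⟩⟩
    rw [e, Fintype.card_piFinset, Fintype.card_piFinset]
    push_cast
    rw [← card_univ, ← prod_const, ← prod_mul_distrib]
    exact prod_le_prod (fun j _ => Nat.cast_nonneg _) fun j _ => hpop y hy j
  obtain ⟨t, ht, h2⟩ := exists_le_of_sum_le (Fintype.piFinset_nonempty.2 hne) h1
  exact ⟨t, Fintype.mem_piFinset.1 ht, h2⟩

/-- some coordinate takes many values -/
lemma exists_coord {ι : Type} {k : ℕ} (hk : Fintype.card D = k + 1) (hk1 : 1 ≤ k) (o : D)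
    (T : Finset ι) (φ : ι → D → ℤ) (c : ℤ) (h0 : ∀ θ ∈ T, φ θ o = c) :
    ∃ i, o ≠ i ∧ ∃ Q ⊆ T, Set.InjOn (fun θ => φ θ i) Q ∧ (T.image φ).card ≤ Q.card ^ k := by
  classical
  have hcard : (univ.erase o).card = k := by
    rw [card_erase_of_mem (mem_univ o), card_univ, hk]; rfl
  obtain ⟨i, hi, hmax⟩ := exists_max_image (univ.erase o)
    (fun i => (T.image fun θ => φ θ i).card) (card_pos.1 (by omega))
  obtain ⟨Q, hQ, hinj, him⟩ := exists_subset_injOn_image_eq_of_surjOn (f := fun θ => φ θ i)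
    (T : Set ι) (T.image fun θ => φ θ i) (by rw [coe_image]; exact Set.surjOn_image _ _)
  refine ⟨i, (ne_of_mem_erase hi).symm, Q, coe_subset.1 hQ, hinj, ?_⟩
  rw [← card_image_of_injOn hinj, him]
  have h1 : T.image φ ⊆ Fintype.piFinset fun l => T.image fun θ => φ θ l := by
    intro z hz
    obtain ⟨θ, hθ, rfl⟩ := mem_image.1 hz
    exact Fintype.mem_piFinset.2 fun l => mem_image_of_mem _ hθ
  refine (card_le_card h1).trans ?_
  rw [Fintype.card_piFinset, ← mul_prod_erase univ _ (mem_univ o)]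
  have h2 : (T.image fun θ => φ θ o).card ≤ 1 := by
    refine (card_le_card (t := {c}) fun z hz => ?_).trans (by simp)
    obtain ⟨θ, hθ, rfl⟩ := mem_image.1 hz
    exact mem_singleton.2 (h0 θ hθ)
  calc _ ≤ 1 * (T.image fun θ => φ θ i).card ^ (univ.erase o).card :=
        Nat.mul_le_mul h2 (prod_le_pow_card _ _ _ hmax)
    _ = _ := by rw [one_mul, hcard]

/-- the inverse of a matrix with bounded entries and determinant bounded below -/
lemma exists_frame (B : Matrix D D ℝ) (o : D) {L : ℝ} (hL : 1 ≤ L)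
    (hLd : (Fintype.card D : ℝ) * (Fintype.card D).factorial ≤ L) (hB : ∀ i j, |B i j| ≤ L)
    (hdet : 1 ≤ L * |B.det|) :
    ∃ G : (D → ℝ) →ₗ[ℝ] (D → ℝ), Frm G (L ^ (Fintype.card D + 2)) ∧
      (∀ j i, i ≠ j → G (fun l => B l j) i = 0) ∧
      ∀ w, 1 ≤ L * |(B.updateCol o w).det| → 1 ≤ L ^ (Fintype.card D + 2) * |G w o| := by
  set d := Fintype.card D with hd
  have hL0 : 0 < L := by linarith
  have hd1 : (1 : ℝ) ≤ d := by exact_mod_cast Fintype.card_pos_iff.2 ⟨o⟩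
  have hf1 : (1 : ℝ) ≤ d.factorial := by exact_mod_cast d.factorial_pos
  have hdL : (d : ℝ) ≤ L := by nlinarith
  have hfL : (d.factorial : ℝ) ≤ L := by nlinarith
  have hdet0 : 0 < |B.det| := by
    rcases (abs_nonneg B.det).eq_or_lt with h | h
    · rw [← h] at hdet; linarith
    · exact h
  have hu : IsUnit B.det := isUnit_iff_ne_zero.2 (abs_pos.1 hdet0)
  have hdl : ∀ A : Matrix D D ℝ, (∀ i j, |A i j| ≤ L) → |A.det| ≤ d.factorial * L ^ d := by
    intro A hA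
    simpa using Matrix.det_le (A := A) (abv := AbsoluteValue.abs) (x := L) hA
  have hinv : ∀ i j, |B⁻¹ i j| ≤ d.factorial * L ^ (d + 1) := by
    intro i j
    have h1 : |B.adjugate i j| ≤ d.factorial * L ^ d := by
      rw [Matrix.adjugate_apply]
      refine hdl _ fun a b => ?_
      rw [Matrix.updateRow_apply]
      split_ifs
      · rw [Pi.single_apply]; split_ifs <;> simp [hL, hL0.le]
      · exact hB a b
    rw [Matrix.inv_def, Matrix.smul_apply, Ring.inverse_eq_inv', smul_eq_mul, abs_mul, abs_inv,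
      mul_comm, ← div_eq_mul_inv, div_le_iff₀ hdet0]
    have : (0 : ℝ) ≤ d.factorial * L ^ d := by positivity
    calc _ ≤ d.factorial * L ^ d * 1 := by simpa using h1
      _ ≤ d.factorial * L ^ d * (L * |B.det|) := mul_le_mul_of_nonneg_left hdet this
      _ = _ := by ring
  refine ⟨B⁻¹.mulVecLin, ⟨fun y t hy i => ?_, fun y t hy i => ?_⟩, fun j i hij => ?_,
    fun w hw => ?_⟩
  · have ht : 0 ≤ t := (abs_nonneg _).trans (hy o)
    refine (mulVec_bound _ hinv hy i).trans (mul_le_mul_of_nonneg_right ?_ ht)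
    rw [← hd, ← mul_assoc, pow_succ' L (d + 1)]
    exact mul_le_mul_of_nonneg_right hLd (by positivity)
  · have ht : 0 ≤ t := (abs_nonneg _).trans (hy o)
    have e : y = B.mulVec (B⁻¹.mulVecLin y) := by
      rw [Matrix.mulVecLin_apply, Matrix.mulVec_mulVec, Matrix.mul_nonsing_inv _ hu,
        Matrix.one_mulVec]
    rw [e]
    refine (mulVec_bound _ hB hy i).trans (mul_le_mul_of_nonneg_right ?_ ht)
    calc (Fintype.card D : ℝ) * L ≤ L ^ 2 := by rw [← hd]; nlinarith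
      _ ≤ _ := pow_le_pow_right₀ hL (by omega)
  · have e : (B⁻¹.mulVecLin fun l => B l j) i = (B⁻¹ * B) i j := by
      simp [Matrix.mulVec, dotProduct, Matrix.mul_apply]
    rw [e, Matrix.nonsing_inv_mul _ hu, Matrix.one_apply_ne hij]
  · have e := congrFun (Matrix.det_smul_inv_mulVec_eq_cramer B w hu) o
    rw [Matrix.cramer_apply, Pi.smul_apply, smul_eq_mul] at e
    rw [← e, abs_mul] at hw
    rw [Matrix.mulVecLin_apply]
    have h1 : |B.det| ≤ L * L ^ d :=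
      (hdl B hB).trans (mul_le_mul_of_nonneg_right hfL (by positivity))
    calc (1 : ℝ) ≤ L * (|B.det| * |B⁻¹.mulVec w o|) := hw
      _ ≤ L * ((L * L ^ d) * |B⁻¹.mulVec w o|) := by gcongr
      _ = _ := by ring

omit [Fintype D] [DecidableEq D] in
/-- close slopes give close directions -/
lemma Frm.dir_close {G : (D → ℝ) →ₗ[ℝ] (D → ℝ)} {K δ : ℝ} (hG : Frm G K) (hK : 10 ≤ K) {o : D}
    {w w' : D → ℝ} (hw : ∀ i, |w i| ≤ K) (hw' : ∀ i, |w' i| ≤ K) (h0 : w o = 1) (h0' : w' o = 1)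
    (hg : G w o ≠ 0) (h : ∀ i, |G w i / G w o - G w' i / G w' o| ≤ δ) (i : D) :
    |w i - w' i| ≤ K ^ 5 * δ := by
  have hK0 : 0 < K := by linarith
  have hδ : 0 ≤ δ := (abs_nonneg _).trans (h o)
  have h1 := hG.bw ((G w o)⁻¹ • w - (G w' o)⁻¹ • w') δ (fun l => by
    have := h l
    simp only [map_sub, map_smul, Pi.sub_apply, Pi.smul_apply, smul_eq_mul]
    rwa [div_eq_inv_mul, div_eq_inv_mul] at this)
  simp only [Pi.sub_apply, Pi.smul_apply, smul_eq_mul] at h1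
  have h2 := h1 o
  rw [h0, h0'] at h2
  have e : w i - w' i = G w o * (((G w o)⁻¹ * w i - (G w' o)⁻¹ * w' i) -
      ((G w o)⁻¹ * 1 - (G w' o)⁻¹ * 1) * w' i) := by
    field_simp; ring
  have h3 : |((G w o)⁻¹ * 1 - (G w' o)⁻¹ * 1) * w' i| ≤ K * δ * K := by
    rw [abs_mul]; exact mul_le_mul h2 (hw' i) (abs_nonneg _) (by positivity)
  rw [e, abs_mul]
  calc _ ≤ (K * K) * (K * δ + K * δ * K) :=
        mul_le_mul (hG.fw w K hw o) ((abs_sub _ _).trans (add_le_add (h1 i) h3)) (abs_nonneg _)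
          (by positivity)
    _ = K ^ 3 * (1 + K) * δ := by ring
    _ ≤ K ^ 3 * K ^ 2 * δ := by gcongr; nlinarith
    _ = _ := by ring

omit [Fintype D] [DecidableEq D] in
/-- shear of a frame -/
lemma Frm.shear {G : (D → ℝ) →ₗ[ℝ] (D → ℝ)} {K A : ℝ} (hG : Frm G K) (o : D)
    (β : D → ℝ) (hβ : ∀ i, |β i| ≤ A) (hβ0 : β o = 0) :
    ∃ G' : (D → ℝ) →ₗ[ℝ] (D → ℝ), Frm G' (K * (1 + A)) ∧ ∀ y i, G' y i = G y i - β i * G y o := by
  refine ⟨{ toFun := fun y i => G y i - β i * G y o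
            map_add' := fun x y => by funext i; simp only [map_add, Pi.add_apply]; ring
            map_smul' := fun c y => by
              funext i; simp only [map_smul, Pi.smul_apply, smul_eq_mul, RingHom.id_apply]; ring },
    ⟨fun y t hy i => ?_, fun y t hy i => ?_⟩, fun _ _ => rfl⟩
  · show |G y i - β i * G y o| ≤ _
    have h1 : |β i * G y o| ≤ A * (K * t) := by
      rw [abs_mul]
      exact mul_le_mul (hβ i) (hG.fw y t hy o) (abs_nonneg _) ((abs_nonneg _).trans (hβ i))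
    refine (abs_sub _ _).trans ?_
    linarith [hG.fw y t hy i]
  · replace hy : ∀ l, |G y l - β l * G y o| ≤ t := hy
    have h0 := hy o
    rw [hβ0, zero_mul, sub_zero] at h0
    have := hG.bw y ((1 + A) * t) (fun l => by
      have h1 : |β l * G y o| ≤ A * t := by
        rw [abs_mul]
        exact mul_le_mul (hβ l) h0 (abs_nonneg _) ((abs_nonneg _).trans (hβ l))
      have h2 := abs_le.1 h1
      have h3 := abs_le.1 (hy l)
      rw [abs_le]; constructor <;> linarith [h2.1, h2.2, h3.1, h3.2]) i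
    linarith

end Crest.Agent.N76.LG
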