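import Crest.Agent.N76.LG.Planar

/-! # Row 76, Lemma G, part 3: from ball-Frostman directions to a Frostman set of slopes
(helper96) -/

set_option autoImplicit false

namespace Crest.Agent.N76.LG

open Finset Function

open Classical in
/-- Frostman condition for the coordinates in `J`, at scales `≥ δ`, exponent `κ`, loss `Λ` -/
def Fr {β D : Type*} (Θ : Finset β) (a : β → D → ℝ) (J : Finset D) (δ κ Λ : ℝ) : Prop :=
  ∀ (v : D → ℝ) (ρ : ℝ), δ ≤ ρ → ρ ≤ 1 →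
    ((Θ.filter fun θ => ∀ j ∈ J, |a θ j - v j| ≤ ρ).card : ℝ) ≤ Λ * ρ ^ κ * Θ.card

/-- **Ladder**: some single coordinate is Frostman at some coarser resolution. -/
theorem ladder.{u} {D : Type*} (P : ℝ → ℝ → ℝ → Prop)
    (hP : ∀ κ, 0 < κ → κ < 1 → ∃ η D₀, 0 < η ∧ 0 < D₀ ∧ P κ η D₀) (κ : ℝ) (hκ : 0 < κ)
    (hκ1 : κ < 1) (J : Finset D) (hJ : J.Nonempty) :
    ∃ η lam η₀ δ₀ : ℝ, 0 < η ∧ 0 < lam ∧ lam ≤ 1 ∧ 0 < η₀ ∧ 0 < δ₀ ∧
      ∀ {β : Type u} (Θ : Finset β) (a : β → D → ℝ) (δ : ℝ), 0 < δ → δ ≤ δ₀ → δ ≤ 1 →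
        Θ.Nonempty → Fr Θ a J δ κ (δ ^ (-η)) →
        ∃ (κ' η' D₀ δ' : ℝ) (j : D) (Θ' : Finset β), P κ' η' D₀ ∧ 0 < κ' ∧ κ' < 1 ∧ η₀ ≤ η' ∧
          δ ≤ δ' ∧ δ' ≤ δ ^ lam ∧ δ' ≤ D₀ ∧ j ∈ J ∧ Θ' ⊆ Θ ∧ Θ'.Nonempty ∧
          Fr Θ' a {j} δ' κ' (δ' ^ (-η')) := by
  classical
  induction hJ using Finset.Nonempty.cons_induction with
  | singleton j =>
    obtain ⟨η, D₀, h1, h2, h3⟩ := hP κ hκ hκ1
    refine ⟨η, 1, η, D₀, h1, one_pos, le_rfl, h1, h2, ?_⟩
    intro β Θ a δ _ hδ _ hΘ hF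
    exact ⟨κ, η, D₀, δ, j, Θ, h3, hκ, hκ1, le_rfl, le_rfl, by rw [Real.rpow_one], hδ,
      mem_singleton_self _, subset_rfl, hΘ, hF⟩
  | cons j J hj hJ ih =>
    obtain ⟨η1, lam1, η01, δ1, h1, h2, h2', h3, h4, ih⟩ := ih
    set κ1 := min η1 (1 / 2) with hκ1def
    have hk0 : 0 < κ1 := lt_min h1 (by norm_num)
    have hk1 : κ1 < 1 := lt_of_le_of_lt (min_le_right _ _) (by norm_num)
    obtain ⟨η, D₀, g1, g2, g3⟩ := hP κ1 hk0 hk1
    set μ := min (η / κ1) 1 with hμ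
    have hμ0 : 0 < μ := lt_min (by positivity) one_pos
    have hμ1 : μ ≤ 1 := min_le_right _ _
    refine ⟨η, μ * lam1, min η η01, min D₀ (δ1 ^ (1 / μ)), g1, by positivity,
      by nlinarith, lt_min g1 h3, lt_min g2 (by positivity), ?_⟩
    intro β Θ a δ hδ0 hδ hδ1 hΘ hF
    by_cases hB : Fr Θ a {j} δ κ1 (δ ^ (-η))
    · refine ⟨κ1, η, D₀, δ, j, Θ, g3, hk0, hk1, min_le_left _ _, le_rfl, ?_,
        hδ.trans (min_le_left _ _), mem_cons_self _ _, subset_rfl, hΘ, hB⟩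
      calc δ = δ ^ (1 : ℝ) := (Real.rpow_one δ).symm
        _ ≤ _ := Real.rpow_le_rpow_of_exponent_ge hδ0 hδ1 (by nlinarith)
    · unfold Fr at hB
      push Not at hB
      obtain ⟨v, r, hr, hr1, hv⟩ := hB
      have hr0 : 0 < r := hδ0.trans_le hr
      set Θ1 := Θ.filter fun θ => ∀ i ∈ ({j} : Finset D), |a θ i - v i| ≤ r with hΘ1
      have hc : (0 : ℝ) < Θ.card := by exact_mod_cast hΘ.card_pos
      have hle : (Θ1.card : ℝ) ≤ Θ.card := by exact_mod_cast card_le_card (filter_subset _ _)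
      have hΘ1pos : (0 : ℝ) < Θ1.card := lt_trans (by positivity) hv
      have hrδ : r ≤ δ ^ μ := by
        have e1 : δ ^ (-η) * r ^ κ1 < 1 := by
          have := hv.trans_le hle
          nlinarith
        have e2 : r ^ κ1 < δ ^ η := by
          rw [Real.rpow_neg hδ0.le, inv_mul_lt_iff₀ (by positivity), mul_one] at e1
          exact e1
        have e3 : r ≤ δ ^ (η / κ1) := by
          have := Real.rpow_le_rpow (by positivity) e2.le (show 0 ≤ 1 / κ1 by positivity)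
          rwa [← Real.rpow_mul hr0.le, ← Real.rpow_mul hδ0.le, mul_one_div_cancel hk0.ne',
            Real.rpow_one, mul_one_div] at this
        exact e3.trans (Real.rpow_le_rpow_of_exponent_ge hδ0 hδ1 (min_le_left _ _))
      have hF1 : Fr Θ1 a J r κ (r ^ (-η1)) := by
        intro w ρ hρ hρ1
        have hρ0 : 0 < ρ := hr0.trans_le hρ
        have e1 := hF (update w j (v j)) ρ (hr.trans hρ) hρ1
        have e2 : ((Θ1.filter fun θ => ∀ i ∈ J, |a θ i - w i| ≤ ρ).card : ℝ) ≤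
            (Θ.filter fun θ => ∀ i ∈ cons j J hj, |a θ i - update w j (v j) i| ≤ ρ).card := by
          norm_cast
          refine card_le_card fun θ hθ => ?_
          simp only [hΘ1, mem_filter, mem_singleton, forall_eq, mem_cons] at hθ ⊢
          refine ⟨hθ.1.1, ?_⟩
          rintro i (rfl | hi)
          · rw [update_self]; exact hθ.1.2.trans hρ
          · rw [update_of_ne (fun h : i = j => hj (h ▸ hi))]; exact hθ.2 i hi
        have e3 : r ^ (-κ1) ≤ r ^ (-η1) :=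
          Real.rpow_le_rpow_of_exponent_ge hr0 hr1 (by linarith [min_le_left η1 (1 / 2)])
        have e4 : δ ^ (-η) * Θ.card ≤ r ^ (-κ1) * Θ1.card := by
          rw [Real.rpow_neg hr0.le, le_inv_mul_iff₀ (by positivity)]
          linarith
        calc _ ≤ δ ^ (-η) * ρ ^ κ * Θ.card := by convert e2.trans e1
          _ = ρ ^ κ * (δ ^ (-η) * Θ.card) := by ring
          _ ≤ ρ ^ κ * (r ^ (-η1) * Θ1.card) := by
              refine mul_le_mul_of_nonneg_left (e4.trans ?_) (by positivity)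
              exact mul_le_mul_of_nonneg_right e3 hΘ1pos.le
          _ = _ := by ring
      have hr2 : r ≤ δ1 := by
        refine hrδ.trans ?_
        have := Real.rpow_le_rpow hδ0.le (hδ.trans (min_le_right _ _)) hμ0.le
        rwa [← Real.rpow_mul h4.le, one_div_mul_cancel hμ0.ne', Real.rpow_one] at this
      obtain ⟨κ', η', D₀', δ', j', Θ', q1, q2, q3, q4, q5, q6, q7, q8, q9, q10, q11⟩ :=
        ih Θ1 a r hr0 hr2 hr1 (card_pos.1 (by exact_mod_cast hΘ1pos)) hF1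
      refine ⟨κ', η', D₀', δ', j', Θ', q1, q2, q3, (min_le_right _ _).trans q4, hr.trans q5,
        q6.trans ?_, q7, mem_cons.2 (Or.inr q8), q9.trans (filter_subset _ _), q10, q11⟩
      rw [Real.rpow_mul hδ0.le]
      exact Real.rpow_le_rpow hr0.le hrδ h2.le

variable {D : Type*} [Fintype D] [DecidableEq D]

set_option maxHeartbeats 1000000 in
/-- `planar` for an indexed family of directions with slopes in `[-1,1]`. -/
theorem planar' {d : ℕ} (hd : Fintype.card D = d + 1) (hd1 : 1 ≤ d) {i0 i1 : D} (hi : i0 ≠ i1)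
    {σ κ ε D₀ N Λ : ℝ} (hBR : BR.Body σ κ ε D₀) (hσ : 0 ≤ σ) (hκ : 0 ≤ κ) (hκ1 : κ ≤ 1)
    (hN : 1 ≤ N) (hND : 1 / N ≤ D₀) (hΛ : 1 ≤ Λ)
    (hQ : (60 * (d + 1) * Λ) ^ (3 * d ^ 2 + 6 * d + 7) ≤ N ^ ε)
    (Y : Finset (D → ℤ)) (hY : ∀ y ∈ Y, ∀ i, 0 ≤ y i ∧ (y i : ℝ) ≤ N)
    (hYc : (N ^ σ) ^ (d + 1) ≤ Λ * Y.card)
    (hP : ∀ j, ((prj j Y).card : ℝ) ≤ Λ * (N ^ σ) ^ d)
    {β : Type*} (Θ : Finset β) (hΘ : Θ.Nonempty) (s : β → D → ℝ)
    (hs : ∀ θ ∈ Θ, |s θ i1| ≤ 1) (hF : Fr Θ s {i1} (1 / N) κ Λ)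
    {ι : Type*} [DecidableEq ι] (Ya : β → Finset (D → ℤ)) (τ : β → (D → ℤ) → ι)
    (hYa : ∀ a ∈ Θ, Ya a ⊆ Y) (hYa' : ∀ a ∈ Θ, (Y.card : ℝ) ≤ Λ * (Ya a).card)
    (hτ : ∀ a ∈ Θ, (((Ya a).image (τ a)).card : ℝ) ≤ Λ * (N ^ σ) ^ d)
    (htube : ∀ a ∈ Θ, ∀ y ∈ Ya a, ∀ y' ∈ Ya a, τ a y = τ a y' → ∀ i,
      |(y i : ℝ) - y' i - ((y i0 : ℝ) - y' i0) * s a i| ≤ Λ)
    (hfro : ∀ a ∈ Θ, ∀ y0 ∈ Ya a, ∀ x r : ℝ, 1 ≤ r → r ≤ N →
      (((Ya a).filter fun y => τ a y = τ a y0 ∧ x ≤ y i0 ∧ (y i0 : ℝ) ≤ x + r).card : ℝ) ≤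
        Λ * r ^ σ) : False := by
  classical
  have hN0 : 0 < N := by linarith
  -- sign
  obtain ⟨e, he, hcard⟩ : ∃ e : ℝ, (e = 1 ∨ e = -1) ∧
      (Θ.card : ℝ) ≤ 2 * (Θ.filter fun θ => 0 ≤ -(e * s θ i1)).card := by
    have h1 : Θ ⊆ (Θ.filter fun θ => 0 ≤ -(1 * s θ i1)) ∪ Θ.filter fun θ => 0 ≤ -(-1 * s θ i1) := by
      intro θ hθ
      rcases le_total 0 (s θ i1) with h | h
      · exact mem_union_right _ (mem_filter.2 ⟨hθ, by linarith⟩)
      · exact mem_union_left _ (mem_filter.2 ⟨hθ, by linarith⟩)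
    have h2 : (Θ.card : ℝ) ≤ (Θ.filter fun θ => 0 ≤ -(1 * s θ i1)).card +
        (Θ.filter fun θ => 0 ≤ -(-1 * s θ i1)).card := by
      exact_mod_cast (card_le_card h1).trans (card_union_le _ _)
    rcases le_total ((Θ.filter fun θ => 0 ≤ -(1 * s θ i1)).card : ℝ)
      (Θ.filter fun θ => 0 ≤ -(-1 * s θ i1)).card with h | h
    · exact ⟨-1, Or.inr rfl, by linarith⟩
    · exact ⟨1, Or.inl rfl, by linarith⟩
  have he2 : e * e = 1 := by rcases he with rfl | rfl <;> norm_num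
  have habs : |e| = 1 := by rcases he with rfl | rfl <;> norm_num
  set Θ1 := Θ.filter fun θ => 0 ≤ -(e * s θ i1) with hΘ1
  have hsub : Θ1 ⊆ Θ := filter_subset _ _
  have hc : (0 : ℝ) < Θ.card := by exact_mod_cast hΘ.card_pos
  set n := Θ1.card with hn
  have hn0 : (0 : ℝ) < n := by linarith
  set idx : β → ℕ := fun θ => if h : θ ∈ Θ1 then (Θ1.equivFin ⟨θ, h⟩ : ℕ) else 0 with hidx
  have hidx1 : ∀ θ ∈ Θ1, (idx θ : ℝ) / n < 1 := by
    intro θ h
    rw [div_lt_one hn0]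
    simp only [hidx, dif_pos h]
    exact_mod_cast (Θ1.equivFin ⟨θ, h⟩).2
  set sl : β → ℝ := fun θ => ((⌊-(e * s θ i1) * N⌋ : ℝ) + idx θ / n) / (N + 1) with hsl
  have hinj : Set.InjOn sl Θ1 := by
    intro θ h θ' h' hh
    have h1 : (⌊-(e * s θ i1) * N⌋ : ℝ) + idx θ / n = ⌊-(e * s θ' i1) * N⌋ + idx θ' / n := by
      simp only [hsl] at hh
      field_simp at hh ⊢
      linarith
    have h2 := congrArg Int.fract h1
    rw [Int.fract_intCast_add, Int.fract_intCast_add,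
      Int.fract_eq_self.2 ⟨div_nonneg (Nat.cast_nonneg _) hn0.le, hidx1 θ h⟩,
      Int.fract_eq_self.2 ⟨div_nonneg (Nat.cast_nonneg _) hn0.le, hidx1 θ' h'⟩] at h2
    have h3 : idx θ = idx θ' := by
      field_simp at h2
      exact_mod_cast h2
    simp only [hidx, dif_pos (mem_coe.1 h), dif_pos (mem_coe.1 h')] at h3
    exact congrArg Subtype.val (Θ1.equivFin.injective (Fin.ext h3))
  have hsl1 : ∀ θ ∈ Θ1, 0 ≤ sl θ ∧ sl θ ≤ 1 ∧ |sl θ - -(e * s θ i1)| ≤ 2 / N := by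
    intro θ h
    have h0 : 0 ≤ -(e * s θ i1) := (mem_filter.1 h).2
    have h1 : -(e * s θ i1) ≤ 1 := by
      have := neg_abs_le (e * s θ i1)
      rw [abs_mul, habs, one_mul] at this
      linarith [hs θ (hsub h)]
    generalize hu : -(e * s θ i1) = u at h0 h1 ⊢
    have h2 := Int.floor_le (u * N)
    have h3 := Int.lt_floor_add_one (u * N)
    have h4 := hidx1 θ h
    have h5 : (0 : ℝ) ≤ idx θ / n := div_nonneg (Nat.cast_nonneg _) hn0.le
    have h6 : (0 : ℝ) ≤ ⌊u * N⌋ := by exact_mod_cast Int.floor_nonneg.2 (by positivity)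
    simp only [hsl, hu]
    refine ⟨div_nonneg (by linarith) (by linarith),
      (div_le_one (by linarith)).2 (by nlinarith), ?_⟩
    have e1 : ((⌊u * N⌋ : ℝ) + idx θ / n) / (N + 1) - u =
        ((⌊u * N⌋ : ℝ) + idx θ / n - u * N - u) / (N + 1) := by field_simp; ring
    rw [e1, abs_div, abs_of_pos (show 0 < N + 1 by linarith)]
    refine div_le_div₀ (by norm_num) ?_ hN0 (by linarith)
    rw [abs_le]; constructor <;> linarith
  have hch : ∀ a : ℝ, ∃ θ, a ∈ Θ1.image sl → θ ∈ Θ1 ∧ sl θ = a := by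
    intro a
    by_cases h : a ∈ Θ1.image sl
    · obtain ⟨θ, h1, h2⟩ := mem_image.1 h
      exact ⟨θ, fun _ => ⟨h1, h2⟩⟩
    · exact ⟨hΘ.choose, fun h' => absurd h' h⟩
  choose th hth using hch
  have hth' : ∀ a ∈ Θ1.image sl, th a ∈ Θ := fun a ha => hsub (hth a ha).1
  have hS : 0 ≤ (N ^ σ) ^ d := by positivity
  have h6 : ∀ {u : ℝ}, 0 ≤ u → Λ * u ≤ 6 * Λ * u := fun hu =>
    mul_le_mul_of_nonneg_right (by linarith) hu
  refine planar hd hd1 hi (Λ := 6 * Λ) hBR hσ hN hND he (by linarith)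
    (by convert hQ using 2; ring) Y hY (hYc.trans (h6 (Nat.cast_nonneg _)))
    (fun j => (hP j).trans (h6 hS)) (Θ1.image sl)
    ((card_pos.1 (by exact_mod_cast hn0)).image _) ?_ ?_ (fun a => Ya (th a)) (fun a => τ (th a))
    (fun a => update (s (th a)) i1 (-(e * a))) (fun a ha => hYa _ (hth' a ha))
    (fun a ha => (hYa' _ (hth' a ha)).trans (h6 (Nat.cast_nonneg _)))
    (fun a ha => (hτ _ (hth' a ha)).trans (h6 hS)) (fun a _ => update_self ..) ?_
    (fun a ha y0 hy0 x r hr hr' => (hfro _ (hth' a ha) y0 hy0 x r hr hr').trans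
      (h6 (Real.rpow_nonneg (by linarith) _)))
  · intro a ha
    obtain ⟨θ, h1, rfl⟩ := mem_image.1 ha
    exact ⟨(hsl1 θ h1).1, (hsl1 θ h1).2.1⟩
  · intro x r hr hr1
    have hr0 : 0 < r := lt_of_lt_of_le (by positivity) hr
    rw [card_image_of_injOn hinj, ← hn]
    have h1 : (((Θ1.image sl).filter fun a => x ≤ a ∧ a ≤ x + r).card : ℝ) ≤
        (Θ.filter fun θ => |s θ i1 - -(e * (x + r / 2))| ≤ 3 * r).card := by
      norm_cast
      rw [filter_image]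
      refine card_image_le.trans (card_le_card fun θ hθ => ?_)
      obtain ⟨h2, h3, h4⟩ := mem_filter.1 hθ
      refine mem_filter.2 ⟨hsub h2, ?_⟩
      have h5 := (hsl1 θ h2).2.2
      have h6 : s θ i1 - -(e * (x + r / 2)) = e * ((x + r / 2) - -(e * s θ i1)) := by
        linear_combination (-(s θ i1)) * he2
      have h7 : 2 / N ≤ 2 * r := by
        have : 2 / N = 2 * (1 / N) := by ring
        linarith
      rw [h6, abs_mul, habs, one_mul]
      rw [abs_le] at h5 ⊢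
      constructor <;> linarith [h5.1, h5.2]
    have h3 : (3 * r) ^ κ ≤ 3 * r ^ κ := by
      rw [Real.mul_rpow (by norm_num) hr0.le]
      refine mul_le_mul_of_nonneg_right ?_ (by positivity)
      calc (3 : ℝ) ^ κ ≤ 3 ^ (1 : ℝ) := Real.rpow_le_rpow_of_exponent_le (by norm_num) hκ1
        _ = 3 := Real.rpow_one 3
    have h2 : ((Θ.filter fun θ => |s θ i1 - -(e * (x + r / 2))| ≤ 3 * r).card : ℝ) ≤
        Λ * (3 * r) ^ κ * Θ.card := by
      rcases le_total (3 * r) 1 with h | h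
      · have := hF (fun _ => -(e * (x + r / 2))) (3 * r) (by linarith) h
        simpa using this
      · have h4 : 1 ≤ (3 * r) ^ κ := Real.one_le_rpow h hκ
        calc _ ≤ (Θ.card : ℝ) := by exact_mod_cast card_le_card (filter_subset _ _)
          _ = 1 * 1 * Θ.card := by ring
          _ ≤ _ := by gcongr
    calc _ ≤ Λ * (3 * r) ^ κ * Θ.card := h1.trans h2
      _ ≤ Λ * (3 * r ^ κ) * (2 * n) := by gcongr
      _ = _ := by ring
  · intro a ha y hy y' hy' h i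
    have h1 := htube _ (hth' a ha) y hy y' hy' h i
    by_cases e1 : i = i1
    · subst e1
      rw [update_self]
      have h2 := (hsl1 _ (hth a ha).1).2.2
      rw [(hth a ha).2] at h2
      have h3 : |(y i0 : ℝ) - y' i0| ≤ N := by
        have g1 := hY y (hYa _ (hth' a ha) hy) i0
        have g2 := hY y' (hYa _ (hth' a ha) hy') i0
        have g3 : (0 : ℝ) ≤ y i0 := by exact_mod_cast g1.1
        have g4 : (0 : ℝ) ≤ y' i0 := by exact_mod_cast g2.1
        rw [abs_le]; constructor <;> linarith [g1.2, g2.2]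
      have h4 : (y i : ℝ) - y' i - ((y i0 : ℝ) - y' i0) * -(e * a) =
          ((y i : ℝ) - y' i - ((y i0 : ℝ) - y' i0) * s (th a) i) +
            ((y i0 : ℝ) - y' i0) * (e * (a - -(e * s (th a) i))) := by
        linear_combination (-(((y i0 : ℝ) - y' i0) * s (th a) i)) * he2
      rw [h4]
      refine (abs_add_le _ _).trans ?_
      rw [abs_mul, abs_mul, habs, one_mul]
      have h5 : |(y i0 : ℝ) - y' i0| * |a - -(e * s (th a) i)| ≤ N * (2 / N) :=
        mul_le_mul h3 h2 (abs_nonneg _) hN0.le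
      have h6 : N * (2 / N) = 2 := by field_simp
      linarith
    · rw [update_of_ne e1]; linarith

end Crest.Agent.N76.LG
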