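import Crest.Agent.N76.LG.Coord
import Crest.Agent.N76.BR.Unif

/-! # Row 76, Lemma G, part 2: reduction of a Loomis–Whitney sharp set to the plane (helper96) -/

set_option autoImplicit false

namespace Crest.Agent.N76.LG

open Finset Function
open Crest.Agent.N76.MK Crest.Agent.R070.Cov78

lemma card_int_close (V : Finset ℤ) (c ρ : ℝ) (hρ : 0 ≤ ρ) (h : ∀ v ∈ V, |(v : ℝ) - c| ≤ ρ) :
    (V.card : ℝ) ≤ 2 * ρ + 1 := by
  have hsub : V ⊆ Finset.Icc ⌈c - ρ⌉ ⌊c + ρ⌋ := by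
    intro v hv
    have := abs_le.1 (h v hv)
    rw [mem_Icc, Int.ceil_le, Int.le_floor]
    constructor <;> linarith [this.1, this.2]
  have h1 := card_le_card hsub
  rw [Int.card_Icc] at h1
  have h2 : ((⌊c + ρ⌋ + 1 - ⌈c - ρ⌉).toNat : ℝ) ≤ 2 * ρ + 1 := by
    rcases le_total 0 (⌊c + ρ⌋ + 1 - ⌈c - ρ⌉) with h3 | h3
    · have : (((⌊c + ρ⌋ + 1 - ⌈c - ρ⌉).toNat : ℤ) : ℝ) = ((⌊c + ρ⌋ + 1 - ⌈c - ρ⌉ : ℤ) : ℝ) := by
        rw [Int.toNat_of_nonneg h3]
      push_cast at this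
      rw [this]
      linarith [Int.floor_le (c + ρ), Int.le_ceil (c - ρ)]
    · rw [Int.toNat_of_nonpos h3]; push_cast; linarith
  exact le_trans (by exact_mod_cast h1) h2

/-- half of a set lies in rich fibres -/
lemma rich_half {α ι : Type*} [DecidableEq ι] (Y : Finset α) (τ : α → ι) {P : ℝ} (hP : 0 < P)
    (h : ((Y.image τ).card : ℝ) ≤ P) :
    (Y.card : ℝ) / 2 ≤ (Y.filter fun y =>
      (Y.card : ℝ) / (2 * P) ≤ (Y.filter fun y' => τ y' = τ y).card).card := by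
  classical
  have h1 := card_filter_add_card_filter_not (s := Y) (fun y =>
      (Y.card : ℝ) / (2 * P) ≤ (Y.filter fun y' => τ y' = τ y).card)
  have h2 : ((Y.filter fun y => ¬ (Y.card : ℝ) / (2 * P) ≤
      (Y.filter fun y' => τ y' = τ y).card).card : ℝ) ≤ Y.card / 2 := by
    rw [card_eq_sum_card_fiberwise (f := τ) (t := Y.image τ)
      fun y hy => mem_image_of_mem _ (mem_filter.1 hy).1]
    push_cast
    have h3 : ∀ t ∈ Y.image τ, (((Y.filter fun y => ¬ (Y.card : ℝ) / (2 * P) ≤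
        (Y.filter fun y' => τ y' = τ y).card).filter fun y => τ y = t).card : ℝ) ≤
        Y.card / (2 * P) := by
      intro t _
      rcases ((Y.filter fun y => ¬ (Y.card : ℝ) / (2 * P) ≤
        (Y.filter fun y' => τ y' = τ y).card).filter fun y => τ y = t).eq_empty_or_nonempty with
        h0 | ⟨y, hy⟩
      · rw [h0]; simp only [card_empty, Nat.cast_zero]; positivity
      · simp only [mem_filter, not_le] at hy
        refine le_trans ?_ hy.1.2.le
        norm_cast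
        refine card_le_card fun y' hy' => ?_
        simp only [mem_filter] at hy' ⊢
        exact ⟨hy'.1.1, hy'.2.trans hy.2.symm⟩
    refine (sum_le_card_nsmul _ _ _ h3).trans ?_
    rw [nsmul_eq_mul]
    calc _ ≤ P * (Y.card / (2 * P)) := mul_le_mul_of_nonneg_right h (by positivity)
      _ = _ := by field_simp
  have h3 : ((Y.filter fun y => (Y.card : ℝ) / (2 * P) ≤
      (Y.filter fun y' => τ y' = τ y).card).card : ℝ) + (Y.filter fun y => ¬ (Y.card : ℝ) /
      (2 * P) ≤ (Y.filter fun y' => τ y' = τ y).card).card = Y.card := by exact_mod_cast h1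
  linarith

variable {D : Type*} [Fintype D] [DecidableEq D]

/-- the planar projection -/
noncomputable def plan (N e b : ℝ) (i0 i1 : D) (y : D → ℤ) : ℝ × ℝ :=
  ((y i0 : ℝ) / N, (b + e * y i1) / N)

/-- the functional which is constant along the direction of slope `a` -/
def phi (e b a : ℝ) (i0 i1 : D) (y : D → ℤ) : ℝ := b + e * y i1 + a * y i0

omit [Fintype D] [DecidableEq D] in
lemma plan_phi (N e b a : ℝ) (i0 i1 : D) (y : D → ℤ) :
    (plan N e b i0 i1 y).2 + a * (plan N e b i0 i1 y).1 = phi e b a i0 i1 y / N := by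
  simp only [plan, phi]; ring

/-- the planar set attached to one direction -/
lemma one_direction {d : ℕ} (hd : Fintype.card D = d + 1) {i0 i1 : D} (hi : i0 ≠ i1)
    {N e b a S Λ B t L σ : ℝ} (hN : 0 < N) (he : e = 1 ∨ e = -1) (hS : 1 ≤ S) (hΛ : 1 ≤ Λ)
    (hB : 0 < B) (hL : L ≤ S / 2) (A : D → Finset ℤ) (hA : ∀ i, ((A i).card : ℝ) ≤ B)
    (Y : Finset (D → ℤ)) (hY : ∀ y ∈ Y, ∀ i, y i ∈ A i)
    {ι : Type*} [DecidableEq ι] (τ : (D → ℤ) → ι) {P : ℝ} (hP : 0 < P)
    (hτ : ((Y.image τ).card : ℝ) ≤ P) (ht0 : 0 ≤ t) (ht : t ≤ Y.card / (2 * P))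
    (hLY : L * B ^ d ≤ Y.card / 2) (s : D → ℝ) (hs : s i1 = -(e * a))
    (htube : ∀ y ∈ Y, ∀ y' ∈ Y, τ y = τ y' → ∀ i,
      |(y i : ℝ) - y' i - ((y i0 : ℝ) - y' i0) * s i| ≤ Λ)
    (hfro : ∀ y0 ∈ Y, ∀ x r : ℝ, 1 ≤ r → r ≤ N →
      ((Y.filter fun y => τ y = τ y0 ∧ x ≤ y i0 ∧ (y i0 : ℝ) ≤ x + r).card : ℝ) ≤ Λ * r ^ σ) :
    ∃ Zc : Finset (ℝ × ℝ), Zc ⊆ Y.image (plan N e b i0 i1) ∧
      L * t ≤ (5 * Λ) ^ (d + 2) * Zc.card ∧
      (cov (1 / N) ((fun z : ℝ × ℝ => z.2 + a * z.1) '' (Zc : Set (ℝ × ℝ))) : ℝ) ≤ 5 * Λ * S ∧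
      ∀ x y r : ℝ, 1 / N ≤ r → r ≤ 1 →
        ((Zc.filter fun z => |z.2 + a * z.1 - y| ≤ 1 / N ∧ x ≤ z.1 ∧ z.1 ≤ x + r).card : ℝ) ≤
          7 * Λ ^ 2 * (r * N) ^ σ := by
  classical
  have he2 : e * e = 1 := by rcases he with rfl | rfl <;> norm_num
  have habs : |e| = 1 := by rcases he with rfl | rfl <;> norm_num
  set φ := phi e b a i0 i1 with hφ
  have hφt : ∀ y ∈ Y, ∀ y' ∈ Y, τ y = τ y' → |φ y - φ y'| ≤ Λ := by
    intro y hy y' hy' h
    have h1 := htube y hy y' hy' h i1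
    have : φ y - φ y' = e * ((y i1 : ℝ) - y' i1 - ((y i0 : ℝ) - y' i0) * s i1) := by
      rw [hs]; simp only [hφ, phi]; linear_combination (-(a * ((y i0 : ℝ) - y' i0))) * he2
    rw [this, abs_mul, habs, one_mul]
    exact h1
  set v : (D → ℤ) → ℤ := fun y => ⌊φ y⌋ with hv
  have hvφ : ∀ y, |(v y : ℝ) - φ y| ≤ 1 := by
    intro y
    have h1 := Int.floor_le (φ y)
    have h2 := Int.lt_floor_add_one (φ y)
    rw [abs_le]; simp only [hv]; constructor <;> linarith
  set Rich := Y.filter fun y => (Y.card : ℝ) / (2 * P) ≤ (Y.filter fun y' => τ y' = τ y).card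
    with hRich
  have hR := rich_half Y τ hP hτ
  rw [← hRich] at hR
  -- many values of `v`
  have hfib : ∀ c ∈ Rich.image v, ((Rich.filter fun y => v y = c).card : ℝ) ≤ B ^ d := by
    intro c _
    have h1 : (Rich.filter fun y => v y = c).card ≤
        (Fintype.piFinset fun i => if i = i1 then {0} else A i).card := by
      refine card_le_card_of_injOn (fun y => update y i1 0) ?_ ?_
      · intro y hy
        have hy' : y ∈ Y := (mem_filter.1 (mem_filter.1 hy).1).1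
        rw [mem_coe, Fintype.mem_piFinset]
        intro i
        split_ifs with h
        · subst h; simp
        · simp only [update_of_ne h]; exact hY y hy' i
      · intro y hy y' hy' h
        have h0 : y i0 = y' i0 := by
          have := congrFun h i0
          simpa [update_of_ne hi] using this
        have h1 : ⌊φ y⌋ = ⌊φ y'⌋ := (mem_filter.1 hy).2.trans (mem_filter.1 hy').2.symm
        have h2 := Int.abs_sub_lt_one_of_floor_eq_floor h1
        have h3 : φ y - φ y' = e * ((y i1 : ℝ) - y' i1) := by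
          simp only [hφ, phi, h0]; ring
        rw [h3, abs_mul, habs, one_mul] at h2
        have h4 : |y i1 - y' i1| < 1 := by exact_mod_cast h2
        funext i
        by_cases e1 : i = i1
        · rw [e1]; rw [abs_lt] at h4; omega
        · have := congrFun h i
          simpa [update_of_ne e1] using this
    rw [Fintype.card_piFinset, ← mul_prod_erase univ _ (mem_univ i1), if_pos rfl, card_singleton,
      one_mul] at h1
    have hcard : (univ.erase i1).card = d := by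
      rw [card_erase_of_mem (mem_univ i1), card_univ, hd]; rfl
    calc _ ≤ ∏ i ∈ univ.erase i1, (((if i = i1 then {0} else A i : Finset ℤ)).card : ℝ) := by
          exact_mod_cast h1
      _ ≤ ∏ _i ∈ univ.erase i1, B := prod_le_prod (fun _ _ => Nat.cast_nonneg _) fun i hi => by
          rw [if_neg (ne_of_mem_erase hi)]; exact hA i
      _ = _ := by rw [prod_const, hcard]
  have hmany : L ≤ (Rich.image v).card := by
    have h1 : (Rich.card : ℝ) ≤ (Rich.image v).card * B ^ d := by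
      rw [card_eq_sum_card_fiberwise (f := v) (t := Rich.image v)
        fun y hy => mem_image_of_mem _ hy]
      push_cast
      refine (sum_le_card_nsmul _ _ _ hfib).trans (le_of_eq ?_)
      rw [nsmul_eq_mul]
    exact le_of_mul_le_mul_right (hLY.trans (hR.trans h1)) (by positivity)
  obtain ⟨V, hV, hVc⟩ := exists_subset_card_eq (s := Rich.image v)
    (n := min (Rich.image v).card ⌊S⌋₊) (min_le_left _ _)
  have hVS : (V.card : ℝ) ≤ S := by
    rw [hVc]
    exact le_trans (by exact_mod_cast min_le_right _ _) (Nat.floor_le (by linarith))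
  have hVL : L ≤ V.card := by
    rw [hVc, Nat.cast_min]
    refine le_min hmany (hL.trans ?_)
    have h1 := Nat.lt_floor_add_one S
    have h2 : (1 : ℝ) ≤ ⌊S⌋₊ := by exact_mod_cast Nat.floor_pos.2 hS
    linarith
  have hch : ∀ c : ℤ, ∃ y, c ∈ V → y ∈ Rich ∧ v y = c := by
    intro c
    by_cases h : c ∈ V
    · obtain ⟨y, hy, hc⟩ := mem_image.1 (hV h)
      exact ⟨y, fun _ => ⟨hy, hc⟩⟩
    · exact ⟨0, fun h' => absurd h' h⟩
  choose yv hyv using hch
  have hyY : ∀ c ∈ V, yv c ∈ Y := fun c hc => (mem_filter.1 (hyv c hc).1).1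
  set T : ℤ → Finset (D → ℤ) := fun c => Y.filter fun y => τ y = τ (yv c) with hT
  have hTφ : ∀ c ∈ V, ∀ y ∈ T c, |(c : ℝ) - φ y| ≤ Λ + 1 := by
    intro c hc y hy
    have h1 := hφt y (mem_filter.1 hy).1 _ (hyY c hc) (mem_filter.1 hy).2
    have h2 := hvφ (yv c)
    rw [(hyv c hc).2] at h2
    rw [abs_le] at h1 h2 ⊢
    constructor <;> linarith [h1.1, h1.2, h2.1, h2.2]
  set pl := plan N e b i0 i1 with hpl
  refine ⟨V.biUnion fun c => (T c).image pl, ?_, ?_, ?_, ?_⟩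
  · exact biUnion_subset.2 fun c _ => image_subset_image (filter_subset _ _)
  · -- lower bound
    set Zc := V.biUnion fun c => (T c).image pl with hZc
    have h1 : L * t ≤ ∑ c ∈ V, ((T c).card : ℝ) := by
      refine (mul_le_mul_of_nonneg_right hVL ht0).trans ?_
      rw [← nsmul_eq_mul]
      exact card_nsmul_le_sum _ _ _ fun c hc => ht.trans (mem_filter.1 (hyv c hc).1).2
    have h2 : ∀ c ∈ V, ((T c).card : ℝ) ≤ (5 * Λ) ^ (d + 1) * ((T c).image pl).card := by
      intro c _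
      rw [card_eq_sum_card_fiberwise (f := pl) (t := (T c).image pl)
        fun y hy => mem_image_of_mem _ hy]
      push_cast
      rw [mul_comm, ← nsmul_eq_mul]
      refine sum_le_card_nsmul _ _ _ fun z hz => ?_
      obtain ⟨y0, hy0, rfl⟩ := mem_image.1 hz
      rw [← hd]
      refine le_trans ?_ (card_box (D := D) hΛ)
      norm_cast
      refine card_le_card_of_injOn (fun y => y - y0) ?_ fun y _ y' _ h => sub_left_injective h
      intro y hy
      simp only [coe_filter, Set.mem_ofPred_eq] at hy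
      refine mem_box fun i => ?_
      have h3 := htube y (mem_filter.1 hy.1).1 y0 (mem_filter.1 hy0).1
        ((mem_filter.1 hy.1).2.trans (mem_filter.1 hy0).2.symm) i
      have h4 : (y i0 : ℝ) / N = (y0 i0 : ℝ) / N := congrArg Prod.fst hy.2
      have h5 : (y i0 : ℝ) = y0 i0 := by field_simp at h4; exact h4
      rw [h5, sub_self, zero_mul, sub_zero] at h3
      simp only [Pi.sub_apply]
      push_cast
      linarith
    have h3 : ∑ c ∈ V, (((T c).image pl).card : ℝ) ≤ 5 * Λ * Zc.card := by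
      have e1 : ∀ c ∈ V, (((T c).image pl).card : ℝ) =
          ∑ z ∈ Zc, if z ∈ (T c).image pl then (1 : ℝ) else 0 := by
        intro c hc
        rw [sum_boole, filter_mem_eq_inter, inter_eq_right.2 (subset_biUnion_of_mem
          (fun c => (T c).image pl) hc)]
      rw [sum_congr rfl e1, sum_comm, mul_comm, ← nsmul_eq_mul]
      refine sum_le_card_nsmul _ _ _ fun z _ => ?_
      rw [sum_boole]
      refine (card_int_close _ (N * (z.2 + a * z.1)) (Λ + 1) (by linarith) ?_).trans (by linarith)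
      intro c hc
      obtain ⟨y, hy, rfl⟩ := mem_image.1 (mem_filter.1 hc).2
      rw [hpl, plan_phi, mul_div_cancel₀ _ hN.ne']
      exact hTφ c (mem_filter.1 hc).1 y hy
    refine h1.trans ((sum_le_sum h2).trans ?_)
    rw [← mul_sum, pow_succ _ (d + 1), mul_assoc]
    exact mul_le_mul_of_nonneg_left h3 (by positivity)
  · -- covering number
    have hsub : gz (1 / N) ((fun z : ℝ × ℝ => z.2 + a * z.1) ''
        ((V.biUnion fun c => (T c).image pl : Finset (ℝ × ℝ)) : Set (ℝ × ℝ))) ⊆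
        ((V.biUnion fun c => (T c).image v : Finset ℤ) : Set ℤ) := by
      rintro _ ⟨_, ⟨z, hz, rfl⟩, rfl⟩
      obtain ⟨c, hc, hz⟩ := mem_biUnion.1 hz
      obtain ⟨y, hy, rfl⟩ := mem_image.1 hz
      refine mem_coe.2 (mem_biUnion.2 ⟨c, hc, mem_image.2 ⟨y, hy, ?_⟩⟩)
      simp only [hv, hpl, plan_phi]
      congr 1
      field_simp
      rfl
    have h1 := Set.ncard_le_ncard hsub (Finset.finite_toSet _)
    rw [Set.ncard_coe_finset] at h1
    have h2 : ∀ c ∈ V, (((T c).image v).card : ℝ) ≤ 5 * Λ := by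
      intro c hc
      refine (card_int_close _ (φ (yv c) - 1 / 2) (Λ + 1 / 2) (by linarith) ?_).trans (by linarith)
      intro u hu
      obtain ⟨y, hy, rfl⟩ := mem_image.1 hu
      have h1 := hφt y (mem_filter.1 hy).1 _ (hyY c hc) (mem_filter.1 hy).2
      have h2 := Int.floor_le (φ y)
      have h3 := Int.lt_floor_add_one (φ y)
      rw [abs_le] at h1 ⊢
      simp only [hv]
      constructor <;> linarith [h1.1, h1.2]
    calc _ ≤ ((V.biUnion fun c => (T c).image v).card : ℝ) := by exact_mod_cast h1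
      _ ≤ ∑ c ∈ V, (((T c).image v).card : ℝ) := by exact_mod_cast card_biUnion_le
      _ ≤ V.card * (5 * Λ) := by rw [← nsmul_eq_mul]; exact sum_le_card_nsmul _ _ _ h2
      _ ≤ _ := by rw [mul_comm]; exact mul_le_mul_of_nonneg_left hVS (by linarith)
  · -- Frostman on fibres
    intro x y r hr hr1
    have hrN : 1 ≤ r * N := by rwa [div_le_iff₀ hN] at hr
    have hrN' : r * N ≤ N := by nlinarith
    set V' := V.filter fun c : ℤ => |(c : ℝ) - N * y| ≤ Λ + 2 with hV'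
    have hsub : ((V.biUnion fun c => (T c).image pl).filter fun z =>
        |z.2 + a * z.1 - y| ≤ 1 / N ∧ x ≤ z.1 ∧ z.1 ≤ x + r) ⊆ V'.biUnion fun c =>
        (Y.filter fun u => τ u = τ (yv c) ∧ x * N ≤ u i0 ∧ (u i0 : ℝ) ≤ x * N + r * N).image
          pl := by
      intro z hz
      obtain ⟨hz, h1, h2, h3⟩ := mem_filter.1 hz
      obtain ⟨c, hc, hz⟩ := mem_biUnion.1 hz
      obtain ⟨u, hu, rfl⟩ := mem_image.1 hz
      refine mem_biUnion.2 ⟨c, mem_filter.2 ⟨hc, ?_⟩, mem_image_of_mem _ (mem_filter.2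
        ⟨(mem_filter.1 hu).1, (mem_filter.1 hu).2, ?_, ?_⟩)⟩
      · rw [hpl, plan_phi] at h1
        have h4 : |φ u - N * y| ≤ 1 := by
          have : φ u - N * y = N * (φ u / N - y) := by field_simp
          rw [this, abs_mul, abs_of_pos hN]
          calc _ ≤ N * (1 / N) := mul_le_mul_of_nonneg_left h1 hN.le
            _ = 1 := by field_simp
        have h5 := hTφ c hc u hu
        rw [abs_le] at h4 h5 ⊢
        constructor <;> linarith [h4.1, h4.2, h5.1, h5.2]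
      · simp only [hpl, plan] at h2
        rwa [le_div_iff₀ hN] at h2
      · simp only [hpl, plan] at h3
        rw [div_le_iff₀ hN] at h3
        linarith
    have h1 : (V'.card : ℝ) ≤ 7 * Λ :=
      (card_int_close _ (N * y) (Λ + 2) (by linarith) fun c hc => (mem_filter.1 hc).2).trans
        (by linarith)
    have h2 : ∀ c ∈ V', (((Y.filter fun u => τ u = τ (yv c) ∧ x * N ≤ u i0 ∧
        (u i0 : ℝ) ≤ x * N + r * N).image pl).card : ℝ) ≤ Λ * (r * N) ^ σ := fun c hc =>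
      le_trans (by exact_mod_cast card_image_le)
        (hfro _ (hyY c (mem_filter.1 hc).1) (x * N) (r * N) hrN hrN')
    calc _ ≤ ∑ c ∈ V', (((Y.filter fun u => τ u = τ (yv c) ∧ x * N ≤ u i0 ∧
          (u i0 : ℝ) ≤ x * N + r * N).image pl).card : ℝ) := by
          exact_mod_cast (card_le_card hsub).trans card_biUnion_le
      _ ≤ V'.card * (Λ * (r * N) ^ σ) := by
          rw [← nsmul_eq_mul]; exact sum_le_card_nsmul _ _ _ h2
      _ ≤ 7 * Λ * (Λ * (r * N) ^ σ) := mul_le_mul_of_nonneg_right h1 (by positivity)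
      _ = _ := by ring

set_option maxHeartbeats 1000000 in
/-- **Planar reduction.**  A Loomis–Whitney sharp set `Y ⊆ [0,N]^D` of dimension `(d+1)σ` cannot
have small projections, with `σ`-Frostman tubes, in a `κ`-Frostman set `A` of slopes. -/
theorem planar {d : ℕ} (hd : Fintype.card D = d + 1) (hd1 : 1 ≤ d) {i0 i1 : D} (hi : i0 ≠ i1)
    {σ κ ε D₀ N Λ e : ℝ} (hBR : BR.Body σ κ ε D₀) (hσ : 0 ≤ σ) (hN : 1 ≤ N) (hND : 1 / N ≤ D₀)
    (he : e = 1 ∨ e = -1) (hΛ : 1 ≤ Λ)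
    (hQ : (10 * (d + 1) * Λ) ^ (3 * d ^ 2 + 6 * d + 7) ≤ N ^ ε)
    (Y : Finset (D → ℤ)) (hY : ∀ y ∈ Y, ∀ i, 0 ≤ y i ∧ (y i : ℝ) ≤ N)
    (hYc : (N ^ σ) ^ (d + 1) ≤ Λ * Y.card)
    (hP : ∀ j, ((prj j Y).card : ℝ) ≤ Λ * (N ^ σ) ^ d)
    (A : Finset ℝ) (hA : A.Nonempty) (hA1 : ∀ a ∈ A, 0 ≤ a ∧ a ≤ 1)
    (hAf : ∀ x r : ℝ, 1 / N ≤ r → r ≤ 1 →
      ((A.filter fun a => x ≤ a ∧ a ≤ x + r).card : ℝ) ≤ Λ * r ^ κ * A.card)
    {ι : Type*} [DecidableEq ι] (Ya : ℝ → Finset (D → ℤ)) (τ : ℝ → (D → ℤ) → ι)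
    (s : ℝ → D → ℝ) (hYa : ∀ a ∈ A, Ya a ⊆ Y) (hYa' : ∀ a ∈ A, (Y.card : ℝ) ≤ Λ * (Ya a).card)
    (hτ : ∀ a ∈ A, (((Ya a).image (τ a)).card : ℝ) ≤ Λ * (N ^ σ) ^ d)
    (hs : ∀ a ∈ A, s a i1 = -(e * a))
    (htube : ∀ a ∈ A, ∀ y ∈ Ya a, ∀ y' ∈ Ya a, τ a y = τ a y' → ∀ i,
      |(y i : ℝ) - y' i - ((y i0 : ℝ) - y' i0) * s a i| ≤ Λ)
    (hfro : ∀ a ∈ A, ∀ y0 ∈ Ya a, ∀ x r : ℝ, 1 ≤ r → r ≤ N →
      (((Ya a).filter fun y => τ a y = τ a y0 ∧ x ≤ y i0 ∧ (y i0 : ℝ) ≤ x + r).card : ℝ) ≤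
        Λ * r ^ σ) : False := by
  classical
  have hN0 : 0 < N := by linarith
  have hdR : (1 : ℝ) ≤ d := by exact_mod_cast hd1
  set S := N ^ σ with hSdef
  have hS : 1 ≤ S := Real.one_le_rpow hN hσ
  set Q : ℝ := 10 * (d + 1) * Λ with hQdef
  have hQ1 : 20 * Λ ≤ Q := by rw [hQdef]; nlinarith
  have hQ2 : 1 ≤ Q := by linarith
  have hQp : ∀ m : ℕ, m ≤ 3 * d ^ 2 + 6 * d + 7 → Q ^ m ≤ N ^ ε := fun m hm =>
    (pow_le_pow_right₀ hQ2 hm).trans hQ
  have hY0 : (0 : ℝ) < Y.card := by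
    have : 0 < Λ * (Y.card : ℝ) := lt_of_lt_of_le (by positivity) hYc
    exact (pos_iff_pos_of_mul_pos this).1 (by linarith)
  set lam : ℝ := Y.card / (2 * (d + 1) * Λ * (Λ * S ^ d)) with hlam
  have hlam0 : 0 < lam := by positivity
  obtain ⟨Ac, E, hAc, hE, hYE⟩ := product_structure hd hd1 Y hlam0 hP
  have hE' : (E.card : ℝ) ≤ Y.card / (2 * Λ) := by
    refine hE.trans (le_of_eq ?_)
    rw [hlam]; field_simp
  have hB : ∀ i, ((Ac i).card : ℝ) ≤ Q ^ (3 * d) * S := by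
    intro i
    refine (hAc i).trans ?_
    obtain ⟨k, rfl⟩ : ∃ k, d = k + 1 := ⟨d - 1, by omega⟩
    rw [div_le_iff₀ (by positivity), hlam, div_pow, mul_div_assoc', le_div_iff₀ (by positivity)]
    have h1 : (S ^ (k + 1 + 1)) ^ k ≤ (Λ * Y.card) ^ k := pow_le_pow_left₀ (by positivity) hYc k
    have h2 : (2 * (((k + 1 : ℕ) : ℝ) + 1) * Λ * Λ) ^ (k + 1) * Λ ^ k ≤ Q ^ (3 * (k + 1)) := by
      have h3 : Λ ^ k ≤ Λ ^ (k + 1) := pow_le_pow_right₀ hΛ (by omega)
      refine (mul_le_mul_of_nonneg_left h3 (by positivity)).trans ?_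
      rw [← mul_pow, pow_mul]
      refine pow_le_pow_left₀ (by positivity) ?_ _
      have h4 : 2 * (((k + 1 : ℕ) : ℝ) + 1) * Λ ≤ Q := by rw [hQdef]; nlinarith
      have h5 : Λ ≤ Q := by linarith
      calc _ ≤ Q * Q * Q := by gcongr
        _ = Q ^ 3 := by ring
    calc (Y.card : ℝ) * (2 * (((k + 1 : ℕ) : ℝ) + 1) * Λ * (Λ * S ^ (k + 1))) ^ (k + 1)
        = Y.card * (2 * (((k + 1 : ℕ) : ℝ) + 1) * Λ * Λ) ^ (k + 1) * S *
            (S ^ (k + 1 + 1)) ^ k := by
          rw [show 2 * (((k + 1 : ℕ) : ℝ) + 1) * Λ * (Λ * S ^ (k + 1)) =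
            (2 * (((k + 1 : ℕ) : ℝ) + 1) * Λ * Λ) * S ^ (k + 1) by ring, mul_pow _ (S ^ (k + 1))]
          generalize (2 * (((k + 1 : ℕ) : ℝ) + 1) * Λ * Λ) ^ (k + 1) = u
          ring
      _ ≤ Y.card * (2 * (((k + 1 : ℕ) : ℝ) + 1) * Λ * Λ) ^ (k + 1) * S *
            (Λ * Y.card) ^ k := by gcongr
      _ = ((2 * (((k + 1 : ℕ) : ℝ) + 1) * Λ * Λ) ^ (k + 1) * Λ ^ k) * S * Y.card ^ (k + 1) := by
            ring
      _ ≤ _ := by gcongr
  set b : ℝ := if e = 1 then 0 else N with hb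
  have hY' : ∀ a ∈ A, S ^ (d + 1) / (2 * Λ ^ 2) ≤ ((Ya a \ E).card : ℝ) := by
    intro a ha
    have h1 : ((Ya a).card : ℝ) ≤ (Ya a \ E).card + E.card := by
      exact_mod_cast card_le_card_sdiff_add_card
    have h2 : (Y.card : ℝ) / Λ ≤ (Ya a).card := by
      rw [div_le_iff₀ (by linarith)]; linarith [hYa' a ha]
    have h3 : (Y.card : ℝ) / (2 * Λ) = Y.card / Λ / 2 := by field_simp
    have h4 : S ^ (d + 1) / (2 * Λ ^ 2) ≤ Y.card / (2 * Λ) := by
      rw [div_le_div_iff₀ (by positivity) (by positivity)]; nlinarith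
    linarith
  have key : ∀ a : ℝ, ∃ Zc : Finset (ℝ × ℝ), a ∈ A → Zc ⊆ (Ya a \ E).image (plan N e b i0 i1) ∧
      S / Q ^ (3 * d ^ 2 + 2) * (S / Q ^ 3) ≤ (5 * Λ) ^ (d + 2) * Zc.card ∧
      (cov (1 / N) ((fun z : ℝ × ℝ => z.2 + a * z.1) '' (Zc : Set (ℝ × ℝ))) : ℝ) ≤ 5 * Λ * S ∧
      ∀ x y r : ℝ, 1 / N ≤ r → r ≤ 1 →
        ((Zc.filter fun z => |z.2 + a * z.1 - y| ≤ 1 / N ∧ x ≤ z.1 ∧ z.1 ≤ x + r).card : ℝ) ≤
          7 * Λ ^ 2 * (r * N) ^ σ := by
    intro a
    by_cases ha : a ∈ A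
    swap
    · exact ⟨∅, fun h => absurd h ha⟩
    have hsd : Ya a \ E ⊆ Ya a := sdiff_subset
    obtain ⟨Zc, h⟩ := one_direction (b := b) (a := a) (σ := σ) (t := S / Q ^ 3)
      (L := S / Q ^ (3 * d ^ 2 + 2)) hd hi hN0 he hS hΛ
      (show 0 < Q ^ (3 * d) * S by positivity)
      (div_le_div_of_nonneg_left (by linarith) (by norm_num) (by
        calc (2 : ℝ) ≤ Q ^ 1 := by linarith
          _ ≤ _ := pow_le_pow_right₀ hQ2 (by omega))) Ac hB (Ya a \ E)
      (fun y hy => hYE y (hYa a ha (hsd hy)) (mem_sdiff.1 hy).2) (τ a)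
      (show 0 < Λ * S ^ d by positivity)
      (le_trans (by exact_mod_cast card_le_card (image_subset_image hsd)) (hτ a ha))
      (by positivity) (by
        refine le_trans ?_ (div_le_div_of_nonneg_right (hY' a ha) (by positivity))
        rw [div_div, div_le_div_iff₀ (by positivity) (by positivity)]
        have h1 : 4 * Λ ^ 3 ≤ Q ^ 3 := by
          calc 4 * Λ ^ 3 ≤ (20 * Λ) ^ 3 := by nlinarith [pow_pos (show 0 < Λ by linarith) 3]
            _ ≤ _ := pow_le_pow_left₀ (by positivity) hQ1 3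
        calc S * (2 * Λ ^ 2 * (2 * (Λ * S ^ d))) = S ^ (d + 1) * (4 * Λ ^ 3) := by ring
          _ ≤ _ := by gcongr)
      (by
        refine le_trans ?_ (div_le_div_of_nonneg_right (hY' a ha) (by positivity))
        have h1 : 4 * Λ ^ 2 ≤ Q ^ 2 := by nlinarith
        have e1 : S / Q ^ (3 * d ^ 2 + 2) * (Q ^ (3 * d) * S) ^ d = S ^ (d + 1) / Q ^ 2 := by
          field_simp; ring
        rw [e1, div_div]
        exact div_le_div_of_nonneg_left (by positivity) (by positivity) (by linarith))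
      (s a) (hs a ha) (fun y hy y' hy' => htube a ha y (hsd hy) y' (hsd hy'))
      (fun y0 hy0 x r hr hr' => le_trans (by
        exact_mod_cast card_le_card (filter_subset_filter _ hsd)) (hfro a ha y0 (hsd hy0) x r hr hr'))
    exact ⟨Zc, fun _ => h⟩
  choose Zc hZc using key
  have p1 : ∀ x : ℝ, (1 / N) ^ (-x) = N ^ x := fun x => by
    rw [one_div, Real.inv_rpow hN0.le, Real.rpow_neg hN0.le, inv_inv]
  have p2 : N ^ (2 * σ) = S ^ 2 := by
    rw [hSdef, ← Real.rpow_natCast, ← Real.rpow_mul hN0.le]; congr 1; push_cast; ring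
  have hε : 0 < N ^ ε := by positivity
  refine hBR (1 / N) (by positivity) hND ((Y \ E).image (plan N e b i0 i1)) A Zc hA ?_ hA1 ?_
    ?_ ?_ ?_ ?_ ?_
  · intro z hz
    obtain ⟨y, hy, rfl⟩ := mem_image.1 hz
    have h0 := hY y (mem_sdiff.1 hy).1
    have h1 : (0 : ℝ) ≤ y i0 := by exact_mod_cast (h0 i0).1
    have h2 : (0 : ℝ) ≤ y i1 := by exact_mod_cast (h0 i1).1
    have h3 := (h0 i1).2
    simp only [plan]
    have h4 : 0 ≤ b + e * y i1 ∧ b + e * y i1 ≤ N := by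
      rcases he with h | h
      · rw [hb, if_pos h, h]; constructor <;> linarith
      · rw [hb, if_neg (by rw [h]; norm_num), h]; constructor <;> linarith
    exact ⟨by positivity, (div_le_one hN0).2 (h0 i0).2, div_nonneg h4.1 hN0.le,
      (div_le_one hN0).2 h4.2⟩
  · rw [show -(2 * σ) - ε = -(2 * σ + ε) by ring, p1, Real.rpow_add hN0, p2]
    have hsub : (Y \ E).image (plan N e b i0 i1) ⊆ (Ac i0 ×ˢ Ac i1).image
        fun p : ℤ × ℤ => ((p.1 : ℝ) / N, (b + e * p.2) / N) := by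
      intro z hz
      obtain ⟨y, hy, rfl⟩ := mem_image.1 hz
      have := hYE y (mem_sdiff.1 hy).1 (mem_sdiff.1 hy).2
      exact mem_image.2 ⟨(y i0, y i1), mem_product.2 ⟨this i0, this i1⟩, rfl⟩
    have h1 := (card_le_card hsub).trans card_image_le
    rw [card_product] at h1
    calc _ ≤ ((Ac i0).card : ℝ) * (Ac i1).card := by exact_mod_cast h1
      _ ≤ (Q ^ (3 * d) * S) * (Q ^ (3 * d) * S) := 
          mul_le_mul (hB _) (hB _) (Nat.cast_nonneg _) (by positivity)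
      _ = S ^ 2 * Q ^ (6 * d) := by ring
      _ ≤ _ := mul_le_mul_of_nonneg_left (hQp _ (by omega)) (by positivity)
  · exact fun a ha => (hZc a ha).1.trans (image_subset_image (sdiff_subset_sdiff (hYa a ha) subset_rfl))
  · intro a ha
    rw [show -(2 * σ) + ε = -(2 * σ - ε) by ring, p1, Real.rpow_sub hN0, p2, div_le_iff₀ hε]
    have h1 := (hZc a ha).2.1
    have h2 : (5 * Λ) ^ (d + 2) ≤ Q ^ (d + 2) := pow_le_pow_left₀ (by positivity) (by linarith) _
    rw [div_mul_div_comm, div_le_iff₀ (by positivity)] at h1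
    calc S ^ 2 = S * S := by ring
      _ ≤ Q ^ (d + 2) * (Zc a).card * (Q ^ (3 * d ^ 2 + 2) * Q ^ 3) := h1.trans (by gcongr)
      _ = (Zc a).card * Q ^ (3 * d ^ 2 + d + 7) := by ring
      _ ≤ _ := mul_le_mul_of_nonneg_left (hQp _ (by omega)) (by positivity)
  · intro a ha
    rw [show -σ - ε = -(σ + ε) by ring, p1, Real.rpow_add hN0, mul_comm (N ^ σ)]
    refine (hZc a ha).2.2.1.trans (mul_le_mul_of_nonneg_right ?_ (by positivity))
    have := hQp 1 (by omega)
    linarith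
  · intro x r hr hr1
    rw [p1]
    refine (hAf x r hr hr1).trans ?_
    have : 0 ≤ r ^ κ := Real.rpow_nonneg (le_trans (by positivity) hr) _
    have := hQp 1 (by omega)
    gcongr
    linarith
  · intro a ha x y r hr hr1
    have hr0 : 0 ≤ r := le_trans (by positivity) hr
    rw [p1, p1]
    refine ((hZc a ha).2.2.2 x y r hr hr1).trans ?_
    rw [Real.mul_rpow hr0 hN0.le, mul_assoc (N ^ ε)]
    refine mul_le_mul_of_nonneg_right ?_ (by positivity)
    have := hQp 2 (by omega)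
    nlinarith

end Crest.Agent.N76.LG
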