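import Crest.Agent.N76.LG.ZDefs

/-! # Row 76, Lemma G (lattice form), part 1: rich cells, slabs, blocks (helper96) -/

set_option autoImplicit false

namespace Crest.Agent.N76.LG

open Finset Function
open Crest.Agent.N76.MK

variable {D : Type*} [Fintype D] [DecidableEq D]

lemma lw_pow {k : ℕ} (hk : Fintype.card D = k + 1) (hk1 : 1 ≤ k) (Y : Finset (D → ℤ)) :
    (Y.card : ℝ) ^ k ≤ ∏ j, ((prj j Y).card : ℝ) := by
  have hkR : (0 : ℝ) < k := by exact_mod_cast hk1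
  refine (pow_le_pow_left₀ (Nat.cast_nonneg _) (lw_set hk hk1 Y) k).trans (le_of_eq ?_)
  rw [← prod_pow]
  refine prod_congr rfl fun j _ => ?_
  rw [← Real.rpow_natCast, ← Real.rpow_mul (Nat.cast_nonneg _), one_div_mul_cancel hkR.ne',
    Real.rpow_one]

lemma card_le_of_prj {k : ℕ} (hk : Fintype.card D = k + 1) (hk1 : 1 ≤ k) (Y : Finset (D → ℤ))
    {Λ S : ℝ} (hΛ : 1 ≤ Λ) (hS : 0 ≤ S) (h : ∀ j, ((prj j Y).card : ℝ) ≤ Λ * S ^ k) :
    (Y.card : ℝ) ≤ Λ ^ 2 * S ^ (k + 1) := by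
  have h1 := (lw_pow hk hk1 Y).trans (prod_le_prod (fun j _ => Nat.cast_nonneg _) fun j _ => h j)
  rw [prod_const, card_univ, hk] at h1
  refine (pow_le_pow_iff_left₀ (Nat.cast_nonneg _) (by positivity) (n := k) (by omega)).1
    (h1.trans ?_)
  have h3 : Λ ^ (k + 1) ≤ (Λ ^ 2) ^ k := by
    rw [← pow_mul]; exact pow_le_pow_right₀ hΛ (by omega)
  calc _ = Λ ^ (k + 1) * (S ^ (k + 1)) ^ k := by ring
    _ ≤ (Λ ^ 2) ^ k * (S ^ (k + 1)) ^ k := by gcongr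
    _ = _ := by ring

lemma prj_ge {k : ℕ} (hk : Fintype.card D = k + 1) (hk1 : 1 ≤ k) (Y : Finset (D → ℤ))
    {Λ S η : ℝ} (hΛ : 0 < Λ) (hS : 0 < S) (hη : 0 ≤ η) (h : ∀ j, ((prj j Y).card : ℝ) ≤ Λ * S ^ k)
    (hY : η * S ^ (k + 1) ≤ Y.card) (j : D) : (η / Λ) ^ k * S ^ k ≤ (prj j Y).card := by
  have h1 := lw_pow hk hk1 Y
  have hcard : (univ.erase j).card = k := by
    rw [card_erase_of_mem (mem_univ j), card_univ, hk]; rfl
  rw [← mul_prod_erase univ _ (mem_univ j)] at h1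
  have h2 : ∏ i ∈ univ.erase j, ((prj i Y).card : ℝ) ≤ (Λ * S ^ k) ^ k := by
    rw [← hcard, ← prod_const, hcard]
    exact prod_le_prod (fun _ _ => Nat.cast_nonneg _) fun i _ => h i
  have h3 := (pow_le_pow_left₀ (by positivity) hY k).trans
    (h1.trans (mul_le_mul_of_nonneg_left h2 (Nat.cast_nonneg _)))
  refine le_of_mul_le_mul_right (le_trans (le_of_eq ?_) h3) (show 0 < (Λ * S ^ k) ^ k by positivity)
  rw [div_pow, mul_pow, mul_pow]
  field_simp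
  ring

omit [Fintype D] [DecidableEq D] in
lemma cel_pow (i : ℕ) (y : D → ℤ) (l : D) : cel (2 ^ i) y l = y l / 2 ^ i := by
  have := Int.floor_div_natCast (y l : ℝ) (2 ^ i)
  simp only [cel]
  push_cast at this
  rw [this, Int.floor_intCast]

omit [Fintype D] in
lemma cel_update (ρ : ℝ) (y : D → ℤ) (j : D) : cel ρ (update y j 0) = update (cel ρ y) j 0 := by
  funext i
  by_cases h : i = j
  · subst h; simp [cel]
  · simp [cel, update_of_ne h]

/-- a fibrewise bound -/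
lemma card_le_mul_of_fib {α γ : Type*} [DecidableEq γ] (X : Finset α) (f : α → γ) (t : Finset γ)
    (hf : ∀ a ∈ X, f a ∈ t) {M : ℝ} (h : ∀ c ∈ t, ((X.filter fun a => f a = c).card : ℝ) ≤ M) :
    (X.card : ℝ) ≤ t.card * M := by
  rw [card_eq_sum_card_fiberwise (f := f) (t := t) hf]
  push_cast
  rw [← nsmul_eq_mul]
  exact sum_le_card_nsmul _ _ _ h

/-- a fibrewise lower bound -/
lemma mul_le_card_of_fib {α γ : Type*} [DecidableEq γ] (X : Finset α) (f : α → γ) (t : Finset γ)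
    {M : ℝ} (h : ∀ c ∈ t, M ≤ ((X.filter fun a => f a = c).card : ℝ)) :
    t.card * M ≤ (X.card : ℝ) := by
  classical
  calc _ ≤ ∑ c ∈ t, ((X.filter fun a => f a = c).card : ℝ) := by
        rw [← nsmul_eq_mul]; exact card_nsmul_le_sum _ _ _ h
    _ = ((t.biUnion fun c => X.filter fun a => f a = c).card : ℝ) := by
        rw [card_biUnion]
        · push_cast; rfl
        · intro c _ c' _ hne
          exact disjoint_filter.2 fun a _ h1 h2 => hne (h1.symm.trans h2)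
    _ ≤ _ := by exact_mod_cast card_le_card (biUnion_subset.2 fun c _ => filter_subset _ _)

/-- constants -/
def k1 (k : ℕ) (Λ : ℝ) : ℝ := Λ * (10 * Λ ^ 6) ^ k
def k2 (k : ℕ) (Λ : ℝ) : ℝ := k1 k Λ * Λ ^ 2
def k3 (k : ℕ) (Λ : ℝ) : ℝ := Λ ^ 3 * (30 * (k + 1) * k2 k Λ * Λ) ^ k
def k4 (k : ℕ) (Λ : ℝ) : ℝ := 30 * Λ ^ 2 * k3 k Λ * k2 k Λ

lemma one_le_k1 (k : ℕ) {Λ : ℝ} (h : 1 ≤ Λ) : 1 ≤ k1 k Λ :=
  one_le_mul_of_one_le_of_one_le h (one_le_pow₀ (by nlinarith [one_le_pow₀ (n := 6) h]))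
lemma one_le_k2 (k : ℕ) {Λ : ℝ} (h : 1 ≤ Λ) : 1 ≤ k2 k Λ :=
  one_le_mul_of_one_le_of_one_le (one_le_k1 k h) (one_le_pow₀ h)
lemma one_le_k3 (k : ℕ) {Λ : ℝ} (h : 1 ≤ Λ) : 1 ≤ k3 k Λ :=
  one_le_mul_of_one_le_of_one_le (one_le_pow₀ h) (one_le_pow₀ (one_le_mul_of_one_le_of_one_le
    (one_le_mul_of_one_le_of_one_le (by nlinarith [Nat.cast_nonneg (α := ℝ) k]) (one_le_k2 k h)) h))
lemma one_le_k4 (k : ℕ) {Λ : ℝ} (h : 1 ≤ Λ) : 1 ≤ k4 k Λ :=
  one_le_mul_of_one_le_of_one_le (one_le_mul_of_one_le_of_one_le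
    (by nlinarith [one_le_pow₀ (n := 2) h]) (one_le_k3 k h)) (one_le_k2 k h)

/-- the points whose cells are rich at all dyadic scales -/
noncomputable def richY (k T : ℕ) (s Λ : ℝ) (Y : Finset (D → ℤ)) : Finset (D → ℤ) :=
  Y.filter fun y => ∀ i < T, 1 / (10 * Λ ^ 5) * (((2 : ℝ) ^ i) ^ s) ^ (k + 1) ≤
    (Y.filter fun y' => cel (2 ^ i) y' = cel (2 ^ i) y).card

variable {β ι : Type*} {k : ℕ} {i0 i1 : D} {N s κ Λ ρ₀ : ℝ} {Y : Finset (D → ℤ)} {P : Finset β}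
  {b : β → D → ℝ} {W : β → Finset (D → ℤ)} {τ : β → (D → ℤ) → ι} {T : ℕ}

/-- standing assumptions -/
structure Std (D : Type*) [Fintype D] (k T : ℕ) (N s Λ : ℝ) : Prop where
  hk : Fintype.card D = k + 1
  hk1 : 1 ≤ k
  hΛ : 1 ≤ Λ
  hN : 1 ≤ N
  hs : 0 ≤ s
  hs1 : s ≤ 1
  hT : (T : ℝ) ≤ Λ
  hTN : ∀ i, i < T ↔ (2 : ℝ) ^ i ≤ N

lemma one_le_two_pow (i : ℕ) : (1 : ℝ) ≤ 2 ^ i := one_le_pow₀ (by norm_num)

lemma HypZ.projf (h : HypZ k i0 i1 N s κ Λ ρ₀ Y P b W τ) {ρ : ℝ} (h1 : 1 ≤ ρ) (h2 : ρ ≤ N)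
    (c : D → ℤ) (j : D) : ((prj j (Y.filter fun y => cel ρ y = c)).card : ℝ) ≤ Λ * (ρ ^ s) ^ k := by
  convert h.proj ρ h1 h2 c j

lemma HypZ.card_Y (h : HypZ k i0 i1 N s κ Λ ρ₀ Y P b W τ) (H : Std D k T N s Λ) :
    (Y.card : ℝ) ≤ Λ ^ 2 * (N ^ s) ^ (k + 1) :=
  card_le_of_prj H.hk H.hk1 Y H.hΛ (Real.rpow_nonneg (by linarith [H.hN]) _) h.projN

lemma HypZ.card_cell (h : HypZ k i0 i1 N s κ Λ ρ₀ Y P b W τ) (H : Std D k T N s Λ) {i : ℕ}
    (hi : i < T) (c : D → ℤ) : ((Y.filter fun y => cel (2 ^ i) y = c).card : ℝ) ≤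
      Λ ^ 2 * (((2 : ℝ) ^ i) ^ s) ^ (k + 1) :=
  card_le_of_prj H.hk H.hk1 _ H.hΛ (by positivity)
    (h.projf (one_le_two_pow i) ((H.hTN i).1 hi) c)

lemma HypZ.card_cells (h : HypZ k i0 i1 N s κ Λ ρ₀ Y P b W τ) (H : Std D k T N s Λ) {i : ℕ}
    (hi : i < T) : ((Y.image (cel (2 ^ i))).card : ℝ) * (((2 : ℝ) ^ i) ^ s) ^ (k + 1) ≤
      Λ ^ 3 * (N ^ s) ^ (k + 1) := by
  have h1 := h.cells _ (one_le_two_pow i) ((H.hTN i).1 hi)
  have h2 := mul_le_mul_of_nonneg_left (h.card_Y H) (show 0 ≤ Λ by linarith [H.hΛ])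
  calc _ ≤ Λ * Y.card := by convert h1
    _ ≤ _ := h2.trans (le_of_eq (by ring))

lemma HypZ.card_poor (h : HypZ k i0 i1 N s κ Λ ρ₀ Y P b W τ) (H : Std D k T N s Λ) :
    ((Y \ richY k T s Λ Y).card : ℝ) ≤ (N ^ s) ^ (k + 1) / (10 * Λ) := by
  have hΛ := H.hΛ
  have hN := H.hN
  have hsub : Y \ richY k T s Λ Y ⊆ (range T).biUnion fun i => Y.filter fun y =>
      ((Y.filter fun y' => cel (2 ^ i) y' = cel (2 ^ i) y).card : ℝ) <
        1 / (10 * Λ ^ 5) * (((2 : ℝ) ^ i) ^ s) ^ (k + 1) := by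
    intro y hy
    obtain ⟨h1, h2⟩ := mem_sdiff.1 hy
    rw [richY, mem_filter] at h2
    push Not at h2
    obtain ⟨i, hi, h3⟩ := h2 h1
    exact mem_biUnion.2 ⟨i, mem_range.2 hi, mem_filter.2 ⟨h1, h3⟩⟩
  calc _ ≤ ∑ i ∈ range T, ((Y.filter fun y =>
      ((Y.filter fun y' => cel (2 ^ i) y' = cel (2 ^ i) y).card : ℝ) <
        1 / (10 * Λ ^ 5) * (((2 : ℝ) ^ i) ^ s) ^ (k + 1)).card : ℝ) := by
        exact_mod_cast (card_le_card hsub).trans card_biUnion_le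
    _ ≤ (range T).card • ((N ^ s) ^ (k + 1) / (10 * Λ ^ 2)) := by
        refine sum_le_card_nsmul _ _ _ fun i hi => ?_
        refine (card_le_mul_of_fib _ (cel (2 ^ i)) (Y.image (cel (2 ^ i)))
          (fun y hy => mem_image_of_mem _ (mem_filter.1 hy).1)
          (M := 1 / (10 * Λ ^ 5) * (((2 : ℝ) ^ i) ^ s) ^ (k + 1)) fun c _ => ?_).trans ?_
        · rcases ((Y.filter fun y =>
            ((Y.filter fun y' => cel (2 ^ i) y' = cel (2 ^ i) y).card : ℝ) <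
            1 / (10 * Λ ^ 5) * (((2 : ℝ) ^ i) ^ s) ^ (k + 1)).filter
            fun a => cel (2 ^ i) a = c).eq_empty_or_nonempty with h0 | ⟨y, hy⟩
          · rw [h0]; simp only [card_empty, Nat.cast_zero]; positivity
          · simp only [mem_filter] at hy
            refine le_trans ?_ hy.1.2.le
            refine Nat.cast_le.2 (card_le_card fun y' hy' => ?_)
            simp only [mem_filter] at hy' ⊢
            exact ⟨hy'.1.1, hy'.2.trans hy.2.symm⟩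
        · have := h.card_cells H (mem_range.1 hi)
          rw [mul_left_comm]
          refine (mul_le_mul_of_nonneg_left this (by positivity)).trans (le_of_eq ?_)
          field_simp
    _ ≤ Λ * ((N ^ s) ^ (k + 1) / (10 * Λ ^ 2)) := by
        rw [card_range, nsmul_eq_mul]; gcongr; exact H.hT
    _ = _ := by field_simp

/-- coarse projections -/
lemma HypZ.coarse (h : HypZ k i0 i1 N s κ Λ ρ₀ Y P b W τ) (H : Std D k T N s Λ) {i : ℕ}
    (hi : i < T) (j : D) : ((prj j ((richY k T s Λ Y).image (cel (2 ^ i)))).card : ℝ) ≤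
      k1 k Λ * (N ^ s / ((2 : ℝ) ^ i) ^ s) ^ k := by
  have hΛ := H.hΛ
  have h1 := mul_le_card_of_fib (prj j Y) (cel (2 ^ i))
    (prj j ((richY k T s Λ Y).image (cel (2 ^ i))))
    (M := (1 / (10 * Λ ^ 5) / Λ) ^ k * (((2 : ℝ) ^ i) ^ s) ^ k) (by
      intro q hq
      obtain ⟨_, hc, rfl⟩ := mem_image.1 hq
      obtain ⟨y, hy, rfl⟩ := mem_image.1 hc
      refine (prj_ge H.hk H.hk1 _ (by linarith) (by positivity) (by positivity)
        (h.projf (one_le_two_pow i) ((H.hTN i).1 hi) (cel (2 ^ i) y))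
        ((mem_filter.1 hy).2 i hi) j).trans ?_
      refine Nat.cast_le.2 (card_le_card fun z hz => ?_)
      obtain ⟨y', hy', rfl⟩ := mem_image.1 hz
      refine mem_filter.2 ⟨mem_image_of_mem _ (mem_filter.1 hy').1, ?_⟩
      rw [cel_update, (mem_filter.1 hy').2])
  have h2 := h1.trans (h.projN j)
  rw [← le_div_iff₀ (by positivity)] at h2
  refine h2.trans (le_of_eq ?_)
  rw [k1, div_pow, div_pow, div_pow, mul_pow, mul_pow]
  field_simp
  ring

/-- mass of a slab -/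
lemma HypZ.slab (h : HypZ k i0 i1 N s κ Λ ρ₀ Y P b W τ) (H : Std D k T N s Λ) {i : ℕ}
    (hi : i < T) (l : D) (m : ℤ) :
    (((richY k T s Λ Y).filter fun y => y l / 2 ^ i = m).card : ℝ) ≤
      k2 k Λ * ((2 : ℝ) ^ i) ^ s * (N ^ s) ^ k := by
  have hΛ := H.hΛ
  refine (card_le_mul_of_fib _ (fun y => update (cel (2 ^ i) y) l 0)
    (prj l ((richY k T s Λ Y).image (cel (2 ^ i))))
    (fun y hy => mem_image_of_mem _ (mem_image_of_mem _ (mem_filter.1 hy).1))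
    (M := Λ ^ 2 * (((2 : ℝ) ^ i) ^ s) ^ (k + 1)) fun c _ => ?_).trans ?_
  · refine le_trans ?_ (h.card_cell H hi (update c l m))
    refine Nat.cast_le.2 (card_le_card fun y hy => ?_)
    simp only [mem_filter, richY] at hy ⊢
    refine ⟨hy.1.1.1, ?_⟩
    rw [← hy.2, update_idem, ← hy.1.2, ← cel_pow, update_eq_self]
  · refine (mul_le_mul_of_nonneg_right (h.coarse H hi l) (by positivity)).trans (le_of_eq ?_)
    rw [k2, div_pow]
    field_simp
    ring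

/-- product structure at the scale `2^i` -/
lemma HypZ.blocks (h : HypZ k i0 i1 N s κ Λ ρ₀ Y P b W τ) (H : Std D k T N s Λ) {i : ℕ}
    (hi : i < T) : ∃ (A : D → Finset ℤ) (E : Finset (D → ℤ)),
      (∀ l, ((A l).card : ℝ) ≤ k3 k Λ * (N ^ s / ((2 : ℝ) ^ i) ^ s)) ∧
      (E.card : ℝ) ≤ (N ^ s) ^ (k + 1) / (30 * Λ) ∧
      ∀ y ∈ richY k T s Λ Y, y ∉ E → ∀ l, y l / 2 ^ i ∈ A l := by
  have hΛ := H.hΛ
  have hN := H.hN
  have g1 := one_le_k1 k hΛ
  have g2 := one_le_k2 k hΛ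
  set u := N ^ s / ((2 : ℝ) ^ i) ^ s with hu
  have hu0 : 0 < u := by positivity
  obtain ⟨A, E, h1, h2, h3⟩ := product_structure H.hk H.hk1 ((richY k T s Λ Y).image (cel (2 ^ i)))
    (lam := u / (30 * (k + 1) * k2 k Λ * Λ)) (by positivity) (h.coarse H hi)
  refine ⟨A, Y.filter fun y => cel (2 ^ i) y ∈ E, fun l => (h1 l).trans ?_, ?_, ?_⟩
  · have h4 : (((richY k T s Λ Y).image (cel (2 ^ i))).card : ℝ) ≤ Λ ^ 3 * u ^ (k + 1) := by
      rw [hu, div_pow, mul_div_assoc', le_div_iff₀ (by positivity)]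
      refine le_trans (mul_le_mul_of_nonneg_right ?_ (by positivity)) (h.card_cells H hi)
      exact_mod_cast card_le_card (image_subset_image (filter_subset _ _))
    refine (div_le_div_of_nonneg_right h4 (by positivity)).trans (le_of_eq ?_)
    have : 0 < (30 * (k + 1) * k2 k Λ * Λ) ^ k := by positivity
    clear_value u
    subst hu
    rw [k3]
    generalize N ^ s / ((2 : ℝ) ^ i) ^ s = u at hu0
    rw [div_pow]
    generalize (30 * (k + 1) * k2 k Λ * Λ) ^ k = w at this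
    field_simp
    ring
  · refine (card_le_mul_of_fib _ (cel (2 ^ i)) E (fun y hy => (mem_filter.1 hy).2)
      (M := Λ ^ 2 * (((2 : ℝ) ^ i) ^ s) ^ (k + 1)) fun c _ => ?_).trans ?_
    · refine le_trans ?_ (h.card_cell H hi c)
      exact_mod_cast card_le_card (filter_subset_filter _ (filter_subset _ _))
    · refine (mul_le_mul_of_nonneg_right h2 (by positivity)).trans (le_of_eq ?_)
      rw [hu, k2, div_pow]
      field_simp
      ring
  · intro y hy hE l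
    rw [← cel_pow]
    exact h3 _ (mem_image_of_mem _ hy) (fun h4 => hE (mem_filter.2 ⟨(mem_filter.1 hy).1, h4⟩)) l

/-- points over heavy blocks -/
lemma HypZ.heavy (h : HypZ k i0 i1 N s κ Λ ρ₀ Y P b W τ) (H : Std D k T N s Λ) {a t : ℕ}
    (hi : a + t < T) (l : D) (A : Finset ℤ)
    (hA : (A.card : ℝ) ≤ k3 k Λ * (N ^ s / ((2 : ℝ) ^ a) ^ s)) :
    (((richY k T s Λ Y).filter fun y => k4 k Λ * ((2 : ℝ) ^ t) ^ s <
      (A.filter fun v => v / 2 ^ t = y l / 2 ^ (a + t)).card).card : ℝ) ≤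
      (N ^ s) ^ (k + 1) / (30 * Λ ^ 2) := by
  have hΛ := H.hΛ
  have hN := H.hN
  have g2 := one_le_k2 k hΛ
  have g3 := one_le_k3 k hΛ
  have g4 := one_le_k4 k hΛ
  set B := (A.image fun v => v / 2 ^ t).filter fun m => k4 k Λ * ((2 : ℝ) ^ t) ^ s <
      (A.filter fun v => v / 2 ^ t = m).card with hB
  have h1 := (mul_le_card_of_fib A (fun v => v / 2 ^ t) B fun m hm => (mem_filter.1 hm).2.le).trans hA
  rw [← le_div_iff₀ (by positivity)] at h1
  refine (card_le_mul_of_fib _ (fun y => y l / 2 ^ (a + t)) B ?_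
    (M := k2 k Λ * ((2 : ℝ) ^ (a + t)) ^ s * (N ^ s) ^ k) fun m _ => ?_).trans ?_
  · intro y hy
    have h2 := (mem_filter.1 hy).2
    refine mem_filter.2 ⟨?_, h2⟩
    have h3 : (0 : ℝ) < (A.filter fun v => v / 2 ^ t = y l / 2 ^ (a + t)).card :=
      lt_trans (by positivity) h2
    obtain ⟨v, hv⟩ := card_pos.1 (by exact_mod_cast h3)
    exact mem_image.2 ⟨v, (mem_filter.1 hv).1, (mem_filter.1 hv).2⟩
  · refine le_trans ?_ (h.slab H hi l m)
    exact_mod_cast card_le_card (filter_subset_filter _ (filter_subset _ _))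
  · refine (mul_le_mul_of_nonneg_right h1 (by positivity)).trans (le_of_eq ?_)
    rw [k4, pow_add, Real.mul_rpow (by positivity) (by positivity)]
    field_simp
    ring

end Crest.Agent.N76.LG
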