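import Crest.Agent.N76.LG.Z1

/-! # Row 76, Lemma G (lattice form), part 2: regularisation and choice of the window
(helper96) -/

set_option autoImplicit false

namespace Crest.Agent.N76.LG

open Finset Function
open Crest.Agent.N76.MK

variable {D : Type*} [Fintype D] [DecidableEq D]
variable {β ι : Type*} {k : ℕ} {i0 i1 : D} {N s κ Λ ρ₀ : ℝ} {Y : Finset (D → ℤ)} {P : Finset β}
  {b : β → D → ℝ} {W : β → Finset (D → ℤ)} {τ : β → (D → ℤ) → ι} {T : ℕ}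

/-- output of the regularisation -/
structure Reg (k T j0 j1 : ℕ) (i0 i1 : D) (N s Λ : ℝ) (Y Y5 : Finset (D → ℤ)) (A : D → Finset ℤ)
    (B0 B1 : Finset ℤ) : Prop where
  sub : Y5 ⊆ richY k T s Λ Y
  rem : ((Y \ Y5).card : ℝ) ≤ 3 * (N ^ s) ^ (k + 1) / (10 * Λ)
  cA : ∀ l, ((A l).card : ℝ) ≤ k3 k Λ * N ^ s
  mA : ∀ y ∈ Y5, ∀ l, y l ∈ A l
  cB0 : (B0.card : ℝ) ≤ k3 k Λ * (N ^ s / ((2 : ℝ) ^ j0) ^ s)
  mB0 : ∀ y ∈ Y5, y i0 / 2 ^ j0 ∈ B0
  cB1 : (B1.card : ℝ) ≤ k3 k Λ * (N ^ s / ((2 : ℝ) ^ j1) ^ s)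
  mB1 : ∀ y ∈ Y5, y i1 / 2 ^ j1 ∈ B1
  hB0 : ∀ y ∈ Y5, ∀ t, j0 + t < T →
    ((B0.filter fun v => v / 2 ^ t = y i0 / 2 ^ (j0 + t)).card : ℝ) ≤ k4 k Λ * ((2 : ℝ) ^ t) ^ s
  hA1 : ∀ y ∈ Y5,
    (((A i1).filter fun v => v / 2 ^ j1 = y i1 / 2 ^ j1).card : ℝ) ≤ k4 k Λ * ((2 : ℝ) ^ j1) ^ s
  hA0 : ∀ y ∈ Y5,
    (((A i0).filter fun v => v / 2 ^ j0 = y i0 / 2 ^ j0).card : ℝ) ≤ k4 k Λ * ((2 : ℝ) ^ j0) ^ s

theorem HypZ.reg (h : HypZ k i0 i1 N s κ Λ ρ₀ Y P b W τ) (H : Std D k T N s Λ) {j0 j1 : ℕ}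
    (h0 : j0 < T) (h1 : j1 < T) : ∃ Y5 A B0 B1, Reg k T j0 j1 i0 i1 N s Λ Y Y5 A B0 B1 := by
  have hΛ := H.hΛ
  have hN := H.hN
  obtain ⟨A, E, a1, a2, a3⟩ := h.blocks H (i := 0) (by omega)
  obtain ⟨A0, E0, b1, b2, b3⟩ := h.blocks H h0
  obtain ⟨A1, E1, c1, c2, c3⟩ := h.blocks H h1
  set R := richY k T s Λ Y with hR
  set F : ℕ → Finset (D → ℤ) := fun t => R.filter fun y => k4 k Λ * ((2 : ℝ) ^ t) ^ s <
      ((A0 i0).filter fun v => v / 2 ^ t = y i0 / 2 ^ (j0 + t)).card with hF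
  set F1 := R.filter fun y => k4 k Λ * ((2 : ℝ) ^ j1) ^ s <
      ((A i1).filter fun v => v / 2 ^ j1 = y i1 / 2 ^ (0 + j1)).card with hF1
  set F0 := R.filter fun y => k4 k Λ * ((2 : ℝ) ^ j0) ^ s <
      ((A i0).filter fun v => v / 2 ^ j0 = y i0 / 2 ^ (0 + j0)).card with hF0
  set G := ((range T).filter fun t => j0 + t < T).biUnion F with hG
  set u := (N ^ s) ^ (k + 1) with hu
  have hu0 : 0 ≤ u := by positivity
  have d1 : (F1.card : ℝ) ≤ u / (30 * Λ ^ 2) := h.heavy H (by omega) i1 _ (a1 i1)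
  have d0 : (F0.card : ℝ) ≤ u / (30 * Λ ^ 2) := h.heavy H (by omega) i0 _ (a1 i0)
  have d2 : (G.card : ℝ) ≤ u / (30 * Λ) := by
    calc _ ≤ ∑ t ∈ (range T).filter fun t => j0 + t < T, ((F t).card : ℝ) := by
          exact_mod_cast card_biUnion_le
      _ ≤ ((range T).filter fun t => j0 + t < T).card • (u / (30 * Λ ^ 2)) :=
          sum_le_card_nsmul _ _ _ fun t ht => h.heavy H (mem_filter.1 ht).2 i0 _ (b1 i0)
      _ ≤ Λ * (u / (30 * Λ ^ 2)) := by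
          rw [nsmul_eq_mul]
          gcongr
          refine le_trans ?_ H.hT
          exact_mod_cast (card_filter_le _ _).trans (card_range T).le
      _ = _ := by field_simp
  have d3 : u / (30 * Λ ^ 2) ≤ u / (30 * Λ) :=
    div_le_div_of_nonneg_left hu0 (by positivity) (by nlinarith)
  set Bad := E ∪ E0 ∪ E1 ∪ G ∪ F1 ∪ F0 with hBad
  have hm : ∀ y ∈ R \ Bad, y ∈ R ∧ y ∉ E ∧ y ∉ E0 ∧ y ∉ E1 ∧ y ∉ G ∧ y ∉ F1 ∧ y ∉ F0 := by
    intro y hy
    simpa only [hBad, mem_sdiff, mem_union, not_or, and_assoc] using hy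
  refine ⟨R \ Bad, A, A0 i0, A1 i1, sdiff_subset, ?_, fun l => by simpa using a1 l,
    fun y hy l => by simpa using a3 y (hm y hy).1 (hm y hy).2.1 l, b1 i0,
    fun y hy => b3 y (hm y hy).1 (hm y hy).2.2.1 i0, c1 i1,
    fun y hy => c3 y (hm y hy).1 (hm y hy).2.2.2.1 i1, ?_, ?_, ?_⟩
  · have e1 : Y \ (R \ Bad) ⊆ (Y \ R) ∪ Bad := by
      intro y hy
      simp only [mem_sdiff, mem_union, not_and, not_not] at hy ⊢
      by_cases q : y ∈ R
      · exact Or.inr (hy.2 q)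
      · exact Or.inl ⟨hy.1, q⟩
    have e2 : (Y \ (R \ Bad)).card ≤ (Y \ R).card + (E.card + E0.card + E1.card + G.card +
        F1.card + F0.card) := by
      refine (card_le_card e1).trans ((card_union_le _ _).trans (Nat.add_le_add_left ?_ _))
      have := card_union_le (E ∪ E0 ∪ E1 ∪ G ∪ F1) F0
      have := card_union_le (E ∪ E0 ∪ E1 ∪ G) F1
      have := card_union_le (E ∪ E0 ∪ E1) G
      have := card_union_le (E ∪ E0) E1
      have := card_union_le E E0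
      rw [hBad]; omega
    have e3 : ((Y \ (R \ Bad)).card : ℝ) ≤ (Y \ R).card + (E.card + E0.card + E1.card + G.card +
        F1.card + F0.card) := by exact_mod_cast e2
    have e4 := h.card_poor H
    rw [← hR, ← hu] at e4
    have e5 : 3 * u / (10 * Λ) = u / (10 * Λ) + 6 * (u / (30 * Λ)) := by field_simp; ring
    linarith
  · intro y hy t ht
    by_contra q
    exact (hm y hy).2.2.2.2.1 (mem_biUnion.2 ⟨t, mem_filter.2 ⟨mem_range.2 (by omega), ht⟩,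
      mem_filter.2 ⟨(hm y hy).1, not_le.1 q⟩⟩)
  · intro y hy
    by_contra q
    exact (hm y hy).2.2.2.2.2.1 (mem_filter.2 ⟨(hm y hy).1, by rw [zero_add]; exact not_le.1 q⟩)
  · intro y hy
    by_contra q
    exact (hm y hy).2.2.2.2.2.2 (mem_filter.2 ⟨(hm y hy).1, by rw [zero_add]; exact not_le.1 q⟩)

lemma abs_div_two_pow (y : ℤ) (j : ℕ) : |((y / 2 ^ j : ℤ) : ℝ) - y / 2 ^ j| ≤ 1 := by
  have h := cel_pow j (fun _ : Unit => y) ()
  simp only [cel] at h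
  rw [← h, abs_le]
  constructor <;> linarith [Int.floor_le ((y : ℝ) / 2 ^ j), Int.lt_floor_add_one ((y : ℝ) / 2 ^ j)]

def k5 (k : ℕ) (Λ : ℝ) : ℝ := 130 * Λ ^ 3 * k2 k Λ

lemma one_le_k5 (k : ℕ) {Λ : ℝ} (h : 1 ≤ Λ) : 1 ≤ k5 k Λ :=
  one_le_mul_of_one_le_of_one_le (by nlinarith [one_le_pow₀ (n := 3) h]) (one_le_k2 k h)

lemma HypZ.labc' [DecidableEq ι] (h : HypZ k i0 i1 N s κ Λ ρ₀ Y P b W τ) {θ : β} (hθ : θ ∈ P) :
    (((W θ).image (τ θ)).card : ℝ) ≤ Λ * (N ^ s) ^ k := by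
  convert h.labc θ hθ

/-- blocks met by many lines carry little mass -/
lemma HypZ.many_lines [DecidableEq ι] {j0 j1 : ℕ}
    (h : HypZ k i0 i1 N s κ Λ (2 ^ j0) Y P b W τ) (H : Std D k T N s Λ) (h1 : j1 < T)
    (hρ : N / 2 ^ j0 ≤ 2 * 2 ^ j1) {θ : β} (hθ : θ ∈ P) :
    (((richY k T s Λ Y).filter fun y => k5 k Λ * ((N ^ s) ^ k * ((2 : ℝ) ^ j1) ^ s / N ^ s) <
      (((W θ).filter fun y' => y' i1 / 2 ^ j1 = y i1 / 2 ^ j1).image (τ θ)).card).card : ℝ) ≤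
      (N ^ s) ^ (k + 1) / (10 * Λ) := by
  have hΛ := H.hΛ
  have hN := H.hN
  have g2 := one_le_k2 k hΛ
  have g5 := one_le_k5 k hΛ
  have hr1 := one_le_two_pow j1
  set M := k5 k Λ * ((N ^ s) ^ k * ((2 : ℝ) ^ j1) ^ s / N ^ s) with hM
  have hM0 : 0 < M := by positivity
  set B := ((W θ).image fun y => y i1 / 2 ^ j1).filter fun m => M <
      (((W θ).filter fun y' => y' i1 / 2 ^ j1 = m).image (τ θ)).card with hB
  set Q := (W θ).image fun y => (y i1 / 2 ^ j1, τ θ y) with hQ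
  have q1 : B.card * M ≤ (Q.card : ℝ) := by
    refine mul_le_card_of_fib Q Prod.fst B fun m hm => (mem_filter.1 hm).2.le.trans ?_
    refine Nat.cast_le.2 (le_trans (card_le_card ?_) (card_image_le (f := Prod.snd)))
    intro t ht
    obtain ⟨y, hy, rfl⟩ := mem_image.1 ht
    exact mem_image.2 ⟨(y i1 / 2 ^ j1, τ θ y), mem_filter.2 ⟨mem_image_of_mem _
      (mem_filter.1 hy).1, (mem_filter.1 hy).2⟩, rfl⟩
  have q2 : (Q.card : ℝ) ≤ ((W θ).image (τ θ)).card * (13 * Λ) := by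
    refine card_le_mul_of_fib Q Prod.snd _ ?_ fun t ht => ?_
    · intro z hz
      obtain ⟨y, hy, rfl⟩ := mem_image.1 hz
      exact mem_image_of_mem _ hy
    · obtain ⟨y0, hy0, rfl⟩ := mem_image.1 ht
      rw [← card_image_of_injOn (f := Prod.fst) (by
        intro z hz z' hz' e
        exact Prod.ext e ((mem_filter.1 hz).2.trans (mem_filter.1 hz').2.symm))]
      refine (card_int_close _ ((y0 i1 : ℝ) / 2 ^ j1) (6 * Λ) (by linarith) ?_).trans (by linarith)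
      intro v hv
      obtain ⟨z, hz, rfl⟩ := mem_image.1 hv
      obtain ⟨hz, e⟩ := mem_filter.1 hz
      obtain ⟨y, hy, rfl⟩ := mem_image.1 hz
      have t1 := h.tube θ hθ y hy y0 hy0 e i1
      have t2 : |b θ i1| ≤ 1 / 2 ^ j0 := by
        have := h.slope θ hθ
        rw [abs_mul, abs_of_pos (by positivity)] at this
        rw [le_div_iff₀ (by positivity)]; linarith
      have t3 : |(y i0 : ℝ) - y0 i0| ≤ 2 * (Λ * N) := by
        have := abs_le.1 (h.bd y (h.sub θ hθ hy) i0)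
        have := abs_le.1 (h.bd y0 (h.sub θ hθ hy0) i0)
        rw [abs_le]; constructor <;> linarith
      have t4 : |((y i0 : ℝ) - y0 i0) * b θ i1| ≤ 4 * Λ * 2 ^ j1 := by
        rw [abs_mul]
        calc _ ≤ 2 * (Λ * N) * (1 / 2 ^ j0) := mul_le_mul t3 t2 (abs_nonneg _) (by positivity)
          _ = 2 * Λ * (N / 2 ^ j0) := by ring
          _ ≤ 2 * Λ * (2 * 2 ^ j1) := by gcongr
          _ = _ := by ring
      have t5 : |(y i1 : ℝ) / 2 ^ j1 - y0 i1 / 2 ^ j1| ≤ 5 * Λ := by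
        rw [← sub_div, abs_div, abs_of_pos (show (0 : ℝ) < 2 ^ j1 by positivity),
          div_le_iff₀ (by positivity)]
        have : Λ ≤ Λ * 2 ^ j1 := by nlinarith
        rw [abs_le] at t1 t4 ⊢
        constructor <;> linarith [t1.1, t1.2, t4.1, t4.2]
      have t6 := abs_div_two_pow (y i1) j1
      rw [abs_le] at t5 t6 ⊢
      constructor <;> linarith [t5.1, t5.2, t6.1, t6.2]
  have q3 : (B.card : ℝ) ≤ Λ * (N ^ s) ^ k * (13 * Λ) / M := by
    rw [le_div_iff₀ hM0]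
    refine q1.trans (q2.trans (mul_le_mul_of_nonneg_right ?_ (by positivity)))
    exact h.labc' hθ
  refine (card_le_mul_of_fib _ (fun y => y i1 / 2 ^ j1) B ?_
    (M := k2 k Λ * ((2 : ℝ) ^ j1) ^ s * (N ^ s) ^ k) fun m _ => ?_).trans ?_
  · intro y hy
    have h2 := (mem_filter.1 hy).2
    refine mem_filter.2 ⟨?_, h2⟩
    obtain ⟨t, ht⟩ := card_pos.1 (Nat.cast_pos.1 (hM0.trans h2))
    obtain ⟨y', hy', _⟩ := mem_image.1 ht
    exact mem_image.2 ⟨y', (mem_filter.1 hy').1, (mem_filter.1 hy').2⟩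
  · refine le_trans ?_ (h.slab H h1 i1 m)
    exact_mod_cast card_le_card (filter_subset_filter _ (filter_subset _ _))
  · refine (mul_le_mul_of_nonneg_right q3 (by positivity)).trans (le_of_eq ?_)
    rw [hM, k5]
    field_simp
    ring

/-- **choice of the window** in the coordinate `i1` -/
theorem HypZ.window [DecidableEq ι] {j0 j1 : ℕ}
    (h : HypZ k i0 i1 N s κ Λ (2 ^ j0) Y P b W τ) (H : Std D k T N s Λ) (h1 : j1 < T)
    (hρ : N / 2 ^ j0 ≤ 2 * 2 ^ j1) {Y5 : Finset (D → ℤ)} {A : D → Finset ℤ} {B0 B1 : Finset ℤ}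
    (hR : Reg k T j0 j1 i0 i1 N s Λ Y Y5 A B0 B1) :
    ∃ (m : ℤ) (P2 : Finset β) (W2 : β → Finset (D → ℤ)), P2 ⊆ P ∧
      (P.card : ℝ) ≤ 4 * Λ * k3 k Λ * k2 k Λ * P2.card ∧
      ∀ θ ∈ P2, W2 θ ⊆ W θ ∧ W2 θ ⊆ Y5 ∧ (∀ y ∈ W2 θ, y i1 / 2 ^ j1 = m) ∧
        (N ^ s) ^ k * ((2 : ℝ) ^ j1) ^ s / (4 * Λ * k3 k Λ) ≤ (W2 θ).card ∧
        (((W2 θ).image (τ θ)).card : ℝ) ≤
          k5 k Λ * ((N ^ s) ^ k * ((2 : ℝ) ^ j1) ^ s / N ^ s) := by
  classical
  have hΛ := H.hΛ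
  have hN := H.hN
  have g2 := one_le_k2 k hΛ
  have g3 := one_le_k3 k hΛ
  set M := k5 k Λ * ((N ^ s) ^ k * ((2 : ℝ) ^ j1) ^ s / N ^ s) with hM
  set W1 : β → Finset (D → ℤ) := fun θ => (W θ ∩ Y5).filter fun y =>
    ((((W θ).filter fun y' => y' i1 / 2 ^ j1 = y i1 / 2 ^ j1).image (τ θ)).card : ℝ) ≤ M with hW1
  have a1 : ∀ θ ∈ P, (N ^ s) ^ (k + 1) / (2 * Λ) ≤ (W1 θ).card := by
    intro θ hθ
    have e1 : W θ ⊆ W1 θ ∪ (Y \ Y5) ∪ (richY k T s Λ Y).filter fun y => M <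
        (((W θ).filter fun y' => y' i1 / 2 ^ j1 = y i1 / 2 ^ j1).image (τ θ)).card := by
      intro y hy
      simp only [mem_union, hW1, mem_filter, mem_inter, mem_sdiff]
      by_cases q : y ∈ Y5
      · rcases le_or_gt ((((W θ).filter fun y' => y' i1 / 2 ^ j1 = y i1 / 2 ^ j1).image
          (τ θ)).card : ℝ) M with q' | q'
        · exact Or.inl (Or.inl ⟨⟨hy, q⟩, q'⟩)
        · exact Or.inr ⟨hR.sub q, q'⟩
      · exact Or.inl (Or.inr ⟨h.sub θ hθ hy, q⟩)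
    have e2 := (card_le_card e1).trans ((card_union_le _ _).trans
      (Nat.add_le_add_right (card_union_le _ _) _))
    have e3 := (Nat.cast_le (α := ℝ)).2 e2
    push_cast at e3
    have e4 := h.many_lines H h1 hρ hθ
    have e5 := hR.rem
    have e6 : (N ^ s) ^ (k + 1) / Λ ≤ (W θ).card := by
      rw [div_le_iff₀ (by linarith)]; linarith [h.big θ hθ]
    have e7 : (N ^ s) ^ (k + 1) / Λ = (N ^ s) ^ (k + 1) / (2 * Λ) +
        3 * (N ^ s) ^ (k + 1) / (10 * Λ) + 2 * ((N ^ s) ^ (k + 1) / (10 * Λ)) := by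
      field_simp; norm_num
    have e8 : 0 ≤ (N ^ s) ^ (k + 1) / (10 * Λ) := by positivity
    rw [← hM] at e4
    linarith
  set f : β → ℤ → ℝ := fun θ m => ((W1 θ).filter fun y => y i1 / 2 ^ j1 = m).card with hf
  set u := (N ^ s) ^ k * ((2 : ℝ) ^ j1) ^ s with hu
  have hu0 : 0 < u := by positivity
  have hP : (0 : ℝ) < P.card := by exact_mod_cast h.ne.card_pos
  have a2 : ∃ m ∈ B1, P.card * (u / (2 * Λ * k3 k Λ)) ≤ ∑ θ ∈ P, f θ m := by
    have e1 : ∀ θ ∈ P, (N ^ s) ^ (k + 1) / (2 * Λ) ≤ ∑ m ∈ B1, f θ m := by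
      intro θ hθ
      refine (a1 θ hθ).trans (le_of_eq ?_)
      rw [card_eq_sum_card_fiberwise (f := fun y => y i1 / 2 ^ j1) (t := B1)
        fun y hy => hR.mB1 y (mem_inter.1 (mem_filter.1 hy).1).2]
      push_cast; rfl
    have e2 : P.card * ((N ^ s) ^ (k + 1) / (2 * Λ)) ≤ ∑ m ∈ B1, ∑ θ ∈ P, f θ m := by
      rw [sum_comm, ← nsmul_eq_mul]; exact card_nsmul_le_sum _ _ _ e1
    have hne : B1.Nonempty := by
      rw [nonempty_iff_ne_empty]
      rintro rfl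
      rw [sum_empty] at e2
      have : 0 < P.card * ((N ^ s) ^ (k + 1) / (2 * Λ)) := by positivity
      linarith
    refine exists_le_of_sum_le hne (le_trans ?_ e2)
    rw [sum_const, nsmul_eq_mul]
    refine (mul_le_mul_of_nonneg_right hR.cB1 (by positivity)).trans (le_of_eq ?_)
    rw [hu]; field_simp; ring
  obtain ⟨m, _, hm⟩ := a2
  refine ⟨m, P.filter fun θ => u / (4 * Λ * k3 k Λ) ≤ f θ m,
    fun θ => (W1 θ).filter fun y => y i1 / 2 ^ j1 = m, filter_subset _ _, ?_, ?_⟩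
  · have e1 : ∑ θ ∈ P, f θ m ≤ (P.filter fun θ => u / (4 * Λ * k3 k Λ) ≤ f θ m).card *
        (k2 k Λ * u) + P.card * (u / (4 * Λ * k3 k Λ)) := by
      rw [← sum_filter_add_sum_filter_not P fun θ => u / (4 * Λ * k3 k Λ) ≤ f θ m]
      refine add_le_add ?_ ?_
      · rw [← nsmul_eq_mul]
        refine sum_le_card_nsmul _ _ _ fun θ _ => ?_
        refine le_trans ?_ ((h.slab H h1 i1 m).trans (le_of_eq (by rw [hu]; ring)))
        refine Nat.cast_le.2 (card_le_card (filter_subset_filter _ fun y hy => ?_))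
        exact hR.sub (mem_inter.1 (mem_filter.1 hy).1).2
      · refine (sum_le_card_nsmul _ _ (u / (4 * Λ * k3 k Λ))
          fun θ hθ => (not_le.1 (mem_filter.1 hθ).2).le).trans ?_
        rw [nsmul_eq_mul]
        gcongr
        exact filter_subset _ _
    have e2 : P.card * (u / (4 * Λ * k3 k Λ)) ≤
        (P.filter fun θ => u / (4 * Λ * k3 k Λ) ≤ f θ m).card * (k2 k Λ * u) := by
      have : u / (2 * Λ * k3 k Λ) = 2 * (u / (4 * Λ * k3 k Λ)) := by field_simp; norm_num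
      rw [this] at hm
      linarith
    rw [mul_div_assoc', div_le_iff₀ (by positivity)] at e2
    refine le_of_mul_le_mul_right (e2.trans (le_of_eq ?_)) hu0
    ring
  · intro θ hθ
    refine ⟨fun y hy => (mem_inter.1 (mem_filter.1 (mem_filter.1 hy).1).1).1,
      fun y hy => (mem_inter.1 (mem_filter.1 (mem_filter.1 hy).1).1).2,
      fun y hy => (mem_filter.1 hy).2, (mem_filter.1 hθ).2, ?_⟩
    rcases ((W1 θ).filter fun y => y i1 / 2 ^ j1 = m).eq_empty_or_nonempty with h0 | ⟨y, hy⟩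
    · simp only []
      rw [h0, image_empty, card_empty, Nat.cast_zero, hM]
      have := one_le_k5 k hΛ
      positivity
    · obtain ⟨q1, q2⟩ := mem_filter.1 hy
      refine le_trans (Nat.cast_le.2 (card_le_card (image_subset_image ?_))) (mem_filter.1 q1).2
      intro y' hy'
      obtain ⟨q3, q4⟩ := mem_filter.1 hy'
      exact mem_filter.2 ⟨(mem_inter.1 (mem_filter.1 q3).1).1, q4.trans q2.symm⟩

/-- selection of rich fibres with distinct values of `v` -/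
lemma select {α γ : Type*} [DecidableEq γ] (X : Finset α) (τ : α → γ) (v : α → ℤ)
    {Pn F S L : ℝ} (hP : 0 < Pn) (hτ : ((X.image τ).card : ℝ) ≤ Pn) (hF : 0 < F)
    (hv : ∀ c, ((X.filter fun a => v a = c).card : ℝ) ≤ F) (hS : 1 ≤ S) (hL : L ≤ S / 2)
    (hLX : L * F ≤ X.card / 2) : ∃ R ⊆ X, L ≤ R.card ∧ (R.card : ℝ) ≤ S ∧ Set.InjOn v R ∧
      ∀ r ∈ R, (X.card : ℝ) / (2 * Pn) ≤ (X.filter fun a => τ a = τ r).card := by
  classical
  have hR := rich_half X τ hP hτ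
  set Rich := X.filter fun y => (X.card : ℝ) / (2 * Pn) ≤ (X.filter fun y' => τ y' = τ y).card
  have hmany : L ≤ (Rich.image v).card := by
    have h1 := card_le_mul_of_fib Rich v (Rich.image v) (fun y hy => mem_image_of_mem _ hy)
      (M := F) fun c _ => le_trans (Nat.cast_le.2 (card_le_card
        (filter_subset_filter _ (filter_subset _ _)))) (hv c)
    exact le_of_mul_le_mul_right (hLX.trans (hR.trans h1)) hF
  obtain ⟨V, hV, hVc⟩ := exists_subset_card_eq (s := Rich.image v)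
    (n := min (Rich.image v).card ⌊S⌋₊) (min_le_left _ _)
  obtain ⟨R, hR1, hR2, hR3⟩ := exists_subset_injOn_image_eq_of_surjOn (f := v) (Rich : Set α) V
    (fun c hc => by
      obtain ⟨y, hy, e⟩ := mem_image.1 (hV hc)
      exact ⟨y, hy, e⟩)
  have hc : R.card = V.card := by rw [← hR3, card_image_of_injOn hR2]
  refine ⟨R, fun r hr => (mem_filter.1 (hR1 hr)).1, ?_, ?_, hR2,
    fun r hr => (mem_filter.1 (hR1 hr)).2⟩
  · rw [hc, hVc, Nat.cast_min]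
    refine le_min hmany (hL.trans ?_)
    have h1 := Nat.lt_floor_add_one S
    have h2 : (1 : ℝ) ≤ ⌊S⌋₊ := by exact_mod_cast Nat.floor_pos.2 hS
    linarith
  · rw [hc, hVc]
    exact le_trans (by exact_mod_cast min_le_right _ _) (Nat.floor_le (by linarith))

end Crest.Agent.N76.LG
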