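import Crest.Agent.N76.LG.Z2

/-! # Row 76, Lemma G (lattice form), part 3: the anisotropic planar set (helper96) -/

set_option autoImplicit false

namespace Crest.Agent.N76.LG

open Finset Function
open Crest.Agent.N76.MK

variable {D : Type*} [Fintype D] [DecidableEq D]
variable {β ι : Type*} {k : ℕ} {i0 i1 : D} {N s κ Λ ρ₀ : ℝ} {Y : Finset (D → ℤ)} {P : Finset β}
  {b : β → D → ℝ} {W : β → Finset (D → ℤ)} {τ : β → (D → ℤ) → ι} {T : ℕ}

/-- the anisotropic planar projection -/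
def pl2 (i0 i1 : D) (j0 j1 : ℕ) (c0 m : ℤ) (y : D → ℤ) : Fin 2 → ℤ :=
  ![y i0 / 2 ^ j0 + c0, y i1 - m * 2 ^ j1]

def k6 (k : ℕ) (Λ : ℝ) : ℝ :=
  (8 * Λ * k3 k Λ ^ (k + 1)) * (8 * Λ * k3 k Λ * k5 k Λ) * (k4 k Λ * (5 * Λ) ^ (k + 1)) * (7 * Λ)

omit [Fintype D] [DecidableEq D] in
lemma pl2_phi {j0 j1 : ℕ} {c0 m : ℤ} {a : ℝ} (ha : |2 ^ j0 * a| ≤ 1) (y : D → ℤ) :
    |(pl2 i0 i1 j0 j1 c0 m y 1 : ℝ) - pl2 i0 i1 j0 j1 c0 m y 0 * (2 ^ j0 * a) +
      (m * 2 ^ j1 + c0 * (2 ^ j0 * a)) - (y i1 - y i0 * a)| ≤ 1 := by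
  have h1 := abs_div_two_pow (y i0) j0
  have e : (pl2 i0 i1 j0 j1 c0 m y 1 : ℝ) - pl2 i0 i1 j0 j1 c0 m y 0 * (2 ^ j0 * a) +
      (m * 2 ^ j1 + c0 * (2 ^ j0 * a)) - (y i1 - y i0 * a) =
      -((((y i0 / 2 ^ j0 : ℤ) : ℝ) - y i0 / 2 ^ j0) * (2 ^ j0 * a)) := by
    simp only [pl2, Matrix.cons_val_zero, Matrix.cons_val_one]
    push_cast
    field_simp
    ring
  rw [e, abs_neg, abs_mul]
  exact mul_le_one₀ h1 (abs_nonneg _) ha

set_option maxHeartbeats 400000 in
lemma HypZ.dir_set [DecidableEq ι] {j0 j1 : ℕ}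
    (h : HypZ k i0 i1 N s κ Λ (2 ^ j0) Y P b W τ) (H : Std D k T N s Λ)
    (hi : i0 ≠ i1) (hρ : 2 ^ j1 ≤ N / 2 ^ j0) {Y5 : Finset (D → ℤ)} {A : D → Finset ℤ} {B0 B1 : Finset ℤ}
    (hR : Reg k T j0 j1 i0 i1 N s Λ Y Y5 A B0 B1) (c0 m : ℤ) {θ : β} (hθ : θ ∈ P)
    (W2 : Finset (D → ℤ)) (w1 : W2 ⊆ W θ) (w2 : W2 ⊆ Y5)
    (w4 : (N ^ s) ^ k * ((2 : ℝ) ^ j1) ^ s / (4 * Λ * k3 k Λ) ≤ W2.card)
    (w5 : ((W2.image (τ θ)).card : ℝ) ≤ k5 k Λ * ((N ^ s) ^ k * ((2 : ℝ) ^ j1) ^ s / N ^ s)) :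
    ∃ (Ya : Finset (Fin 2 → ℤ)) (lab : (Fin 2 → ℤ) → D → ℤ),
      Ya ⊆ W2.image (pl2 i0 i1 j0 j1 c0 m) ∧ (((2 : ℝ) ^ j1) ^ s) ^ 2 ≤ k6 k Λ * Ya.card ∧
      ((Ya.image lab).card : ℝ) ≤ ((2 : ℝ) ^ j1) ^ s ∧
      ∀ z ∈ Ya, ∀ z' ∈ Ya, lab z = lab z' →
        |(z 1 : ℝ) - z' 1 - ((z 0 : ℝ) - z' 0) * (2 ^ j0 * b θ i1)| ≤ 3 * Λ := by
  classical
  have hΛ := H.hΛ
  have hN := H.hN
  have g3 := one_le_k3 k hΛ
  have g4 := one_le_k4 k hΛ
  have g5 := one_le_k5 k hΛ
  set S1 := ((2 : ℝ) ^ j1) ^ s with hS1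
  set S0 := ((2 : ℝ) ^ j0) ^ s with hS0
  set SN := N ^ s with hSN
  have s1 : 1 ≤ S1 := Real.one_le_rpow (one_le_two_pow _) H.hs
  have s0 : 0 < S0 := by positivity
  have sN : 0 < SN := by positivity
  have s2 : S1 * S0 ≤ SN := by
    rw [hS1, hS0, ← Real.mul_rpow (by positivity) (by positivity)]
    exact Real.rpow_le_rpow (by positivity) ((le_div_iff₀ (by positivity)).1 hρ) H.hs
  set a := b θ i1 with ha
  have hsl : |2 ^ j0 * a| ≤ 1 := h.slope θ hθ
  set φ : (D → ℤ) → ℝ := fun y => y i1 - y i0 * a with hφ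
  have hφt : ∀ y ∈ W2, ∀ y' ∈ W2, τ θ y = τ θ y' → |φ y - φ y'| ≤ Λ := by
    intro y hy y' hy' e
    have := h.tube θ hθ y (w1 hy) y' (w1 hy') e i1
    convert this using 2
    simp only [hφ]; ring
  have hcard : (univ.erase i1).card = k := by
    rw [card_erase_of_mem (mem_univ i1), card_univ, H.hk]; rfl
  obtain ⟨R, r1, r2, r3, r4, r5⟩ := select W2 (τ θ) (fun y => ⌊φ y⌋) (F := (k3 k Λ * SN) ^ k)
    (S := S1) (L := S1 / (8 * Λ * k3 k Λ ^ (k + 1))) (by positivity) w5 (by positivity)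
    (by
      intro c
      have h1 : (W2.filter fun y => ⌊φ y⌋ = c).card ≤
          (Fintype.piFinset fun i => if i = i1 then {0} else A i).card := by
        refine card_le_card_of_injOn (fun y => update y i1 0) ?_ ?_
        · intro y hy
          rw [mem_coe, Fintype.mem_piFinset]
          intro i
          split_ifs with e
          · subst e; simp
          · simp only [update_of_ne e]; exact hR.mA y (w2 (mem_filter.1 hy).1) i
        · intro y hy y' hy' e
          have h0 : y i0 = y' i0 := by simpa [update_of_ne hi] using congrFun e i0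
          have h2 := Int.abs_sub_lt_one_of_floor_eq_floor
            ((mem_filter.1 hy).2.trans (mem_filter.1 hy').2.symm)
          have h3 : φ y - φ y' = (y i1 : ℝ) - y' i1 := by simp only [hφ, h0]; ring
          rw [h3] at h2
          have h4 : |y i1 - y' i1| < 1 := by exact_mod_cast h2
          funext i
          by_cases e1 : i = i1
          · rw [e1]; rw [abs_lt] at h4; omega
          · simpa [update_of_ne e1] using congrFun e i
      rw [Fintype.card_piFinset, ← mul_prod_erase univ _ (mem_univ i1), if_pos rfl, card_singleton,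
        one_mul] at h1
      calc _ ≤ ∏ i ∈ univ.erase i1, (((if i = i1 then {0} else A i : Finset ℤ)).card : ℝ) := by
            exact_mod_cast h1
        _ ≤ ∏ _i ∈ univ.erase i1, (k3 k Λ * SN) :=
            prod_le_prod (fun _ _ => Nat.cast_nonneg _) fun i hi => by
              rw [if_neg (ne_of_mem_erase hi)]; exact hR.cA i
        _ = _ := by rw [prod_const, hcard])
    s1 (div_le_div_of_nonneg_left (by linarith) (by norm_num)
      (by nlinarith [one_le_pow₀ (n := k + 1) g3]))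
    (by
      refine le_trans (le_of_eq ?_) (div_le_div_of_nonneg_right w4 (by norm_num))
      field_simp; ring)
  set pl := pl2 i0 i1 j0 j1 c0 m with hpl
  set Tr : (D → ℤ) → Finset (D → ℤ) := fun r => W2.filter fun y => τ θ y = τ θ r with hTr
  set Ya := R.biUnion fun r => (Tr r).image pl with hYa
  have hch : ∀ z : Fin 2 → ℤ, ∃ r, z ∈ Ya → r ∈ R ∧ z ∈ (Tr r).image pl := by
    intro z
    by_cases hz : z ∈ Ya
    · obtain ⟨r, q1, q2⟩ := mem_biUnion.1 hz
      exact ⟨r, fun _ => ⟨q1, q2⟩⟩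
    · exact ⟨0, fun q => absurd q hz⟩
  choose lab hlab using hch
  refine ⟨Ya, lab, biUnion_subset.2 fun r _ => image_subset_image (filter_subset _ _), ?_, ?_, ?_⟩
  · have t1 : ∀ r ∈ R, SN / (8 * Λ * k3 k Λ * k5 k Λ) ≤ (Tr r).card := by
      intro r hr
      refine le_trans ?_ (r5 r hr)
      refine le_trans (le_of_eq ?_) (div_le_div_of_nonneg_right w4 (by positivity))
      field_simp; ring
    have t2 : ∀ r ∈ R, ((Tr r).card : ℝ) ≤
        ((Tr r).image pl).card * (k4 k Λ * S0 * (5 * Λ) ^ (k + 1)) := by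
      intro r _
      refine card_le_mul_of_fib _ pl _ (fun y hy => mem_image_of_mem _ hy) fun z hz => ?_
      obtain ⟨y0, hy0, rfl⟩ := mem_image.1 hz
      have hy5 := w2 (mem_filter.1 hy0).1
      refine (card_le_mul_of_fib _ (fun y => y i0)
        ((A i0).filter fun v => v / 2 ^ j0 = y0 i0 / 2 ^ j0) ?_ (M := (5 * Λ) ^ (k + 1)) ?_).trans
        (mul_le_mul_of_nonneg_right (hR.hA0 y0 hy5) (by positivity))
      · intro y hy
        refine mem_filter.2 ⟨hR.mA y (w2 (mem_filter.1 (mem_filter.1 hy).1).1) i0, ?_⟩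
        have := congrFun (mem_filter.1 hy).2 0
        simpa [hpl, pl2] using this
      · intro v _
        rcases (((Tr r).filter fun y => pl y = pl y0).filter fun y => y i0 = v).eq_empty_or_nonempty
          with q | ⟨y1, hy1⟩
        · rw [q]; simp only [card_empty, Nat.cast_zero]; positivity
        · rw [← H.hk]
          refine le_trans (Nat.cast_le.2 ?_) (card_box (D := D) hΛ)
          refine card_le_card_of_injOn (fun y => y - y1) ?_ fun y _ y' _ e => sub_left_injective e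
          intro y hy
          simp only [coe_filter, Set.mem_ofPred_eq, mem_filter, hTr] at hy hy1
          refine mem_box fun i => ?_
          have h3 := h.tube θ hθ y (w1 hy.1.1.1) y1 (w1 hy1.1.1.1)
            (hy.1.1.2.trans hy1.1.1.2.symm) i
          rw [hy.2, hy1.2, sub_self, zero_mul, sub_zero] at h3
          simp only [Pi.sub_apply]
          push_cast
          linarith
    have t3 : ∑ r ∈ R, (((Tr r).image pl).card : ℝ) ≤ Ya.card * (7 * Λ) := by
      have e1 : ∀ r ∈ R, (((Tr r).image pl).card : ℝ) =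
          ∑ z ∈ Ya, if z ∈ (Tr r).image pl then (1 : ℝ) else 0 := by
        intro r hr
        rw [sum_boole, filter_mem_eq_inter, inter_eq_right.2 (subset_biUnion_of_mem
          (fun r => (Tr r).image pl) hr)]
      rw [sum_congr rfl e1, sum_comm, ← nsmul_eq_mul]
      refine sum_le_card_nsmul _ _ _ fun z _ => ?_
      rw [sum_boole, ← card_image_of_injOn (f := fun y => ⌊φ y⌋)
        (r4.mono (coe_subset.2 (filter_subset _ _)))]
      refine (card_int_close _ ((z 1 : ℝ) - z 0 * (2 ^ j0 * a) + (m * 2 ^ j1 + c0 * (2 ^ j0 * a)))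
        (Λ + 2) (by linarith) ?_).trans (by linarith)
      intro c hc
      obtain ⟨r, hr, rfl⟩ := mem_image.1 hc
      obtain ⟨y, hy, rfl⟩ := mem_image.1 (mem_filter.1 hr).2
      have q1 := abs_le.1 (pl2_phi (i0 := i0) (i1 := i1) (j1 := j1) (c0 := c0) (m := m) hsl y)
      have q2 := abs_le.1 (hφt y (mem_filter.1 hy).1 r (r1 (mem_filter.1 hr).1) (mem_filter.1 hy).2)
      have q3 := Int.floor_le (φ r)
      have q4 := Int.lt_floor_add_one (φ r)
      simp only [hφ] at q2 q3 q4 ⊢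
      rw [abs_le]
      constructor <;> linarith [q1.1, q1.2, q2.1, q2.2]
    have t4 : S1 / (8 * Λ * k3 k Λ ^ (k + 1)) * (SN / (8 * Λ * k3 k Λ * k5 k Λ)) ≤
        Ya.card * (7 * Λ) * (k4 k Λ * S0 * (5 * Λ) ^ (k + 1)) := by
      calc _ ≤ R.card * (SN / (8 * Λ * k3 k Λ * k5 k Λ)) := by gcongr
        _ ≤ ∑ r ∈ R, ((Tr r).card : ℝ) := by
            rw [← nsmul_eq_mul]; exact card_nsmul_le_sum _ _ _ t1
        _ ≤ _ := sum_le_sum t2
        _ ≤ _ := by rw [← sum_mul]; gcongr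
    rw [div_mul_div_comm, div_le_iff₀ (by positivity)] at t4
    refine le_of_mul_le_mul_right ?_ s0
    calc S1 ^ 2 * S0 = S1 * (S1 * S0) := by ring
      _ ≤ S1 * SN := by gcongr
      _ ≤ _ := t4
      _ = _ := by rw [k6]; ring
  · refine le_trans (Nat.cast_le.2 (card_le_card ?_)) r3
    intro r hr
    obtain ⟨z, hz, rfl⟩ := mem_image.1 hr
    exact (hlab z hz).1
  · intro z hz z' hz' e
    obtain ⟨y, hy, rfl⟩ := mem_image.1 (hlab z hz).2
    obtain ⟨y', hy', rfl⟩ := mem_image.1 (hlab z' hz').2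
    have q1 := abs_le.1 (pl2_phi (i0 := i0) (i1 := i1) (j1 := j1) (c0 := c0) (m := m) hsl y)
    have q2 := abs_le.1 (pl2_phi (i0 := i0) (i1 := i1) (j1 := j1) (c0 := c0) (m := m) hsl y')
    have q3 := abs_le.1 (hφt y (mem_filter.1 hy).1 y' (mem_filter.1 hy').1
      (by rw [(mem_filter.1 hy).2, (mem_filter.1 hy').2, e]))
    simp only [hφ] at q3
    rw [abs_le]
    constructor <;> linarith [q1.1, q1.2, q2.1, q2.2, q3.1, q3.2]

omit [DecidableEq D] in
lemma aux_div (y : ℤ) (a t : ℕ) : y / 2 ^ a / 2 ^ t = y / 2 ^ (a + t) := by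
  rw [Int.ediv_ediv_of_nonneg (by positivity), pow_add]

omit [DecidableEq D] in
/-- the blocks of the first coordinate form a Frostman set -/
lemma Reg.fro0 {j0 j1 : ℕ} (H : Std D k T N s Λ) {Y5 : Finset (D → ℤ)} {A : D → Finset ℤ}
    {B0 B1 : Finset ℤ} (hR : Reg k T j0 j1 i0 i1 N s Λ Y Y5 A B0 B1) (V : Finset ℤ)
    (hV : ∀ v ∈ V, ∃ y ∈ Y5, v = y i0 / 2 ^ j0) {x r : ℝ} (hr : 1 ≤ r)
    (hx : ∀ v ∈ V, x ≤ v ∧ (v : ℝ) ≤ x + r) : (V.card : ℝ) ≤ 5 * k3 k Λ * k4 k Λ * r ^ s := by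
  have hΛ := H.hΛ
  have hN := H.hN
  have g3 := one_le_k3 k hΛ
  have g4 := one_le_k4 k hΛ
  have hr0 : 0 < r ^ s := by positivity
  have hVB : V ⊆ B0 := fun v hv => by
    obtain ⟨y, hy, rfl⟩ := hV v hv
    exact hR.mB0 y hy
  rcases le_total r (N / 2 ^ j0) with q | q
  · obtain ⟨t, t1, t2⟩ := exists_nat_pow_near hr (show (1 : ℝ) < 2 by norm_num)
    have ht : j0 + t < T := by
      rw [H.hTN, pow_add]
      rw [le_div_iff₀ (by positivity)] at q
      nlinarith [one_le_two_pow j0]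
    refine (card_le_mul_of_fib V (fun v => v / 2 ^ t) (V.image fun v => v / 2 ^ t)
      (fun v hv => mem_image_of_mem _ hv) (M := k4 k Λ * r ^ s) ?_).trans ?_
    · intro c hc
      obtain ⟨v, hv, rfl⟩ := mem_image.1 hc
      obtain ⟨y, hy, rfl⟩ := hV v hv
      rw [aux_div]
      refine le_trans (Nat.cast_le.2 (card_le_card (filter_subset_filter _ hVB)))
        ((hR.hB0 y hy t ht).trans ?_)
      exact mul_le_mul_of_nonneg_left (Real.rpow_le_rpow (by positivity) t1 H.hs) (by linarith)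
    · have h1 : ((V.image fun v => v / 2 ^ t).card : ℝ) ≤ 2 * 2 + 1 := by
        refine card_int_close _ (x / 2 ^ t + 1) 2 (by norm_num) fun c hc => ?_
        obtain ⟨v, hv, rfl⟩ := mem_image.1 hc
        have q1 := abs_le.1 (abs_div_two_pow v t)
        have q2 : x / 2 ^ t ≤ v / 2 ^ t := div_le_div_of_nonneg_right (hx v hv).1 (by positivity)
        have q3 : (v : ℝ) / 2 ^ t ≤ x / 2 ^ t + 2 := by
          rw [div_add' _ _ _ (by positivity)]
          refine div_le_div_of_nonneg_right ?_ (by positivity)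
          rw [pow_succ] at t2
          linarith [(hx v hv).2]
        rw [abs_le]; constructor <;> linarith [q1.1, q1.2]
      have h2 : 0 ≤ k4 k Λ * r ^ s := by positivity
      nlinarith
  · refine le_trans (Nat.cast_le.2 (card_le_card hVB)) (hR.cB0.trans ?_)
    rw [← Real.div_rpow (by linarith) (by positivity)]
    have h1 := Real.rpow_le_rpow (by positivity) q H.hs
    calc _ ≤ k3 k Λ * r ^ s := by gcongr
      _ = 1 * k3 k Λ * 1 * r ^ s := by ring
      _ ≤ _ := by gcongr; norm_num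

end Crest.Agent.N76.LG
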