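import Crest.Agent.N76.LG.Z3

/-! # Row 76, Lemma G (lattice form), part 4: conclusion (helper96) -/

set_option autoImplicit false

namespace Crest.Agent.N76.LG

open Finset Function
open Crest.Agent.N76.MK

variable {D : Type*} [Fintype D] [DecidableEq D]
variable {β ι : Type*} {k : ℕ} {i0 i1 : D} {N s κ Λ ρ₀ : ℝ} {Y : Finset (D → ℤ)} {P : Finset β}
  {b : β → D → ℝ} {W : β → Finset (D → ℤ)} {τ : β → (D → ℤ) → ι} {T : ℕ}

lemma one_le_k6 (k : ℕ) {Λ : ℝ} (h : 1 ≤ Λ) : 1 ≤ k6 k Λ := by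
  have g3 := one_le_k3 k h
  have g4 := one_le_k4 k h
  have g5 := one_le_k5 k h
  have m : ∀ {a b : ℝ}, 1 ≤ a → 1 ≤ b → 1 ≤ a * b := one_le_mul_of_one_le_of_one_le
  exact m (m (m (m (by linarith) (one_le_pow₀ g3)) (m (m (by linarith) g3) g5))
    (m g4 (one_le_pow₀ (by linarith)))) (by linarith)

/-- the total loss -/
def k7 (k : ℕ) (Λ : ℝ) : ℝ := 1000 * Λ ^ 3 * k2 k Λ * (k3 k Λ * k4 k Λ) ^ 2 * k6 k Λ

lemma Fr.sub {γ : Type*} {Θ Θ' : Finset β} {a : β → γ → ℝ} {J : Finset γ} {δ δ' κ Λ M L : ℝ}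
    (h : Fr Θ a J δ κ Λ) (hs : Θ' ⊆ Θ) (hM : (Θ.card : ℝ) ≤ M * Θ'.card) (hδ : δ ≤ L * δ')
    (hδ' : 0 < δ') (hδ1 : δ ≤ 1) (hL : 1 ≤ L) (hκ : 0 ≤ κ) (hκ1 : κ ≤ 1) (hΛ : 0 ≤ Λ) :
    Fr Θ' a J δ' κ (Λ * L * M) := by
  classical
  intro v ρ h1 h2
  have hρ : 0 < ρ := hδ'.trans_le h1
  have q1 := h v (max ρ δ) (le_max_right _ _) (max_le h2 hδ1)
  have q2 : (max ρ δ) ^ κ ≤ L * ρ ^ κ := by
    have : max ρ δ ≤ L * ρ := max_le (by nlinarith) (hδ.trans (by nlinarith))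
    refine (Real.rpow_le_rpow (by positivity) this hκ).trans ?_
    rw [Real.mul_rpow (by linarith) hρ.le]
    refine mul_le_mul_of_nonneg_right ?_ (by positivity)
    conv_rhs => rw [← Real.rpow_one L]
    exact Real.rpow_le_rpow_of_exponent_le hL hκ1
  calc _ ≤ ((Θ.filter fun θ => ∀ j ∈ J, |a θ j - v j| ≤ max ρ δ).card : ℝ) := by
        refine Nat.cast_le.2 (card_le_card fun θ hθ => ?_)
        rw [mem_filter] at hθ ⊢
        exact ⟨hs hθ.1, fun j hj => (hθ.2 j hj).trans (le_max_left _ _)⟩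
    _ ≤ Λ * (max ρ δ) ^ κ * Θ.card := q1
    _ ≤ Λ * (L * ρ ^ κ) * (M * Θ'.card) := by gcongr
    _ = _ := by ring

set_option maxHeartbeats 800000 in
theorem HypZ.false {j0 j1 : ℕ} (h : HypZ k i0 i1 N s κ Λ (2 ^ j0) Y P b W τ)
    (H : Std D k T N s Λ) (hi : i0 ≠ i1) (hρ : 2 ^ j1 ≤ N / 2 ^ j0)
    (hρ' : N / 2 ^ j0 ≤ 2 * 2 ^ j1) (hκ : 0 ≤ κ) (hκ1 : κ ≤ 1) {ε D₀ : ℝ}
    (hBR : BR.Body s κ ε D₀) (hD : 1 / (7 * Λ * 2 ^ j1) ≤ D₀)
    (hQ : (120 * k7 k Λ) ^ 16 ≤ (7 * Λ * 2 ^ j1) ^ ε) : False := by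
  classical
  have hΛ := H.hΛ
  have hN := H.hN
  have g2 := one_le_k2 k hΛ
  have g3 := one_le_k3 k hΛ
  have g4 := one_le_k4 k hΛ
  have g6 := one_le_k6 k hΛ
  have r0 := one_le_two_pow j0
  have r1 := one_le_two_pow j1
  have h0 : j0 < T := by
    rw [H.hTN]; rw [le_div_iff₀ (by positivity)] at hρ; nlinarith
  have h1 : j1 < T := by
    rw [H.hTN]; rw [le_div_iff₀ (by positivity)] at hρ; nlinarith
  obtain ⟨Y5, A, B0, B1, hR⟩ := h.reg H h0 h1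
  obtain ⟨m, P2, W2, p1, p2, p3⟩ := h.window H h1 hρ' hR
  have hY5 : Y5 ⊆ Y := hR.sub.trans (filter_subset _ _)
  set c0 : ℤ := ⌈2 * Λ * 2 ^ j1⌉ + 1 with hc0
  set pl := pl2 i0 i1 j0 j1 c0 m with hpl
  set Y6 := Y5.filter fun y => y i1 / 2 ^ j1 = m with hY6
  set Z := Y6.image pl with hZ
  set S1 := ((2 : ℝ) ^ j1) ^ s with hS1
  have s1 : 1 ≤ S1 := Real.one_le_rpow r1 H.hs
  set M : ℝ := 7 * Λ * 2 ^ j1 with hM
  have hM1 : 2 ^ j1 ≤ M := by rw [hM]; nlinarith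
  have s2 : S1 ≤ M ^ s := Real.rpow_le_rpow (by positivity) hM1 H.hs
  have s3 : M ^ s ≤ 7 * Λ * S1 := by
    rw [hM, Real.mul_rpow (by positivity) (by positivity)]
    refine mul_le_mul_of_nonneg_right ?_ (by positivity)
    conv_rhs => rw [← Real.rpow_one (7 * Λ)]
    exact Real.rpow_le_rpow_of_exponent_le (by linarith) H.hs1
  have key : ∀ θ, ∃ (Ya : Finset (Fin 2 → ℤ)) (lab : (Fin 2 → ℤ) → D → ℤ), θ ∈ P2 →
      Ya ⊆ Z ∧ S1 ^ 2 ≤ k6 k Λ * Ya.card ∧ ((Ya.image lab).card : ℝ) ≤ S1 ∧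
      ∀ z ∈ Ya, ∀ z' ∈ Ya, lab z = lab z' →
        |(z 1 : ℝ) - z' 1 - ((z 0 : ℝ) - z' 0) * (2 ^ j0 * b θ i1)| ≤ 3 * Λ := by
    intro θ
    by_cases hθ : θ ∈ P2
    · obtain ⟨w1, w2, w3, w4, w5⟩ := p3 θ hθ
      obtain ⟨Ya, lab, q1, q2⟩ := h.dir_set H hi hρ hR c0 m (p1 hθ) (W2 θ) w1 w2 w4 w5
      exact ⟨Ya, lab, fun _ => ⟨q1.trans (image_subset_image fun y hy =>
        mem_filter.2 ⟨w2 hy, w3 y hy⟩), q2⟩⟩
    · exact ⟨∅, fun _ => 0, fun q => absurd q hθ⟩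
  choose Ya lab hYa using key
  have hP2 : P2.Nonempty := by
    have : (0 : ℝ) < P.card := by exact_mod_cast h.ne.card_pos
    rw [nonempty_iff_ne_empty]
    rintro rfl
    simp only [card_empty, Nat.cast_zero, mul_zero] at p2
    linarith
  have hprj : ∀ j, ((prj j Z).card : ℝ) ≤ 2 * k3 k Λ * k4 k Λ * S1 ^ 1 := by
    rw [Fin.forall_fin_two, pow_one]
    constructor
    · rcases Y6.eq_empty_or_nonempty with q | ⟨y0, hy0⟩
      · rw [hZ, q]; simp only [prj, image_empty, card_empty, Nat.cast_zero]; positivity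
      · have q1 := hR.hA1 y0 (mem_filter.1 hy0).1
        have q2 : prj 0 Z ⊆ ((A i1).filter fun v => v / 2 ^ j1 = y0 i1 / 2 ^ j1).image
            fun v => ![0, v - m * 2 ^ j1] := by
          intro z hz
          obtain ⟨z', hz', rfl⟩ := mem_image.1 hz
          obtain ⟨y, hy, rfl⟩ := mem_image.1 hz'
          refine mem_image.2 ⟨y i1, mem_filter.2 ⟨hR.mA y (mem_filter.1 hy).1 i1,
            (mem_filter.1 hy).2.trans (mem_filter.1 hy0).2.symm⟩, ?_⟩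
          funext i; fin_cases i <;> simp [hpl, pl2]
        refine le_trans (Nat.cast_le.2 ((card_le_card q2).trans card_image_le)) (q1.trans ?_)
        have : 0 ≤ k4 k Λ * S1 := by positivity
        nlinarith
    · have q2 : prj 1 Z ⊆ B0.image fun v => ![v + c0, 0] := by
        intro z hz
        obtain ⟨z', hz', rfl⟩ := mem_image.1 hz
        obtain ⟨y, hy, rfl⟩ := mem_image.1 hz'
        refine mem_image.2 ⟨_, hR.mB0 y (mem_filter.1 hy).1, ?_⟩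
        funext i; fin_cases i <;> simp [hpl, pl2]
      refine le_trans (Nat.cast_le.2 ((card_le_card q2).trans card_image_le)) (hR.cB0.trans ?_)
      rw [← Real.div_rpow (by linarith) (by positivity)]
      have q3 : (N / 2 ^ j0) ^ s ≤ 2 * S1 := by
        refine (Real.rpow_le_rpow (by positivity) hρ' H.hs).trans ?_
        rw [Real.mul_rpow (by positivity) (by positivity)]
        refine mul_le_mul_of_nonneg_right ?_ (by positivity)
        conv_rhs => rw [← Real.rpow_one 2]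
        exact Real.rpow_le_rpow_of_exponent_le (by norm_num) H.hs1
      calc _ ≤ k3 k Λ * (2 * S1) := by gcongr
        _ = 2 * k3 k Λ * 1 * S1 := by ring
        _ ≤ _ := by gcongr
  have hZc := card_le_of_prj (D := Fin 2) (k := 1) (by simp) le_rfl Z (by nlinarith)
    (by linarith) hprj
  have m1 : ∀ {a b : ℝ}, 1 ≤ a → 1 ≤ b → 1 ≤ a * b := one_le_mul_of_one_le_of_one_le
  have p := fun n => one_le_pow₀ (n := n) hΛ
  have K : ∀ {u v : ℝ}, 0 ≤ u → 1 ≤ v → u * v ≤ k7 k Λ → u ≤ k7 k Λ := fun hu hv q =>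
    (le_mul_of_one_le_right hu hv).trans q
  have e0 : 0 ≤ Λ ^ 3 * k2 k Λ * (k3 k Λ * k4 k Λ) ^ 2 * k6 k Λ := by positivity
  have K1 : 49 * Λ ^ 2 * k6 k Λ ≤ k7 k Λ := K (by positivity)
    (m1 (m1 hΛ g2) (one_le_pow₀ (n := 2) (m1 g3 g4))) (by rw [k7]; linarith)
  have K2 : (2 * k3 k Λ * k4 k Λ) ^ 2 * k6 k Λ ≤ k7 k Λ := K (by positivity)
    (m1 (p 3) g2) (by rw [k7]; linarith)
  have K3 : Λ * (7 * Λ) * (4 * Λ * k3 k Λ * k2 k Λ) ≤ k7 k Λ := K (by positivity)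
    (m1 (m1 g3 (one_le_pow₀ (n := 2) g4)) g6) (by rw [k7]; linarith)
  have K4 : 5 * k3 k Λ * k4 k Λ * (7 * Λ) ≤ k7 k Λ := K (by positivity)
    (m1 (m1 (m1 (p 2) g2) (m1 g3 g4)) g6) (by rw [k7]; linarith)
  have g34 := m1 g3 g4
  have K5 : 2 * k3 k Λ * k4 k Λ ≤ k7 k Λ := by nlinarith
  have K6 : 3 * Λ ≤ k7 k Λ := by nlinarith
  have K0 : 0 ≤ k7 k Λ := by linarith
  refine planar' (D := Fin 2) (d := 1) (i0 := 0) (i1 := 1) (N := M) (Λ := k7 k Λ) (by simp) le_rfl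
    (by decide) hBR H.hs hκ hκ1 (r1.trans hM1) hD (by linarith) 
    (by rw [show 60 * (((1 : ℕ) : ℝ) + 1) * k7 k Λ = 120 * k7 k Λ by norm_num]; exact hQ)
    Z ?_ ?_ (fun j => (hprj j).trans (by gcongr)) P2 hP2
    (fun θ => ![1, 2 ^ j0 * b θ i1]) (fun θ hθ => h.slope θ (p1 hθ)) ?_ Ya lab
    (fun θ hθ => (hYa θ hθ).1) ?_ ?_ ?_ ?_
  · intro z hz
    obtain ⟨y, hy, rfl⟩ := mem_image.1 hz
    rw [Fin.forall_fin_two]
    have q1 := abs_le.1 (abs_div_two_pow (y i0) j0)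
    have q2 : |(y i0 : ℝ) / 2 ^ j0| ≤ 2 * Λ * 2 ^ j1 := by
      rw [abs_div, abs_of_pos (show (0 : ℝ) < 2 ^ j0 by positivity)]
      calc _ ≤ Λ * N / 2 ^ j0 := div_le_div_of_nonneg_right
            (h.bd y (hY5 (mem_filter.1 hy).1) i0) (by positivity)
        _ = Λ * (N / 2 ^ j0) := by ring
        _ ≤ Λ * (2 * 2 ^ j1) := by gcongr
        _ = _ := by ring
    have q3 := Int.le_ceil (2 * Λ * 2 ^ j1)
    have q4 := Int.ceil_lt_add_one (2 * Λ * 2 ^ j1)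
    have q5 : 1 ≤ Λ * 2 ^ j1 := m1 hΛ r1
    have q6 : y i1 - m * 2 ^ j1 = y i1 % 2 ^ j1 := by
      rw [← (mem_filter.1 hy).2, Int.emod_def]; ring
    have q7 := Int.emod_nonneg (y i1) (show (2 : ℤ) ^ j1 ≠ 0 by positivity)
    have q8 := Int.emod_lt_of_pos (y i1) (show (0 : ℤ) < 2 ^ j1 by positivity)
    rw [abs_le] at q2
    simp only [hpl, pl2, Matrix.cons_val_zero, Matrix.cons_val_one, q6]
    refine ⟨⟨?_, ?_⟩, q7, le_trans (by exact_mod_cast q8.le) hM1⟩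
    · have : (0 : ℝ) ≤ ((y i0 / 2 ^ j0 + c0 : ℤ) : ℝ) := by
        rw [hc0]; simp only [Int.cast_add, Int.cast_one]; linarith [q1.1, q2.1]
      exact_mod_cast this
    · rw [hc0, hM]; simp only [Int.cast_add, Int.cast_one]; linarith [q1.2, q2.2]
  · obtain ⟨θ, hθ⟩ := hP2
    have q1 : ((Ya θ).card : ℝ) ≤ Z.card := Nat.cast_le.2 (card_le_card (hYa θ hθ).1)
    calc (M ^ s) ^ (1 + 1) ≤ (7 * Λ * S1) ^ 2 := pow_le_pow_left₀ (by positivity) s3 _
      _ = 49 * Λ ^ 2 * S1 ^ 2 := by ring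
      _ ≤ 49 * Λ ^ 2 * (k6 k Λ * Z.card) :=
          mul_le_mul_of_nonneg_left ((hYa θ hθ).2.1.trans (by gcongr)) (by positivity)
      _ = 49 * Λ ^ 2 * k6 k Λ * Z.card := by ring
      _ ≤ _ := by gcongr
  · have q := h.fro.sub p1 p2 (δ' := 1 / M) (L := 7 * Λ) (by
        rw [hM, show 7 * Λ * (1 / (7 * Λ * 2 ^ j1)) = 1 / 2 ^ j1 by field_simp,
          div_le_div_iff₀ (by linarith) (by positivity)]
        rw [le_div_iff₀ (by positivity)] at hρ; linarith) (by positivity)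
      ((div_le_one (by linarith)).2 ((H.hTN _).1 h0)) (by linarith) hκ hκ1 (by linarith)
    intro v ρ q1 q2
    have q3 := q (fun _ => v 1) ρ q1 q2
    have hρ0 : 0 ≤ ρ ^ κ := Real.rpow_nonneg (le_trans (by positivity) q1) _
    refine le_trans (le_of_eq ?_) (q3.trans (by gcongr))
    simp
  · intro θ hθ
    calc _ ≤ (2 * k3 k Λ * k4 k Λ) ^ 2 * S1 ^ (1 + 1) := hZc
      _ ≤ (2 * k3 k Λ * k4 k Λ) ^ 2 * (k6 k Λ * (Ya θ).card) :=
          mul_le_mul_of_nonneg_left (hYa θ hθ).2.1 (by positivity)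
      _ = (2 * k3 k Λ * k4 k Λ) ^ 2 * k6 k Λ * (Ya θ).card := by ring
      _ ≤ _ := by gcongr
  · intro θ hθ
    refine (hYa θ hθ).2.2.1.trans ?_
    rw [pow_one]
    nlinarith
  · intro θ hθ z hz z' hz' e
    rw [Fin.forall_fin_two]
    refine ⟨by simp; linarith, ((hYa θ hθ).2.2.2 z hz z' hz' e).trans K6⟩
  · intro θ hθ z0 _ x r hr _
    set F := (Ya θ).filter fun y => lab θ y = lab θ z0 ∧ x ≤ y 0 ∧ (y 0 : ℝ) ≤ x + r with hF
    refine (card_le_mul_of_fib F (fun z => z 0 - c0) (F.image fun z => z 0 - c0)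
      (fun z hz => mem_image_of_mem _ hz) (M := 7 * Λ) ?_).trans ?_
    · intro c hc
      obtain ⟨z1, hz1, rfl⟩ := mem_image.1 hc
      rw [← card_image_of_injOn (f := fun z => z 1) (by
        intro z hz z' hz' e
        have := (mem_filter.1 hz).2.trans (mem_filter.1 hz').2.symm
        funext i; fin_cases i
        · exact sub_left_injective this
        · exact e)]
      refine (card_int_close _ (z1 1) (3 * Λ) (by linarith) fun v hv => ?_).trans (by linarith)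
      obtain ⟨z, hz, rfl⟩ := mem_image.1 hv
      obtain ⟨q1, q2⟩ := mem_filter.1 hz
      have q3 := (hYa θ hθ).2.2.2 z (mem_filter.1 q1).1 z1 (mem_filter.1 hz1).1
        ((mem_filter.1 q1).2.1.trans (mem_filter.1 hz1).2.1.symm)
      rwa [show z 0 = z1 0 from sub_left_injective q2, sub_self, zero_mul, sub_zero] at q3
    · have q := hR.fro0 H (F.image fun z => z 0 - c0) (x := x - c0) (by
          intro v hv
          obtain ⟨z, hz, rfl⟩ := mem_image.1 hv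
          obtain ⟨y, hy, rfl⟩ := mem_image.1 ((hYa θ hθ).1 (mem_filter.1 hz).1)
          exact ⟨y, (mem_filter.1 hy).1, by simp [hpl, pl2]⟩) hr (by
          intro v hv
          obtain ⟨z, hz, rfl⟩ := mem_image.1 hv
          have := (mem_filter.1 hz).2.2
          push_cast
          constructor <;> linarith [this.1, this.2])
      calc _ ≤ 5 * k3 k Λ * k4 k Λ * r ^ s * (7 * Λ) := by gcongr
        _ = 5 * k3 k Λ * k4 k Λ * (7 * Λ) * r ^ s := by ring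
        _ ≤ _ := by gcongr

end Crest.Agent.N76.LG
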