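import Crest.Agent.N76.LG.Ladder

/-! # Row 76, Lemma G: the lattice form `LemGZ` (helper96)

After the change of frame: the axes are directions with small projections, the directions
`b θ` (`b θ i0 = 1`) have slopes `|b θ i1| ≤ 1/ρ₀` forming a Frostman set relative to `1/ρ₀`. -/

set_option autoImplicit false

namespace Crest.Agent.N76.LG

open Finset
open Crest.Agent.N76.MK

/-- grid cell of side `ρ` of a lattice point -/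
noncomputable def cel {D : Type*} (ρ : ℝ) (y : D → ℤ) : D → ℤ := fun i => ⌊(y i : ℝ) / ρ⌋

open Classical in
structure HypZ {D β ι : Type*} [Fintype D] [DecidableEq D] (k : ℕ) (i0 i1 : D)
    (N s κ Λ ρ₀ : ℝ) (Y : Finset (D → ℤ)) (P : Finset β) (b : β → D → ℝ)
    (W : β → Finset (D → ℤ)) (τ : β → (D → ℤ) → ι) : Prop where
  ne : P.Nonempty
  bd : ∀ y ∈ Y, ∀ i, |(y i : ℝ)| ≤ Λ * N
  sub : ∀ θ ∈ P, W θ ⊆ Y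
  big : ∀ θ ∈ P, (N ^ s) ^ (k + 1) ≤ Λ * (W θ).card
  cells : ∀ ρ : ℝ, 1 ≤ ρ → ρ ≤ N → ((Y.image (cel ρ)).card : ℝ) * (ρ ^ s) ^ (k + 1) ≤ Λ * Y.card
  proj : ∀ ρ : ℝ, 1 ≤ ρ → ρ ≤ N → ∀ (c : D → ℤ) (j : D),
    ((prj j (Y.filter fun y => cel ρ y = c)).card : ℝ) ≤ Λ * (ρ ^ s) ^ k
  projN : ∀ j, ((prj j Y).card : ℝ) ≤ Λ * (N ^ s) ^ k
  labc : ∀ θ ∈ P, (((W θ).image (τ θ)).card : ℝ) ≤ Λ * (N ^ s) ^ k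
  tube : ∀ θ ∈ P, ∀ y ∈ W θ, ∀ y' ∈ W θ, τ θ y = τ θ y' → ∀ i,
    |(y i : ℝ) - y' i - ((y i0 : ℝ) - y' i0) * b θ i| ≤ Λ
  slope : ∀ θ ∈ P, |ρ₀ * b θ i1| ≤ 1
  fro : Fr P (fun θ i => ρ₀ * b θ i) {i1} (ρ₀ / N) κ Λ

/-- **Lemma G, lattice form** (`ρ₀ = 2^j₀`, window `U = N / ρ₀ ≥ N^lam`). -/
def LemGZ (D : Type) [Fintype D] [DecidableEq D] (k : ℕ) : Prop :=
  ∀ c κ lam : ℝ, 0 < c → 0 < κ → κ < 1 → 0 < lam → ∃ ε N₀ : ℝ, 0 < ε ∧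
    ∀ (β ι : Type) (i0 i1 : D) (N s Λ : ℝ) (j₀ : ℕ) (Y : Finset (D → ℤ)) (P : Finset β)
      (b : β → D → ℝ) (W : β → Finset (D → ℤ)) (τ : β → (D → ℤ) → ι),
      i0 ≠ i1 → N₀ ≤ N → c ≤ s → s ≤ 1 - c → 1 ≤ Λ → Λ ≤ N ^ ε → N ^ lam ≤ N / 2 ^ j₀ →
      ¬ HypZ k i0 i1 N s κ Λ (2 ^ j₀) Y P b W τ

end Crest.Agent.N76.LG
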